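import Vale.Agent.P193.BH.Defs
import Vale.Agent.P193.Prefix.Moves

/-!
P193, W5, inner interface: a finitely presented group over the group of the subshift with
elements for the nice three-cycles of pieces, additive in the base, compatible with splitting the
prefixes and with conjugation. General three-cycles are reduced to these.
-/

namespace Vale.Agent.P193.Pres

open Equiv BH Prefix

variable {Γ : Type} [Group Γ]

/-- The length from which on prefixes are used. -/
abbrev depth : ℕ := 5

variable {S : SFT Γ}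

/-- Long, pairwise incomparable prefixes. -/
def Nice (c : S.Cyc) : Prop :=
  (∀ i, depth ≤ (c.pre i).length) ∧ ∀ i j, i ≠ j → Inc (c.pre i) (c.pre j)

/-- `c` fixes the piece over `U` with translation `δ` and prefix `q`. -/
def Keeps (c : S.Cyc) (U : Set S.X) (δ : Γ) (q : Wd) : Prop :=
  ∀ j, Inc (c.pre j) q ∨
    (c.pre j <+: q ∧ Disjoint (S.act δ '' U) (S.act (c.shift j) '' c.base))

/-- `c` carries the piece `(δ, q)` over `U` onto the piece `(δ', q')` by one change of prefix and
one translation. -/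
def Carries (c : S.Cyc) (U : Set S.X) (δ : Γ) (q : Wd) (δ' : Γ) (q' : Wd) : Prop :=
  (Keeps c U δ q ∧ δ' = δ ∧ q' = q) ∨
    ∃ j r, q = c.pre j ++ r ∧ S.act δ '' U ⊆ S.act (c.shift j) '' c.base ∧
      q' = c.pre (j + 1) ++ r ∧ δ' = c.shift (j + 1) * (c.shift j)⁻¹ * δ

/-- A group over the group of the subshift with covariant three-cycles. -/
structure Model (S : SFT Γ) where
  E : Type
  [grp : Group E]
  fp : Group.IsFinitelyPresented E
  hom : E →* Perm S.Pt
  hom_mem : ∀ e, hom e ∈ S.fullGroup
  t : S.Cyc → E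
  hom_t : ∀ c, Nice c → c.IsPerm S (hom (t c))
  union : ∀ c c₁ c₂ : S.Cyc, Nice c → c₁.shift = c.shift → c₁.pre = c.pre → c₂.shift = c.shift →
    c₂.pre = c.pre → Disjoint c₁.base c₂.base → c.base = c₁.base ∪ c₂.base → t c = t c₁ * t c₂
  split : ∀ c c₀ c₁ : S.Cyc, Nice c → c₀.base = c.base → c₀.shift = c.shift →
    c₁.base = c.base → c₁.shift = c.shift → (∀ i, c₀.pre i = c.pre i ++ [false]) →
    (∀ i, c₁.pre i = c.pre i ++ [true]) → t c = t c₀ * t c₁
  rot : ∀ c c' : S.Cyc, Nice c → c'.base = c.base → (∀ i, c'.shift i = c.shift (i + 1)) →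
    (∀ i, c'.pre i = c.pre (i + 1)) → t c' = t c
  repar : ∀ (c c' : S.Cyc) (γ : Γ), Nice c → c'.base = S.act γ '' c.base →
    (∀ i, c'.shift i = c.shift i * γ⁻¹) → c'.pre = c.pre → t c' = t c
  conj : ∀ c d d' : S.Cyc, Nice c → Nice d → Nice d' → d'.base = d.base →
    (∀ i, Carries c d.base (d.shift i) (d.pre i) (d'.shift i) (d'.pre i)) →
    t c * t d * (t c)⁻¹ = t d'

attribute [instance] Model.grp

end Vale.Agent.P193.Pres
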