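import Vale.Agent.P193.Pres.Interface
import Vale.Agent.P193.Prefix.Extend

/-!
P193, W5: permutations of configurations times Cantor space given by prefixes: colourings of the
first bits, translations on a cylinder and exchanges of cylinders.
-/

namespace Vale.Agent.P193.Pres

open Equiv BH Prefix
open scoped Classical

noncomputable section

/-! ### Cylinders -/

/-- `w` starts with `a`. -/
def InCyl (a : Wd) (w : ℕ → Bool) : Prop := ∀ (i : ℕ) (h : i < a.length), w i = a[i]

/-- `w` without its first `n` bits. -/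
def drp (n : ℕ) (w : ℕ → Bool) : ℕ → Bool := fun i => w (i + n)

lemma inCyl_cat (a : Wd) (t : ℕ → Bool) : InCyl a (SFT.cat a t) := fun i h => by simp [SFT.cat, h]

lemma drp_cat (a : Wd) (t : ℕ → Bool) : drp a.length (SFT.cat a t) = t := by
  funext i; simp [drp, SFT.cat]

lemma cat_drp {a : Wd} {w : ℕ → Bool} (h : InCyl a w) : SFT.cat a (drp a.length w) = w := by
  funext i
  by_cases hi : i < a.length
  · simp [SFT.cat, hi, h i hi]
  · simp [SFT.cat, hi, drp, Nat.sub_add_cancel (Nat.le_of_not_lt hi)]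

lemma cat_inj {a : Wd} {t t' : ℕ → Bool} (h : SFT.cat a t = SFT.cat a t') : t = t' := by
  rw [← drp_cat a t, h, drp_cat]

lemma cat_append (a b : Wd) (t : ℕ → Bool) : SFT.cat (a ++ b) t = SFT.cat a (SFT.cat b t) := by
  funext i
  by_cases h1 : i < a.length
  · simp [SFT.cat, h1, List.getElem_append_left, show i < a.length + b.length by omega]
  · by_cases h2 : i - a.length < b.length
    · simp [SFT.cat, h1, h2, List.getElem_append_right (Nat.le_of_not_lt h1),
        show i < a.length + b.length by omega]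
    · simp [SFT.cat, h1, h2, show ¬ i < a.length + b.length by omega,
        show i - (a.length + b.length) = i - a.length - b.length by omega]

lemma cat_nil (t : ℕ → Bool) : SFT.cat [] t = t := by funext i; simp [SFT.cat]

lemma InCyl.of_prefix {a b : Wd} {w : ℕ → Bool} (hp : a <+: b) (h : InCyl b w) : InCyl a w :=
  fun i hi => by rw [h i (hi.trans_le hp.length_le), hp.getElem hi]

lemma InCyl.prefix_of_le {a b : Wd} {w : ℕ → Bool} (ha : InCyl a w) (hb : InCyl b w)
    (hl : a.length ≤ b.length) : a <+: b := by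
  rw [List.prefix_iff_eq_take]
  refine List.ext_getElem (by simp [hl]) fun i h1 h2 => ?_
  rw [List.getElem_take, ← ha i h1, ← hb i (h1.trans_le hl)]

lemma InCyl.not_inc {a b : Wd} {w : ℕ → Bool} (ha : InCyl a w) (hb : InCyl b w) : ¬ Inc a b :=
  fun h => (le_total a.length b.length).elim (fun hl => h.1 (ha.prefix_of_le hb hl))
    fun hl => h.2 (hb.prefix_of_le ha hl)

lemma not_inCyl_cat {a b : Wd} (h : Inc a b) (t : ℕ → Bool) : ¬ InCyl a (SFT.cat b t) :=
  fun ha => ha.not_inc (inCyl_cat b t) h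

lemma inCyl_cat_iff {a : Wd} (b : Wd) {t : ℕ → Bool} :
    InCyl (a ++ b) (SFT.cat a t) ↔ InCyl b t := by
  constructor <;> intro h
  · intro i hi
    have := h (a.length + i) (by simp; omega)
    simpa [SFT.cat] using this
  · rw [show SFT.cat a t = SFT.cat (a ++ b) (drp b.length t) by rw [cat_append, cat_drp h]]
    exact inCyl_cat _ _

lemma inCyl_snoc (a : Wd) {w : ℕ → Bool} (h : InCyl a w) (b : Bool) :
    InCyl (a ++ [b]) w ↔ w a.length = b := by
  conv_lhs => rw [← cat_drp h]
  rw [inCyl_cat_iff]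
  simp [InCyl, drp]

/-! ### Exchanges of cylinders -/

/-- Exchange of two cylinders as a map. -/
def swapFun (a b : Wd) (w : ℕ → Bool) : ℕ → Bool :=
  if InCyl a w then SFT.cat b (drp a.length w)
  else if InCyl b w then SFT.cat a (drp b.length w) else w

lemma swapFun_a (a b : Wd) (t : ℕ → Bool) : swapFun a b (SFT.cat a t) = SFT.cat b t := by
  simp [swapFun, inCyl_cat, drp_cat]

lemma swapFun_b {a b : Wd} (h : Inc a b) (t : ℕ → Bool) :
    swapFun a b (SFT.cat b t) = SFT.cat a t := by
  simp [swapFun, not_inCyl_cat h, inCyl_cat, drp_cat]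

lemma swapFun_invol {a b : Wd} (h : Inc a b) (w : ℕ → Bool) :
    swapFun a b (swapFun a b w) = w := by
  by_cases ha : InCyl a w
  · rw [← cat_drp ha, swapFun_a, swapFun_b h]
  · by_cases hb : InCyl b w
    · rw [← cat_drp hb, swapFun_b h, swapFun_a]
    · simp [swapFun, ha, hb]

/-- The exchange of the cylinders of two incomparable prefixes. -/
def swapC (a b : Wd) (h : Inc a b) : Perm (ℕ → Bool) :=
  ⟨swapFun a b, swapFun a b, swapFun_invol h, swapFun_invol h⟩

variable {a b : Wd} {h : Inc a b}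

lemma swapC_a (t : ℕ → Bool) : swapC a b h (SFT.cat a t) = SFT.cat b t := swapFun_a a b t

lemma swapC_b (t : ℕ → Bool) : swapC a b h (SFT.cat b t) = SFT.cat a t := swapFun_b h t

lemma swapC_fix {w : ℕ → Bool} (ha : ¬ InCyl a w) (hb : ¬ InCyl b w) : swapC a b h w = w := by
  show swapFun a b w = w
  simp [swapFun, ha, hb]

lemma swapC_sq : swapC a b h * swapC a b h = 1 := Equiv.ext (swapFun_invol h)

lemma swapC_symm : swapC b a h.symm = swapC a b h := Equiv.ext fun w => by
  by_cases ha : InCyl a w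
  · rw [← cat_drp ha, swapC_a, swapC_b]
  · by_cases hb : InCyl b w
    · rw [← cat_drp hb, swapC_b, swapC_a]
    · rw [swapC_fix ha hb, swapC_fix hb ha]

variable {N : ℕ}

/-- The exchange of a move. -/
def swapM (s : Mv N) : Perm (ℕ → Bool) := swapC s.a s.b s.inc

lemma swapM_cat {s : Mv N} {v : Wd} (hv : Aff s v) (t : ℕ → Bool) :
    swapM s (SFT.cat v t) = SFT.cat (mv s v) t := by
  by_cases ha : s.a <+: v
  · obtain ⟨u, rfl⟩ := ha
    rw [mv_a, cat_append, swapM, swapC_a, cat_append]
  · by_cases hb : s.b <+: v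
    · obtain ⟨u, rfl⟩ := hb
      rw [mv_b, cat_append, swapM, swapC_b, cat_append]
    · rw [mv_of_not ha hb, swapM, swapC_fix]
      · exact not_inCyl_cat ⟨ha, fun hp => ha (hv.1 hp)⟩ t
      · exact not_inCyl_cat ⟨hb, fun hp => hb (hv.2 hp)⟩ t

lemma swapM_conj (s e e' : Mv N) (hea : Aff s e.a) (heb : Aff s e.b) (h1 : e'.a = mv s e.a)
    (h2 : e'.b = mv s e.b) : swapM s * swapM e * swapM s = swapM e' := by
  have hs : ∀ w, swapM s (swapM s w) = w := swapFun_invol s.inc
  refine Equiv.ext fun w => ?_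
  simp only [Perm.mul_apply]
  by_cases ha : InCyl e'.a w
  · rw [← cat_drp ha]
    conv_rhs => rw [swapM, swapC_a]
    rw [h1, ← swapM_cat hea, hs, show swapM e = swapC e.a e.b e.inc from rfl, swapC_a,
      swapM_cat heb, ← h2]
  · by_cases hb : InCyl e'.b w
    · rw [← cat_drp hb]
      conv_rhs => rw [swapM, swapC_b]
      rw [h2, ← swapM_cat heb, hs, show swapM e = swapC e.a e.b e.inc from rfl, swapC_b,
        swapM_cat hea, ← h1]
    · rw [show swapM e' = swapC e'.a e'.b e'.inc from rfl, swapC_fix ha hb]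
      have hfix : ∀ (v v' : Wd), Aff s v → v' = mv s v → ¬ InCyl v' w → ¬ InCyl v (swapM s w) :=
        fun v v' hv he hn hc => hn <| by
          rw [← hs w, ← cat_drp hc, swapM_cat hv, he]
          exact inCyl_cat _ _
      rw [show swapM e = swapC e.a e.b e.inc from rfl,
        swapC_fix (hfix _ _ hea h1 ha) (hfix _ _ heb h2 hb), hs]

/-! ### Colours: the first bits -/

/-- Prefixes of length `N`. -/
abbrev Col (N : ℕ) := Fin N → Bool

/-- The word of a colour. -/
def cw (a : Col N) : Wd := List.ofFn a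

@[simp] lemma length_cw (a : Col N) : (cw a).length = N := List.length_ofFn

lemma cw_injective : Function.Injective (cw (N := N)) := List.ofFn_injective

lemma inc_cw {a b : Col N} (h : a ≠ b) : Inc (cw a) (cw b) :=
  (inc_iff_ne (by simp)).2 fun e => h (cw_injective e)

/-- The colour of a sequence. -/
def col (N : ℕ) (w : ℕ → Bool) : Col N := fun i => w i

lemma inCyl_cw {a : Col N} {w : ℕ → Bool} : InCyl (cw a) w ↔ col N w = a := by
  constructor <;> intro h
  · funext i
    have := h i (by simp)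
    simpa [cw, col] using this
  · intro i hi
    rw [length_cw] at hi
    simp [cw, ← h, col]

lemma col_cat (a : Col N) (t : ℕ → Bool) : col N (SFT.cat (cw a) t) = a :=
  inCyl_cw.1 (inCyl_cat _ _)

lemma cat_col (w : ℕ → Bool) : SFT.cat (cw (col N w)) (drp N w) = w := by
  have := cat_drp (inCyl_cw.2 (rfl : col N w = col N w))
  rwa [length_cw] at this

lemma drp_cat_cw (a : Col N) (t : ℕ → Bool) : drp N (SFT.cat (cw a) t) = t := by
  have := drp_cat (cw a) t
  rwa [length_cw] at this

/-- Every word of length `N` is a colour. -/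
lemma exists_cw {v : Wd} (hv : v.length = N) : ∃ a : Col N, cw a = v :=
  ⟨fun i => v[i.1]'(hv ▸ i.2), List.ext_getElem (by simp [hv]) fun i _ _ => by simp [cw]⟩

/-! ### The three kinds of permutations -/

variable {Γ : Type} [Group Γ] {S : SFT Γ}

variable (S) in
/-- The translations of the subshift. -/
def gA : Γ →* Perm S.X where
  toFun γ := S.act γ
  map_one' := Equiv.ext S.act_one
  map_mul' γ δ := Equiv.ext fun x => (S.act_act γ δ x).symm

lemma gA_apply (γ : Γ) (x : S.X) : gA S γ x = S.act γ x := rfl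

lemma gA_inv_apply (γ : Γ) (x : S.X) : gA S γ⁻¹ (gA S γ x) = x := by
  rw [map_inv]; exact Equiv.symm_apply_apply _ x

variable (S)

/-- A permutation of Cantor space on the points. -/
def onW : Perm (ℕ → Bool) →* Perm S.Pt where
  toFun φ := (Equiv.refl S.X).prodCongr φ
  map_one' := rfl
  map_mul' _ _ := rfl

/-- A translation on the cylinder of `a`. -/
def trP (a : Wd) : Γ →* Perm S.Pt where
  toFun γ :=
    { toFun := fun p => if InCyl a p.2 then (gA S γ p.1, p.2) else p
      invFun := fun p => if InCyl a p.2 then (gA S γ⁻¹ p.1, p.2) else p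
      left_inv := fun p => by
        by_cases h : InCyl a p.2 <;> simp [h]
      right_inv := fun p => by
        by_cases h : InCyl a p.2 <;> simp [h] }
  map_one' := Equiv.ext fun p => by
    by_cases h : InCyl a p.2 <;> simp
  map_mul' γ δ := Equiv.ext fun p => by
    by_cases h : InCyl a p.2 <;> simp [h, Perm.mul_apply]

/-- A colouring: at the point `(x, a t)` with `a` of length `N` the colour changes by `f x`. -/
def colP : (S.X → Perm (Col N)) →* Perm S.Pt where
  toFun f :=
    { toFun := fun p => (p.1, SFT.cat (cw (f p.1 (col N p.2))) (drp N p.2))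
      invFun := fun p => (p.1, SFT.cat (cw ((f p.1)⁻¹ (col N p.2))) (drp N p.2))
      left_inv := fun p => by simp [col_cat, drp_cat_cw, cat_col]
      right_inv := fun p => by simp [col_cat, drp_cat_cw, cat_col] }
  map_one' := Equiv.ext fun p => by simp [cat_col]
  map_mul' f g := Equiv.ext fun p => by simp [Perm.mul_apply, col_cat, drp_cat_cw]

/-- The indicator colouring of an event. -/
def ind (s : Set S.X) (σ : Perm (Col N)) : S.X → Perm (Col N) := fun x => if x ∈ s then σ else 1

variable {S}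

lemma onW_apply (φ : Perm (ℕ → Bool)) (x : S.X) (w : ℕ → Bool) : onW S φ (x, w) = (x, φ w) := rfl

lemma trP_in {a : Wd} {w : ℕ → Bool} (h : InCyl a w) (γ : Γ) (x : S.X) :
    trP S a γ (x, w) = (gA S γ x, w) := if_pos h

lemma trP_out {a : Wd} {w : ℕ → Bool} (h : ¬ InCyl a w) (γ : Γ) (x : S.X) :
    trP S a γ (x, w) = (x, w) := if_neg h

lemma colP_cat (f : S.X → Perm (Col N)) (x : S.X) (a : Col N) (t : ℕ → Bool) :
    colP S f (x, SFT.cat (cw a) t) = (x, SFT.cat (cw (f x a)) t) := by
  show (x, _) = _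
  rw [col_cat, drp_cat_cw]

lemma colP_ext {f g : S.X → Perm (Col N)} (h : ∀ x, f x = g x) : colP S f = colP S g := by
  rw [funext h]

/-- Conjugation of a translation. -/
lemma onW_conj_trP {φ : Perm (ℕ → Bool)} {a a' : Wd}
    (h : ∀ t, φ (SFT.cat a t) = SFT.cat a' t) (γ : Γ) :
    onW S φ * trP S a γ * (onW S φ)⁻¹ = trP S a' γ := by
  refine mul_inv_eq_iff_eq_mul.2 (Equiv.ext fun ⟨x, w⟩ => ?_)
  simp only [Perm.mul_apply, onW_apply]
  by_cases hw : InCyl a w
  · rw [trP_in hw, onW_apply, trP_in]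
    rw [← cat_drp hw, h]
    exact inCyl_cat _ _
  · rw [trP_out hw, onW_apply, trP_out]
    intro hc
    apply hw
    rw [show w = SFT.cat a (drp a'.length (φ w)) from φ.injective (by rw [h, cat_drp hc])]
    exact inCyl_cat _ _

lemma trP_commute {a b : Wd} (hab : Inc a b) (γ δ : Γ) :
    Commute (trP S a γ) (trP S b δ) := by
  refine Equiv.ext fun ⟨x, w⟩ => ?_
  simp only [Perm.mul_apply]
  by_cases ha : InCyl a w
  · have hb : ¬ InCyl b w := fun hb => ha.not_inc hb hab
    rw [trP_out hb, trP_in ha, trP_out hb]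
  · by_cases hb : InCyl b w
    · rw [trP_in hb, trP_out ha, trP_out ha, trP_in hb]
    · rw [trP_out hb, trP_out ha, trP_out hb]

lemma trP_split (a : Wd) (γ : Γ) :
    trP S a γ = trP S (a ++ [false]) γ * trP S (a ++ [true]) γ := by
  refine Equiv.ext fun ⟨x, w⟩ => ?_
  simp only [Perm.mul_apply]
  by_cases ha : InCyl a w
  · rcases Bool.eq_false_or_eq_true (w a.length) with hb | hb
    · have hn : ¬ InCyl (a ++ [false]) w := by rw [inCyl_snoc a ha, hb]; simp
      rw [trP_in ((inCyl_snoc a ha true).2 hb), trP_out hn, trP_in ha]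
    · have hn : ¬ InCyl (a ++ [true]) w := by rw [inCyl_snoc a ha, hb]; simp
      rw [trP_out hn, trP_in ((inCyl_snoc a ha false).2 hb), trP_in ha]
  · have hn : ∀ c, ¬ InCyl (a ++ [c]) w := fun c hc => ha (hc.of_prefix (List.prefix_append _ _))
    rw [trP_out (hn true), trP_out (hn false), trP_out ha]

/-- Three pairwise incomparable prefixes. -/
def Dist (p : Conf 3) : Prop := ∀ i j, i ≠ j → Inc (p i) (p j)

/-- `g` permutes cyclically the three pieces over `U` with the prefixes `p` and fixes the rest. -/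
def Rot3 (U : Set S.X) (p : Conf 3) (g : Perm S.Pt) : Prop :=
  (∀ i, ∀ x ∈ U, ∀ t, g (x, SFT.cat (p i) t) = (x, SFT.cat (p (i + 1)) t)) ∧
    ∀ x w, (x ∉ U ∨ ∀ i, ¬ InCyl (p i) w) → g (x, w) = (x, w)

lemma Rot3.unique {U : Set S.X} {p : Conf 3} {g g' : Perm S.Pt} (h : Rot3 U p g)
    (h' : Rot3 U p g') : g = g' := by
  refine Equiv.ext fun ⟨x, w⟩ => ?_
  by_cases hn : x ∉ U ∨ ∀ i, ¬ InCyl (p i) w
  · rw [h.2 x w hn, h'.2 x w hn]
  · push Not at hn
    obtain ⟨hx, i, hi⟩ := hn
    rw [← cat_drp hi, h.1 i x hx, h'.1 i x hx]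

/-- Transport of a rotation. -/
lemma Rot3.conj {U : Set S.X} {p q : Conf 3} {g : Perm S.Pt} (h : Rot3 U p g)
    {φ : Perm (ℕ → Bool)} (hφ : ∀ i t, φ (SFT.cat (p i) t) = SFT.cat (q i) t) :
    Rot3 U q (onW S φ * g * (onW S φ)⁻¹) := by
  have hinv : ∀ x w, (onW S φ)⁻¹ (x, w) = (x, φ⁻¹ w) := fun x w => rfl
  refine ⟨fun i x hx t => ?_, fun x w hw => ?_⟩
  · rw [Perm.mul_apply, Perm.mul_apply, hinv,
      show φ⁻¹ (SFT.cat (q i) t) = SFT.cat (p i) t from Perm.inv_eq_iff_eq.2 (hφ i t).symm,
      h.1 i x hx, onW_apply, hφ]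
  · have hfix : g (x, φ⁻¹ w) = (x, φ⁻¹ w) := by
      refine h.2 _ _ (hw.imp_right fun hq i hi => hq i ?_)
      rw [show w = φ (φ⁻¹ w) by simp, ← cat_drp hi, hφ]
      exact inCyl_cat _ _
    rw [Perm.mul_apply, Perm.mul_apply, hinv, hfix, onW_apply]
    simp

end

end Vale.Agent.P193.Pres
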