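import Vale.Agent.P193.Pres.Colours

/-!
P193, W5: lists of exchanges carrying prefixes to colours, and the label of three short prefixes.
-/

namespace Vale.Agent.P193.Pres

open Equiv BH Prefix
open scoped Classical
open Vale.Agent.P196.Pres (cyc_conj cyc_three isThreeCycle_conj)
open Vale.Agent.P196.Pres.Family (support_cyc_subset)
open Vale.Agent.P196.Simple (cyc)

noncomputable section

/-- The list of exchanges carries the prefix `v` onto `v'`. -/
def Carry (l : List (Mv depth)) (v v' : Wd) : Prop :=
  ∀ t, pW l (SFT.cat v t) = SFT.cat v' t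

@[simp] lemma pW_nil : pW [] = 1 := rfl

lemma pW_cons (s : Mv depth) (l : List (Mv depth)) : pW (s :: l) = swapM s * pW l := rfl

lemma pW_append (l l' : List (Mv depth)) : pW (l ++ l') = pW l * pW l' := by simp [pW]

lemma carry_nil (v : Wd) : Carry [] v v := fun _ => rfl

lemma Carry.append {l l' : List (Mv depth)} {u v w : Wd} (h : Carry l' u v) (h' : Carry l v w) :
    Carry (l ++ l') u w := fun t => by rw [pW_append, Perm.mul_apply, h, h']

lemma carry_single {s : Mv depth} {v : Wd} (h : Aff s v) : Carry [s] v (mv s v) := fun t => by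
  simp [pW_cons, swapM_cat h]

lemma Carry.cons {l : List (Mv depth)} {u v : Wd} (h : Carry l u v) {s : Mv depth} (hs : Aff s v) :
    Carry (s :: l) u (mv s v) :=
  h.append (l := [s]) (carry_single hs)

lemma pW_reverse : ∀ l : List (Mv depth), pW l.reverse = (pW l)⁻¹
  | [] => by simp
  | s :: l => by
    rw [List.reverse_cons, pW_append, pW_reverse l, pW_cons s l, mul_inv_rev]
    congr 1

lemma Carry.reverse {l : List (Mv depth)} {u v : Wd} (h : Carry l u v) : Carry l.reverse v u :=
  fun t => by rw [pW_reverse, Perm.inv_eq_iff_eq, h t]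

lemma carry_fix {v : Wd} : ∀ l : List (Mv depth),
    (∀ s ∈ l, Inc s.a v ∧ Inc s.b v) → Carry l v v
  | [], _ => carry_nil v
  | s :: l, h => by
    have h1 := h s List.mem_cons_self
    have h2 := (carry_fix l fun s hs => h s (List.mem_cons_of_mem _ hs)).cons
      (h1.1.fix h1.2).1
    rwa [(h1.1.fix h1.2).2] at h2

variable {Γ : Type} [Group Γ] {S : SFT Γ} {D : KPres Γ}

lemma mW_cons (s : Mv depth) (l : List (Mv depth)) :
    mW (S := S) (D := D) (s :: l) = mg s * mW l := rfl

lemma mW_append (l l' : List (Mv depth)) :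
    mW (S := S) (D := D) (l ++ l') = mW l * mW l' := by simp [mW]

lemma mW_reverse : ∀ l : List (Mv depth), mW (S := S) (D := D) l.reverse = (mW l)⁻¹
  | [] => by simp [mW]
  | s :: l => by
    rw [List.reverse_cons, mW_append, mW_reverse l, mW_cons s l, mul_inv_rev]
    congr 1
    show mg s * mW [] = (mg s)⁻¹
    rw [show mW (S := S) (D := D) [] = 1 from rfl, mul_one, eq_inv_iff_mul_eq_one]
    exact (moveRep (S := S) (D := D)).sq s

/-- Prefixes to avoid. -/
def Avoid (l : List (Mv depth)) (v : Wd) : Prop := ∀ s ∈ l, Inc s.a v ∧ Inc s.b v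

/-- Short pairwise incomparable prefixes can be carried to spare colours. -/
lemma exists_carry : ∀ (ps L : List Wd),
    (∀ v ∈ ps, v.length = depth ∨ v.length = depth + 1) → ps.Pairwise Inc →
    (∀ v ∈ L, depth ≤ v.length) → 2 * ps.length + L.length < 32 →
    ∃ (l : List (Mv depth)) (cs : List (Col depth)), l.length = ps.length ∧
      cs.length = ps.length ∧ cs.Nodup ∧
      (∀ c ∈ cs, ∀ v ∈ ps ++ L, Inc (cw c) v) ∧
      (∀ i (h : i < ps.length) (h' : i < cs.length), Carry l ps[i] (cw cs[i])) ∧
      (∀ v, (∀ u ∈ ps, Inc u v) → (∀ c ∈ cs, Inc (cw c) v) → Avoid l v) := by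
  intro ps
  induction ps with
  | nil =>
    intro L _ _ _ _
    exact ⟨[], [], rfl, rfl, List.nodup_nil, fun _ h => absurd h List.not_mem_nil,
      fun i h => absurd h (Nat.not_lt_zero i), fun _ _ _ _ h => absurd h List.not_mem_nil⟩
  | cons p ps ih =>
    intro L hlen hp hL hn
    rw [List.pairwise_cons] at hp
    have hplen := hlen p List.mem_cons_self
    have hpge : depth ≤ p.length := by rcases hplen with h | h <;> omega
    obtain ⟨l, cs, hl, hcs, hnd, hinc, hcar, hav⟩ := ih (p :: L)
      (fun v hv => hlen v (List.mem_cons_of_mem _ hv)) hp.2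
      (fun v hv => by
        rcases List.mem_cons.1 hv with rfl | hv
        exacts [hpge, hL v hv])
      (by simp only [List.length_cons] at hn ⊢; omega)
    obtain ⟨x, hx, hxL⟩ := exists_spare (N := depth) ((p :: ps) ++ cs.map cw ++ L)
      (fun u hu => by
        simp only [List.mem_append, List.mem_map] at hu
        rcases hu with (hu | ⟨c, -, rfl⟩) | hu
        · rcases hlen u hu with h | h <;> omega
        · simp
        · exact hL u hu)
      (by
        simp only [List.length_cons] at hn
        simp [hcs, depth]; omega)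
    obtain ⟨c, rfl⟩ := exists_cw hx
    have hxp : Inc (cw c) p := hxL _ (by simp)
    let s : Mv depth := ⟨p, cw c, hplen, Or.inl hx, hxp.symm⟩
    have hfixp : Carry l p p := carry_fix l (hav p (fun u hu => (hp.1 u hu).symm)
      fun d hd => hinc d hd p (by simp))
    refine ⟨s :: l, c :: cs, by simp [hl], by simp [hcs], ?_, ?_, ?_, ?_⟩
    · exact List.nodup_cons.2 ⟨fun hc => (hxL (cw c)
        (List.mem_append_left _ (List.mem_append_right _ (List.mem_map.2 ⟨c, hc, rfl⟩)))).1
        List.prefix_rfl, hnd⟩
    · intro d hd v hv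
      rcases List.mem_cons.1 hd with rfl | hd
      · refine hxL v ?_
        simp only [List.cons_append, List.mem_cons, List.mem_append] at hv ⊢
        tauto
      · refine hinc d hd v ?_
        simp only [List.cons_append, List.mem_cons, List.mem_append] at hv ⊢
        tauto
    · intro i h h'
      cases i with
      | zero =>
        simp only [List.getElem_cons_zero]
        have h2 := hfixp.cons (s := s) (aff_of_under (Or.inl List.prefix_rfl))
        have e : mv s p = cw c := by
          have := mv_a s []
          simpa using this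
        rwa [e] at h2
      | succ i =>
        simp only [List.getElem_cons_succ]
        simp only [List.length_cons] at h h'
        have h1 := hcar i (by omega) (by omega)
        have hm : cs[i]'(by omega) ∈ cs := List.getElem_mem _
        have hi : Inc s.a (cw (cs[i]'(by omega))) := (hinc _ hm p (by simp)).symm
        have hj : Inc s.b (cw (cs[i]'(by omega))) :=
          hxL _ (List.mem_append_left _ (List.mem_append_right _ (List.mem_map.2 ⟨_, hm, rfl⟩)))
        have h2 := h1.cons (s := s) (hi.fix hj).1
        rwa [(hi.fix hj).2] at h2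
    · intro v hv hcv s' hs'
      rcases List.mem_cons.1 hs' with rfl | hs'
      · exact ⟨hv p List.mem_cons_self, hcv c List.mem_cons_self⟩
      · exact hav v (fun u hu => hv u (List.mem_cons_of_mem _ hu))
          (fun d hd => hcv d (List.mem_cons_of_mem _ hd)) s' hs'

/-- Spare colours avoiding given prefixes. -/
lemma exists_colours : ∀ (n : ℕ) (L : List Wd), (∀ v ∈ L, depth ≤ v.length) →
    n + L.length ≤ 32 →
    ∃ cs : List (Col depth), cs.length = n ∧ cs.Nodup ∧ ∀ c ∈ cs, ∀ v ∈ L, Inc (cw c) v := by
  intro n
  induction n with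
  | zero => exact fun _ _ _ => ⟨[], rfl, List.nodup_nil, fun _ h => absurd h List.not_mem_nil⟩
  | succ n ih =>
    intro L hL hn
    obtain ⟨x, hx, hxL⟩ := exists_spare (N := depth) L hL
      (lt_of_lt_of_le (show L.length < 32 by omega) (by norm_num [depth]))
    obtain ⟨c, rfl⟩ := exists_cw hx
    obtain ⟨cs, hcs, hnd, hinc⟩ := ih (cw c :: L)
      (fun v hv => by
        rcases List.mem_cons.1 hv with rfl | hv
        exacts [by simp, hL v hv])
      (by simp only [List.length_cons]; omega)
    refine ⟨c :: cs, by simp [hcs], List.nodup_cons.2 ⟨fun hc =>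
      (hinc c hc (cw c) List.mem_cons_self).1 List.prefix_rfl, hnd⟩, fun d hd v hv => ?_⟩
    rcases List.mem_cons.1 hd with rfl | hd
    · exact hxL v hv
    · exact hinc d hd v (List.mem_cons_of_mem _ hv)

/-- A permutation extending an injection. -/
lemma exists_perm {α : Type*} [Fintype α] [DecidableEq α] {m : ℕ} (f g : Fin m ↪ α) :
    ∃ π : Perm α, ∀ i, π (f i) = g i := by
  refine ⟨(f.toEquivRange.symm.trans g.toEquivRange).extendSubtype, fun i => ?_⟩
  rw [Equiv.extendSubtype_apply_of_mem _ _ ⟨i, rfl⟩]
  have : (⟨f i, i, rfl⟩ : Set.range f) = f.toEquivRange i := Subtype.ext (by simp)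
  rw [Equiv.trans_apply, this, Equiv.symm_apply_apply]
  simp

variable (hr : S.Rigid)

/-- The three-cycle of three colours over a set. -/
abbrev tx3 (U : Set S.X) (c : Fin 3 → Col depth) : Cov S D :=
  TX D hr U (cyc (c 0) (c 1) (c 2))

/-- Exchanges carrying three colours onto three colours carry their cycle. -/
theorem mW_tx3 {l : List (Mv depth)} (hl : l.length ≤ 13) {c c' : Fin 3 → Col depth}
    (hc : Function.Injective c) (h : ∀ i, Carry l (cw (c i)) (cw (c' i))) {U : Set S.X}
    (hU : IsEv U) : mW l * tx3 (D := D) hr U c * (mW l)⁻¹ = tx3 hr U c' := by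
  let ends : List Wd := l.map (fun s => s.a) ++ l.map fun s => s.b
  obtain ⟨cs, hcs, hnd, hinc⟩ := exists_colours 2 (ends ++ (List.ofFn fun i => cw (c i)))
    (fun v hv => by
      simp only [ends, List.mem_append, List.mem_map, List.mem_ofFn] at hv
      rcases hv with (⟨s, -, rfl⟩ | ⟨s, -, rfl⟩) | ⟨i, rfl⟩
      · have := s.ha; omega
      · have := s.hb; omega
      · simp)
    (by simp [ends]; omega)
  match cs, hcs, hnd, hinc with
  | [x, y], _, hnd, hinc =>
    have hfix : ∀ z ∈ [x, y], Carry l (cw z) (cw z) := fun z hz => carry_fix l fun s hs =>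
      ⟨(hinc z hz s.a (List.mem_append_left _ (List.mem_append_left _
        (List.mem_map.2 ⟨s, hs, rfl⟩)))).symm,
       (hinc z hz s.b (List.mem_append_left _ (List.mem_append_right _
        (List.mem_map.2 ⟨s, hs, rfl⟩)))).symm⟩
    let f : Fin 5 → Col depth := ![c 0, c 1, c 2, x, y]
    let g : Fin 5 → Col depth := ![c' 0, c' 1, c' 2, x, y]
    have hfg : ∀ i, Carry l (cw (f i)) (cw (g i)) := by
      intro i
      fin_cases i
      exacts [h 0, h 1, h 2, hfix x (by simp), hfix y (by simp)]
    have hxy : x ≠ y := by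
      simp only [List.nodup_cons, List.mem_cons, List.not_mem_nil, or_false] at hnd
      exact hnd.1
    have hne : ∀ z ∈ [x, y], ∀ i, c i ≠ z := fun z hz i e =>
      (hinc z hz (cw (c i)) (List.mem_append_right _ (List.mem_ofFn.2 ⟨i, rfl⟩))).1
        (by rw [e])
    have hf : Function.Injective f := by
      intro i j hij
      have a0 := hne x (by simp)
      have a1 := hne y (by simp)
      fin_cases i <;> fin_cases j <;> first
        | rfl
        | exact absurd hij (hc.ne (by decide))
        | exact absurd hij (a0 _)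
        | exact absurd hij.symm (a0 _)
        | exact absurd hij (a1 _)
        | exact absurd hij.symm (a1 _)
        | exact absurd hij hxy
        | exact absurd hij.symm hxy
    have hg : Function.Injective g := fun i j hij => by
      apply hf
      have e : pW l (SFT.cat (cw (f i)) fun _ => false) =
          pW l (SFT.cat (cw (f j)) fun _ => false) := by rw [hfg i, hfg j, hij]
      have := congrArg (col depth) ((pW l).injective e)
      rwa [col_cat, col_cat] at this
    obtain ⟨π, hπ⟩ := exists_perm ⟨f, hf⟩ ⟨g, hg⟩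
    simp only [Function.Embedding.coeFn_mk] at hπ
    have hmem : ∀ i, f i ∈ Finset.univ.image f := fun i =>
      Finset.mem_image_of_mem f (Finset.mem_univ i)
    have h3 : (cyc (c 0) (c 1) (c 2)).IsThreeCycle :=
      cyc_three (hc.ne (by decide)) (hc.ne (by decide)) (hc.ne (by decide))
    rw [tx3, mW_TX (D := D) hr (by omega) (π := π) (F := Finset.univ.image f)
      (by rw [Finset.card_image_of_injective _ hf]; simp)
      (fun a ha => by
        obtain ⟨i, -, rfl⟩ := Finset.mem_image.1 ha
        rw [hπ i]
        exact hfg i)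
      h3 (support_cyc_subset (hc.ne (by decide)) (hc.ne (by decide)) (hc.ne (by decide))
        (hmem 0) (hmem 1) (hmem 2)) hU, cyc_conj]
    have e0 : π (c 0) = c' 0 := hπ 0
    have e1 : π (c 1) = c' 1 := hπ 1
    have e2 : π (c 2) = c' 2 := hπ 2
    rw [e0, e1, e2]

/-- Exchanges carrying three prefixes to colours. -/
def ToCols (p : Conf 3) (l : List (Mv depth)) (c : Fin 3 → Col depth) : Prop :=
  l.length ≤ 3 ∧ Function.Injective c ∧ ∀ i, Carry l (p i) (cw (c i))

omit hr in
lemma exists_toCols {p : Conf 3} (hd : Dist p)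
    (hb : ∀ i, (p i).length = depth ∨ (p i).length = depth + 1) :
    ∃ (l : List (Mv depth)) (c : Fin 3 → Col depth), ToCols p l c := by
  obtain ⟨l, cs, hl, hcs, hnd, -, hcar, -⟩ := exists_carry (List.ofFn p) []
    (fun v hv => by obtain ⟨i, rfl⟩ := List.mem_ofFn.1 hv; exact hb i)
    (List.pairwise_ofFn.2 fun i j hij => hd i j hij.ne) (by simp) (by simp)
  rw [List.length_ofFn] at hl hcs
  refine ⟨l, fun i => cs[i.1]'(by have := i.2; omega), hl.le, fun i j h => ?_, fun i => ?_⟩
  · exact Fin.ext ((List.Nodup.getElem_inj_iff hnd).1 h)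
  · have := hcar i.1 (by simp) (by omega)
    simpa only [List.getElem_ofFn] using this

variable (D) in
/-- The label of three short prefixes. -/
def T₀ (U : Set S.X) (p : Conf 3) : Cov S D :=
  if h : ∃ x : List (Mv depth) × (Fin 3 → Col depth), ToCols p x.1 x.2 then
    (mW h.choose.1)⁻¹ * tx3 hr U h.choose.2 * mW h.choose.1
  else 1

lemma T₀_eq {U : Set S.X} (hU : IsEv U) {p : Conf 3} {l : List (Mv depth)}
    {c : Fin 3 → Col depth} (hl : l.length ≤ 10)
    (h : ∀ i, Carry l (p i) (cw (c i)))
    (hex : ∃ x : List (Mv depth) × (Fin 3 → Col depth), ToCols p x.1 x.2) :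
    T₀ D hr U p = (mW l)⁻¹ * tx3 hr U c * mW l := by
  rw [T₀, dif_pos hex]
  obtain ⟨h1, h2, h3⟩ := hex.choose_spec
  set l0 := hex.choose.1
  set c0 := hex.choose.2
  have e := mW_tx3 (D := D) hr (l := l ++ l0.reverse) (c' := c) (by simp; omega) h2
    (fun i => (h3 i).reverse.append (h i)) hU
  rw [mW_append, mW_reverse] at e
  rw [← e]
  group

lemma T₀_move {U : Set S.X} (hU : IsEv U) (s : Mv depth) (p : Conf 3) (hp : Ok depth p)
    (hb : Base depth p) (hs : AffC s p) (hb' : Base depth (act s p)) :
    (moveRep (S := S) (D := D)).cj s (T₀ D hr U p) = T₀ D hr U (act s p) := by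
  by_cases hex : ∃ x : List (Mv depth) × (Fin 3 → Col depth), ToCols p x.1 x.2
  · obtain ⟨⟨l, c⟩, hl, hc, h⟩ := id hex
    simp only at hl hc h
    have hd' : Dist (act s p) := fun i j hij => by
      refine ((hp.2 i j).resolve_left fun e => ?_) |> fun hi => mv_inc (hs i) (hs j) hi
      have h' := h j
      rw [← e] at h'
      have := (h i fun _ => false).symm.trans (h' fun _ => false)
      have := congrArg (col depth) this
      rw [col_cat, col_cat] at this
      exact hij (hc this)
    have hlen' : ∀ i, (act s p i).length = depth ∨ (act s p i).length = depth + 1 := fun i => by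
      have h1 : depth ≤ (act s p i).length := le_length_mv (hp.1 i)
      have h2 := hb' i
      omega
    obtain ⟨l', c', hx'⟩ := exists_toCols hd' hlen'
    rw [T₀_eq (D := D) hr hU (by omega) h hex,
      T₀_eq (D := D) hr hU (l := l'.reverse.reverse) (c := c') (by simp; have := hx'.1; omega)
        (by simpa using hx'.2.2) ⟨(l', c'), hx'⟩]
    have e := mW_tx3 (D := D) hr (l := l' ++ ([s] ++ l.reverse)) (c' := c')
      (by have := hx'.1; simp; omega) hc
      (fun i => ((h i).reverse.append (carry_single (hs i))).append (hx'.2.2 i)) hU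
    rw [mW_append, mW_append, mW_reverse] at e
    rw [List.reverse_reverse, ← e]
    show mg s * _ * mg s = _
    have hsq : (mg s : Cov S D)⁻¹ = mg s := inv_eq_of_mul_eq_one_right ((moveRep).sq s)
    rw [show mW (S := S) (D := D) [s] = mg s by simp [mW]]
    simp only [mul_inv_rev, hsq, inv_inv, mul_assoc, inv_mul_cancel_left, inv_mul_cancel, mul_one]
  · have hex' : ¬ ∃ x : List (Mv depth) × (Fin 3 → Col depth), ToCols (act s p) x.1 x.2 := by
      rintro ⟨⟨l, c⟩, hl, hc, h⟩
      have hd : Dist p := fun i j hij => by
        refine (hp.2 i j).resolve_left fun e => ?_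
        have e' : act s p i = act s p j := congrArg (mv s) e
        have h' := h j
        rw [← e'] at h'
        have := congrArg (col depth) ((h i fun _ => false).symm.trans (h' fun _ => false))
        rw [col_cat, col_cat] at this
        exact hij (hc this)
      refine hex ?_
      obtain ⟨l, c, hx⟩ := exists_toCols hd fun i => by
        have := hp.1 i
        have := hb i
        omega
      exact ⟨(l, c), hx⟩
    simp only [T₀, dif_neg hex, dif_neg hex']
    show mg s * 1 * mg s = 1
    rw [mul_one]
    exact (moveRep (S := S) (D := D)).sq s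

end

end Vale.Agent.P193.Pres
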