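import Vale.Agent.P193.Pres.Events

/-!
P193, W5: translations and exchanges of cylinders act on the three-cycles of colours over clopen
sets as they act on points.
-/

namespace Vale.Agent.P193.Pres

open Equiv BH Prefix
open scoped Classical commutatorElement
open Vale.Agent.P196.Pres (event_induction isThreeCycle_conj ql qr qc ql_three qr_three qc_three
  exists_quint support_q_subset)

noncomputable section

variable {Γ : Type} [Group Γ] {S : SFT Γ} {D : KPres Γ} (hr : S.Rigid)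

lemma card_col : Fintype.card (Col depth) = 32 := by
  rw [Fintype.card_fun, Fintype.card_bool, Fintype.card_fin]
  norm_num [depth]

omit hr in
lemma isEv_shiftSet (γ : Γ) {s : Set S.X} (hs : IsEv s) : IsEv (shiftSet γ s) :=
  isEv_of_isClopen (hs.isClopen.preimage (S.continuous_act γ⁻¹))

/-! ### Translations -/

lemma glob_conj_TX (γ : Γ) {s : Set S.X} (hs : IsEv s) {σ : Perm (Col depth)}
    (hσ : σ.IsThreeCycle) :
    glob γ * TX D hr s σ * (glob γ)⁻¹ = TX D hr (shiftSet γ s) σ := by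
  obtain ⟨U, P, rfl⟩ := hs
  rw [TX_ev (D := D) hr P hσ]
  refine event_induction (fun P => ∀ {σ : Perm (Col depth)}, σ.IsThreeCycle →
    glob γ * algC D hr U P σ * (glob γ)⁻¹ = TX D hr (shiftSet γ (evSet P)) σ) ?_ ?_ ?_
    (cellEvents U) ?_ P (fun a b h => by rw [eq_of_cellEvents h]) hσ
  · intro σ hσ
    rw [(alg_algC (D := D) hr U).univ hσ, evSet_univ,
      show shiftSet γ (Set.univ : Set S.X) = Set.univ from rfl, TX_univ (D := D) hr hσ]
    exact Xv_univ false γ hσ
  · intro P hP σ hσ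
    have e := (alg_algC (D := D) hr U).split_univ P hσ
    rw [show evSet Pᶜ = (evSet P)ᶜ by ext; simp,
      show shiftSet γ (evSet P)ᶜ = (shiftSet γ (evSet P))ᶜ from rfl,
      TX_compl (D := D) hr (isEv_shiftSet γ ⟨U, P, rfl⟩) hσ, ← hP hσ,
      ← Xv_univ (D := D) false γ hσ]
    rw [show (world S D).K σ = eps false Finset.univ σ from rfl] at e
    rw [Xv, e]
    group
  · intro P Q hP hQ σ hσ
    obtain ⟨v, rfl⟩ := exists_quint_univ hσ
    rw [← (alg_algC (D := D) hr U).commutator_pow Q P v, ← conj_pow,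
      show shiftSet γ (evSet (P ∩ Q)) = shiftSet γ (evSet P) ∩ shiftSet γ (evSet Q) by
        ext; simp [mem_shiftSet],
      TX_inter (D := D) hr (isEv_shiftSet γ ⟨U, Q, rfl⟩) (isEv_shiftSet γ ⟨U, P, rfl⟩) v,
      ← hQ (ql_three v), ← hP (qr_three v)]
    simp only [commutatorElement_def]
    group
  · intro e he σ hσ
    obtain ⟨⟨u, l⟩, -, rfl⟩ := List.mem_map.1 he
    rw [show algC D hr U (ev u.1 u.2 l) σ = Pres.cell u.1 l σ from (isCtx _).cell u.2 l hσ]
    have hmem : gmov γ u.1 ∈ ({gmov γ u.1} : Finset Γ) := Finset.mem_singleton_self _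
    rw [show shiftSet γ (evSet (ev u.1 u.2 l)) = evSet (ev (gmov γ u.1) hmem l) by
        ext x
        simp only [mem_shiftSet, mem_evSet, mem_ev]
        exact Eq.congr_left (gA_inv_val γ x u.1),
      TX_ev (D := D) hr _ hσ,
      show algC D hr _ (ev (gmov γ u.1) hmem l) σ = Pres.cell (gmov γ u.1) l σ from
        (isCtx _).cell _ l hσ,
      cell, cell, cmv_gmov, Xv, Xv, map_mul glob]
    group

omit hr in
lemma tr_commute_loc {F : Finset (Col depth)} {t : Col depth → Γ} (ht : ∀ a ∈ F, t a = 1)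
    {x : Cov S D} (hx : x ∈ locGroup S D F) : Commute (tr t) x := by
  have h : locGroup S D F ≤ Subgroup.centralizer {tr t} := by
    rw [locGroup, Subgroup.closure_le]
    rintro _ ⟨w, δ, P, σ, hσ, hσF, rfl⟩
    rw [SetLike.mem_coe, Subgroup.mem_centralizer_singleton_iff]
    let t' : Col depth → Γ := (fun _ => δ⁻¹) * t * (fun _ => δ)
    have hc := tr_commute_eps (D := D) hσ (t := t') (fun a ha => by simp [t', ht a (hσF ha)]) w P
    have et : t = (fun _ => δ) * t' * (fun _ => δ)⁻¹ := by ext a; simp [t', mul_assoc]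
    rw [et, map_mul (tr (S := S) (D := D)), map_mul (tr (S := S) (D := D)),
      map_inv (tr (S := S) (D := D)), ← glob_apply, Xv]
    calc glob δ * eps w P σ * (glob δ)⁻¹ * (glob δ * tr t' * (glob δ)⁻¹)
        = glob δ * (eps w P σ * tr t') * (glob δ)⁻¹ := by group
      _ = glob δ * (tr t' * eps w P σ) * (glob δ)⁻¹ := by rw [hc.eq]
      _ = glob δ * tr t' * (glob δ)⁻¹ * (glob δ * eps w P σ * (glob δ)⁻¹) := by group
  exact (Subgroup.mem_centralizer_singleton_iff.1 (h hx)).symm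

lemma tr_commute_TX {t : Col depth → Γ} {σ : Perm (Col depth)} (hσ : σ.IsThreeCycle)
    (ht : ∀ a ∈ σ.support, t a = 1) {s : Set S.X} (hs : IsEv s) :
    Commute (tr t) (TX D hr s σ) := by
  suffices hm : t ∈ (Subgroup.centralizer {TX D hr s σ}).comap tr from
    Subgroup.mem_centralizer_singleton_iff.1 hm
  refine Subgroup.pi_mem_of_mulSingle_mem t fun b => ?_
  by_cases hb : b ∈ σ.support
  · rw [ht b hb, Pi.mulSingle_one]; exact one_mem _
  rw [Subgroup.mem_comap, Subgroup.mem_centralizer_singleton_iff]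
  obtain ⟨F, hF, hFb, hF5⟩ := Finset.exists_subsuperset_card_eq (s := σ.support)
    (t := Finset.univ.erase b) (n := 5)
    (fun a ha => Finset.mem_erase.2 ⟨fun e => hb (e ▸ ha), Finset.mem_univ a⟩)
    (by rw [hσ.card_support]; omega)
    (by rw [Finset.card_erase_of_mem (Finset.mem_univ b), Finset.card_univ, card_col]; omega)
  exact (tr_commute_loc (fun a ha => Pi.mulSingle_eq_of_ne (M := fun _ => Γ)
    (Finset.ne_of_mem_erase (hFb ha)) _) (TX_mem_loc (D := D) hr hs hσ hF hF5.ge)).eq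

/-- Translations constant on the moved colours carry three-cycles. -/
theorem tr_conj_TX {t : Col depth → Γ} {γ : Γ} {σ : Perm (Col depth)} (hσ : σ.IsThreeCycle)
    (ht : ∀ a ∈ σ.support, t a = γ) {s : Set S.X} (hs : IsEv s) :
    tr t * TX D hr s σ * (tr t)⁻¹ = TX D hr (shiftSet γ s) σ := by
  have hc := tr_commute_TX (D := D) hr hσ (t := (fun _ : Col depth => γ⁻¹) * t)
    (fun a ha => by simp [ht a ha]) hs
  have e : t = (fun _ : Col depth => γ) * ((fun _ : Col depth => γ⁻¹) * t) := by ext a; simp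
  rw [e, map_mul tr, mul_assoc (tr fun _ => γ), hc.eq, ← glob_apply,
    ← glob_conj_TX (D := D) hr γ hs hσ]
  group

/-! ### Exchanges -/

omit hr in
lemma onW_conj_colP {φ : Perm (ℕ → Bool)} {π : Perm (Col depth)} {F : Finset (Col depth)}
    (hF : ∀ a ∈ F, ∀ t, φ (SFT.cat (cw a) t) = SFT.cat (cw (π a)) t) (s : Set S.X)
    {σ : Perm (Col depth)} (hσ : σ.support ⊆ F) :
    onW S φ * colP S (ind S s σ) * (onW S φ)⁻¹ = colP S (ind S s (π * σ * π⁻¹)) := by
  refine mul_inv_eq_iff_eq_mul.2 (Equiv.ext fun ⟨x, w⟩ => ?_)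
  simp only [Perm.mul_apply, onW_apply]
  conv_lhs => rw [← cat_col w (N := depth), colP_cat, onW_apply]
  by_cases hc : col depth w ∈ F
  · conv_rhs => rw [← cat_col w (N := depth), hF _ hc, colP_cat]
    by_cases hx : x ∈ s
    · have hc' : σ (col depth w) ∈ F := by
        by_cases h : σ (col depth w) = col depth w
        · rwa [h]
        · exact hσ (Perm.apply_mem_support.2 (Perm.mem_support.2 h))
      simp [ind, hx, hF _ hc']
    · simp [ind, hx, hF _ hc]
  · have h1 : ind S s σ x (col depth w) = col depth w := by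
      simp only [ind]
      split_ifs
      · exact Perm.notMem_support.1 fun h => hc (hσ h)
      · rfl
    have h2 : ind S s (π * σ * π⁻¹) x (col depth (φ w)) = col depth (φ w) := by
      simp only [ind]
      split_ifs
      · refine Perm.notMem_support.1 fun h => ?_
        rw [Perm.support_conj, Finset.mem_map] at h
        obtain ⟨a, ha, he⟩ := h
        apply hc
        have e : φ w = φ (SFT.cat (cw a) (drp depth (φ w))) := by
          rw [hF a (hσ ha)]
          conv_lhs => rw [← cat_col (φ w) (N := depth), ← he]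
          rfl
        rw [φ.injective e, col_cat]
        exact hσ ha
      · rfl
    conv_rhs => rw [← cat_col (φ w) (N := depth), colP_cat, h2, cat_col]
    rw [h1, cat_col]

omit hr in
lemma mW_tr {l : List (Mv depth)} (hl : l.length ≤ 28) {π : Perm (Col depth)}
    {F : Finset (Col depth)} (hF : ∀ a ∈ F, ∀ t, pW l (SFT.cat (cw a) t) = SFT.cat (cw (π a)) t)
    (f : Col depth → Γ) (hf : ∀ a ∉ F, f a = 1) :
    mW (S := S) (D := D) l * tr f * (mW l)⁻¹ = tr fun b => f (π⁻¹ b) := by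
  let sh : (Col depth → Γ) →* (Col depth → Γ) :=
    { toFun := fun g b => g (π⁻¹ b), map_one' := rfl, map_mul' := fun _ _ => rfl }
  suffices h : f ∈ MonoidHom.eqLocus
      ((MulAut.conj (mW (S := S) (D := D) l)).toMonoidHom.comp tr) (tr.comp sh) from h
  refine Subgroup.pi_mem_of_mulSingle_mem f fun b => ?_
  by_cases hb : b ∈ F
  · show mW l * tr (Pi.mulSingle b (f b)) * (mW l)⁻¹ = tr (sh (Pi.mulSingle b (f b)))
    have e : sh (Pi.mulSingle b (f b)) = Pi.mulSingle (π b) (f b) := by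
      funext c
      simp only [sh, MonoidHom.coe_mk, OneHom.coe_mk, Pi.mulSingle_apply, Perm.inv_eq_iff_eq]
    rw [e, tr_single, tr_single]
    exact mW_th (a := cs b) (a' := cs (π b)) hl (hF b hb) (f b)
  · rw [hf b hb, Pi.mulSingle_one]; exact one_mem _

/-- Exchanges of cylinders carrying colours onto colours carry three-cycles. -/
theorem mW_TX {l : List (Mv depth)} (hl : l.length ≤ 28) {π : Perm (Col depth)}
    {F : Finset (Col depth)} (h5 : 5 ≤ F.card)
    (hF : ∀ a ∈ F, ∀ t, pW l (SFT.cat (cw a) t) = SFT.cat (cw (π a)) t) {σ : Perm (Col depth)}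
    (hσ : σ.IsThreeCycle) (hσF : σ.support ⊆ F) {s : Set S.X} (hs : IsEv s) :
    mW l * TX D hr s σ * (mW l)⁻¹ = TX D hr s (π * σ * π⁻¹) := by
  obtain ⟨U, P, rfl⟩ := hs
  rw [TX_ev (D := D) hr P hσ]
  have short : ∀ (w : Bool) (P : Finset (Pat S (wcells S w))) {σ : Perm (Col depth)},
      σ.IsThreeCycle → σ.support ⊆ F →
        mW l * eps (D := D) w P σ * (mW l)⁻¹ = eps w P (π * σ * π⁻¹) := by
    intro w P σ hσ hσF
    refine Short.eq (((short_mW l).mul (short_eps _ _ _)).mul (short_mW l).inv) (short_eps _ _ _)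
      (le_bound (by omega)) ?_
    rw [map_mul, map_mul, map_inv, proj_mW, proj_eps P hσ,
      proj_eps P (isThreeCycle_conj hσ π), onW_conj_colP hF _ hσF]
  refine event_induction (fun P => ∀ {σ : Perm (Col depth)}, σ.IsThreeCycle → σ.support ⊆ F →
    mW l * algC D hr U P σ * (mW l)⁻¹ = TX D hr (evSet P) (π * σ * π⁻¹)) ?_ ?_ ?_
    (cellEvents U) ?_ P (fun a b h => by rw [eq_of_cellEvents h]) hσ hσF
  · intro σ hσ hσF
    rw [(alg_algC (D := D) hr U).univ hσ, evSet_univ,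
      TX_univ (D := D) hr (isThreeCycle_conj hσ π)]
    exact short _ _ hσ hσF
  · intro P hP σ hσ hσF
    have e := (alg_algC (D := D) hr U).split_univ P hσ
    rw [show evSet Pᶜ = (evSet P)ᶜ by ext; simp,
      TX_compl (D := D) hr ⟨U, P, rfl⟩ (isThreeCycle_conj hσ π), ← hP hσ hσF,
      ← short false Finset.univ hσ hσF]
    rw [show (world S D).K σ = eps false Finset.univ σ from rfl] at e
    rw [e]
    group
  · intro P Q hP hQ σ hσ hσF
    obtain ⟨v, rfl, hv⟩ := exists_quint hσ hσF h5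
    obtain ⟨-, hl', hr'⟩ := support_q_subset v hv
    have e : ∀ a : Perm (Col depth), π * a * π⁻¹ = MulAut.conj π a := fun a => rfl
    rw [← (alg_algC (D := D) hr U).commutator_pow Q P v, ← conj_pow,
      show evSet (P ∩ Q) = evSet P ∩ evSet Q by ext; simp,
      show π * qc v * π⁻¹ = qc (v.trans π.toEmbedding) by
        simp [Vale.Agent.P196.Pres.qc, Vale.Agent.P196.Pres.cyc_conj],
      TX_inter (D := D) hr ⟨U, Q, rfl⟩ ⟨U, P, rfl⟩ (v.trans π.toEmbedding),
      show ql (v.trans π.toEmbedding) = π * ql v * π⁻¹ by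
        simp [Vale.Agent.P196.Pres.ql, Vale.Agent.P196.Pres.cyc_conj],
      show qr (v.trans π.toEmbedding) = π * qr v * π⁻¹ by
        simp [Vale.Agent.P196.Pres.qr, Vale.Agent.P196.Pres.cyc_conj],
      ← hQ (ql_three v) hl', ← hP (qr_three v) hr']
    simp only [commutatorElement_def]
    group
  · intro e he σ hσ hσF
    obtain ⟨⟨u, c⟩, -, rfl⟩ := List.mem_map.1 he
    rw [show algC D hr U (ev u.1 u.2 c) σ = Pres.cell u.1 c σ from (isCtx _).cell u.2 c hσ,
      TX_ev (D := D) hr _ (isThreeCycle_conj hσ π),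
      show algC D hr U (ev u.1 u.2 c) (π * σ * π⁻¹) = Pres.cell u.1 c (π * σ * π⁻¹) from
        (isCtx _).cell u.2 c (isThreeCycle_conj hσ π)]
    have hf : ∀ a ∉ F, tri σ (cmv u.1) a = 1 := fun a ha => if_neg fun h => ha (hσF h)
    have et := mW_tr (S := S) (D := D) hl hF (tri σ (cmv u.1)) hf
    rw [cell, cell, Xv_eq hσ (t := tri σ (cmv u.1)) (fun a ha => tri_apply ha),
      Xv_eq (isThreeCycle_conj hσ π) (t := fun b => tri σ (cmv u.1) (π⁻¹ b)) (fun b hb => by
        rw [Perm.support_conj, Finset.mem_map] at hb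
        obtain ⟨a, ha, rfl⟩ := hb
        rw [show π⁻¹ (π.toEmbedding a) = a from π.symm_apply_apply a, tri_apply ha]),
      ← et, ← short _ _ hσ hσF]
    group

omit hr in
lemma onW_split_colP {φ : Perm (ℕ → Bool)} {π₀ π₁ : Perm (Col depth)} {F : Finset (Col depth)}
    (h0 : ∀ a ∈ F, ∀ t, φ (SFT.cat (cw a ++ [false]) t) = SFT.cat (cw (π₀ a)) t)
    (h1 : ∀ a ∈ F, ∀ t, φ (SFT.cat (cw a ++ [true]) t) = SFT.cat (cw (π₁ a)) t) (s : Set S.X)
    {σ : Perm (Col depth)} (hσ : σ.support ⊆ F)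
    (hd : ∀ a ∈ F, ∀ b ∈ F, π₀ a ≠ π₁ b) :
    onW S φ * colP S (ind S s σ) * (onW S φ)⁻¹ =
      colP S (ind S s (π₀ * σ * π₀⁻¹)) * colP S (ind S s (π₁ * σ * π₁⁻¹)) := by
  rw [← map_mul]
  refine mul_inv_eq_iff_eq_mul.2 (Equiv.ext fun ⟨x, w⟩ => ?_)
  simp only [Perm.mul_apply, onW_apply]
  conv_lhs => rw [← cat_col w (N := depth), colP_cat, onW_apply]
  have hsup : ∀ π : Perm (Col depth), ∀ c, (π * σ * π⁻¹) c ≠ c → ∃ a ∈ F, c = π a := by
    intro π c hc
    rw [← Perm.mem_support, Perm.support_conj, Finset.mem_map] at hc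
    obtain ⟨a, ha, rfl⟩ := hc
    exact ⟨a, hσ ha, rfl⟩
  have hin : ∀ a ∈ F, σ a ∈ F := fun a ha => by
    by_cases h : σ a = a
    · rwa [h]
    · exact hσ (Perm.apply_mem_support.2 (Perm.mem_support.2 h))
  have fix1 : ∀ a ∈ F, (π₁ * σ * π₁⁻¹) (π₀ a) = π₀ a := fun a ha => by
    by_contra h
    obtain ⟨b, hb, e⟩ := hsup π₁ _ h
    exact hd a ha b hb e
  have fix0 : ∀ a ∈ F, (π₀ * σ * π₀⁻¹) (π₁ a) = π₁ a := fun a ha => by
    by_contra h
    obtain ⟨b, hb, e⟩ := hsup π₀ _ h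
    exact hd b hb a ha e.symm
  by_cases hc : col depth w ∈ F
  · have hbit : ∃ c r, drp depth w = SFT.cat [c] r := ⟨drp depth w 0, drp 1 (drp depth w),
      (cat_drp (a := [drp depth w 0]) (fun i hi => by
        simp only [List.length_singleton, Nat.lt_one_iff] at hi
        subst hi; rfl)).symm⟩
    obtain ⟨c, r, hr'⟩ := hbit
    conv_rhs => rw [← cat_col w (N := depth), hr', ← cat_append]
    rw [hr', ← cat_append]
    by_cases hx : x ∈ s
    · cases c
      · rw [h0 _ hc, colP_cat]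
        simp only [Pi.mul_apply, ind, hx, if_true, h0 _ (hin _ hc)]
        rw [Perm.mul_apply (π₀ * σ * π₀⁻¹), fix1 _ hc]
        simp
      · rw [h1 _ hc, colP_cat]
        simp only [Pi.mul_apply, ind, hx, if_true, h1 _ (hin _ hc)]
        rw [Perm.mul_apply (π₀ * σ * π₀⁻¹),
          show (π₁ * σ * π₁⁻¹) (π₁ (col depth w)) = π₁ (σ (col depth w)) by simp,
          fix0 _ (hin _ hc)]
    · cases c
      · rw [h0 _ hc, colP_cat]
        simp [ind, hx, h0 _ hc]
      · rw [h1 _ hc, colP_cat]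
        simp [ind, hx, h1 _ hc]
  · have hw : ind S s σ x (col depth w) = col depth w := by
      simp only [ind]
      split_ifs
      · exact Perm.notMem_support.1 fun h => hc (hσ h)
      · rfl
    have key : ∀ (π : Perm (Col depth)) (z : Bool),
        (∀ a ∈ F, ∀ t, φ (SFT.cat (cw a ++ [z]) t) = SFT.cat (cw (π a)) t) →
          ind S s (π * σ * π⁻¹) x (col depth (φ w)) = col depth (φ w) := by
      intro π z hz
      simp only [ind]
      split_ifs
      · by_contra h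
        obtain ⟨a, ha, he⟩ := hsup π _ h
        apply hc
        have e : φ w = φ (SFT.cat (cw a ++ [z]) (drp depth (φ w))) := by
          rw [hz a ha, ← he, cat_col]
        rw [φ.injective e, cat_append, col_cat]
        exact ha
      · rfl
    conv_rhs => rw [← cat_col (φ w) (N := depth), colP_cat, Pi.mul_apply, Perm.mul_apply,
      key π₁ true h1, key π₀ false h0, cat_col]
    rw [hw, cat_col]

omit hr in
lemma mW_tr_split {l : List (Mv depth)} (hl : l.length ≤ 28) {π₀ π₁ : Perm (Col depth)}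
    {F : Finset (Col depth)}
    (h0 : ∀ a ∈ F, ∀ t, pW l (SFT.cat (cw a ++ [false]) t) = SFT.cat (cw (π₀ a)) t)
    (h1 : ∀ a ∈ F, ∀ t, pW l (SFT.cat (cw a ++ [true]) t) = SFT.cat (cw (π₁ a)) t)
    (hd : ∀ a ∈ F, ∀ b ∈ F, π₀ a ≠ π₁ b) (f : Col depth → Γ) (hf : ∀ a ∉ F, f a = 1) :
    mW (S := S) (D := D) l * tr f * (mW l)⁻¹ =
      tr fun c => if π₀⁻¹ c ∈ F then f (π₀⁻¹ c) else if π₁⁻¹ c ∈ F then f (π₁⁻¹ c) else 1 := by
  let sh : (Col depth → Γ) →* (Col depth → Γ) :=
    { toFun := fun g c =>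
        if π₀⁻¹ c ∈ F then g (π₀⁻¹ c) else if π₁⁻¹ c ∈ F then g (π₁⁻¹ c) else 1
      map_one' := by funext c; simp
      map_mul' := fun g g' => by
        funext c
        simp only [Pi.mul_apply]
        split_ifs <;> simp }
  suffices h : f ∈ MonoidHom.eqLocus
      ((MulAut.conj (mW (S := S) (D := D) l)).toMonoidHom.comp tr) (tr.comp sh) from h
  refine Subgroup.pi_mem_of_mulSingle_mem f fun b => ?_
  by_cases hb : b ∈ F
  · show mW l * tr (Pi.mulSingle b (f b)) * (mW l)⁻¹ = tr (sh (Pi.mulSingle b (f b)))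
    have e : sh (Pi.mulSingle b (f b)) =
        Pi.mulSingle (π₀ b) (f b) * Pi.mulSingle (π₁ b) (f b) := by
      funext c
      simp only [sh, MonoidHom.coe_mk, OneHom.coe_mk, Pi.mul_apply, Pi.mulSingle_apply]
      by_cases e0 : c = π₀ b
      · subst e0
        simp [hb, hd b hb b hb]
      · by_cases e1 : c = π₁ b
        · subst e1
          have : π₀⁻¹ (π₁ b) ∉ F := fun h => hd _ h b hb (π₀.apply_symm_apply _)
          have this' : π₀.symm (π₁ b) ∉ F := this
          simp [hb, this', (hd b hb b hb).symm]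
        · simp only [e0, e1, if_false, mul_one]
          have n0 : π₀⁻¹ c ≠ b := fun h => e0 (Perm.inv_eq_iff_eq.1 h)
          have n1 : π₁⁻¹ c ≠ b := fun h => e1 (Perm.inv_eq_iff_eq.1 h)
          split_ifs <;> rfl
    rw [e, tr_single, map_mul tr, tr_single, tr_single]
    let a₀ : SW := ⟨cw b ++ [false], Or.inr (by simp)⟩
    let a₁ : SW := ⟨cw b ++ [true], Or.inr (by simp)⟩
    rw [th_split (a := cs b) (a₀ := a₀) (a₁ := a₁) rfl rfl (f b),
      ← mW_th (a := a₀) (a' := cs (π₀ b)) hl (h0 b hb) (f b),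
      ← mW_th (a := a₁) (a' := cs (π₁ b)) hl (h1 b hb) (f b)]
    group
  · rw [hf b hb, Pi.mulSingle_one]; exact one_mem _

/-- Exchanges of cylinders carrying the halves of colours onto colours. -/
theorem mW_TX_split {l : List (Mv depth)} (hl : l.length ≤ 28) {π₀ π₁ : Perm (Col depth)}
    {F : Finset (Col depth)} (h5 : 5 ≤ F.card)
    (h0 : ∀ a ∈ F, ∀ t, pW l (SFT.cat (cw a ++ [false]) t) = SFT.cat (cw (π₀ a)) t)
    (h1 : ∀ a ∈ F, ∀ t, pW l (SFT.cat (cw a ++ [true]) t) = SFT.cat (cw (π₁ a)) t)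
    (hd : ∀ a ∈ F, ∀ b ∈ F, π₀ a ≠ π₁ b) {σ : Perm (Col depth)}
    (hσ : σ.IsThreeCycle) (hσF : σ.support ⊆ F) {s : Set S.X} (hs : IsEv s) :
    mW l * TX D hr s σ * (mW l)⁻¹ =
      TX D hr s (π₀ * σ * π₀⁻¹) * TX D hr s (π₁ * σ * π₁⁻¹) := by
  obtain ⟨U, P, rfl⟩ := hs
  rw [TX_ev (D := D) hr P hσ]
  have short : ∀ (w : Bool) (P : Finset (Pat S (wcells S w))) {σ : Perm (Col depth)},
      σ.IsThreeCycle → σ.support ⊆ F →
        mW l * eps (D := D) w P σ * (mW l)⁻¹ =
          eps w P (π₀ * σ * π₀⁻¹) * eps w P (π₁ * σ * π₁⁻¹) := by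
    intro w P σ hσ hσF
    refine Short.eq (((short_mW l).mul (short_eps _ _ _)).mul (short_mW l).inv)
      ((short_eps _ _ _).mul (short_eps _ _ _)) (le_bound (by omega)) ?_
    rw [map_mul, map_mul, map_inv, map_mul, proj_mW, proj_eps P hσ,
      proj_eps P (isThreeCycle_conj hσ π₀), proj_eps P (isThreeCycle_conj hσ π₁),
      onW_split_colP h0 h1 _ hσF hd]
  have hdisj : ∀ {a b : Perm (Col depth)}, a.support ⊆ F → b.support ⊆ F →
      Disjoint (π₀ * a * π₀⁻¹).support (π₁ * b * π₁⁻¹).support := by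
    intro a b ha hb
    rw [Perm.support_conj, Perm.support_conj, Finset.disjoint_left]
    intro c hc hc'
    obtain ⟨p, hp, rfl⟩ := Finset.mem_map.1 hc
    obtain ⟨q, hq, he⟩ := Finset.mem_map.1 hc'
    exact hd p (ha hp) q (hb hq) he.symm
  refine event_induction (fun P => ∀ {σ : Perm (Col depth)}, σ.IsThreeCycle → σ.support ⊆ F →
    mW l * algC D hr U P σ * (mW l)⁻¹ =
      TX D hr (evSet P) (π₀ * σ * π₀⁻¹) * TX D hr (evSet P) (π₁ * σ * π₁⁻¹)) ?_ ?_ ?_
    (cellEvents U) ?_ P (fun a b h => by rw [eq_of_cellEvents h]) hσ hσF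
  · intro σ hσ hσF
    rw [(alg_algC (D := D) hr U).univ hσ, evSet_univ,
      TX_univ (D := D) hr (isThreeCycle_conj hσ π₀), TX_univ (D := D) hr (isThreeCycle_conj hσ π₁)]
    exact short _ _ hσ hσF
  · intro P hP σ hσ hσF
    have e := (alg_algC (D := D) hr U).split_univ P hσ
    have hev : IsEv (evSet P) := ⟨U, P, rfl⟩
    have hu : IsEv (Set.univ : Set S.X) := isEv_of_isClopen isClopen_univ
    rw [show evSet Pᶜ = (evSet P)ᶜ by ext; simp]
    have k0 := TX_compl (D := D) hr hev (isThreeCycle_conj hσ π₀)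
    have k1 := TX_compl (D := D) hr hev (isThreeCycle_conj hσ π₁)
    have hs' := short false Finset.univ hσ hσF
    rw [show (world S D).K σ = eps false Finset.univ σ from rfl] at e
    rw [e] at hs'
    have hm : ∀ {s : Set S.X}, IsEv s → Commute (TX D hr (evSet P)ᶜ (π₀ * σ * π₀⁻¹))
        (TX D hr s (π₁ * σ * π₁⁻¹)) := fun {s} hs => by
      obtain ⟨F0, hF0, hF1, hF05⟩ := Finset.exists_subsuperset_card_eq
        (s := (π₀ * σ * π₀⁻¹).support) (t := (π₁ * σ * π₁⁻¹).supportᶜ) (n := 5)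
        (Finset.subset_compl_iff_disjoint_right.2 (hdisj hσF hσF))
        (by rw [(isThreeCycle_conj hσ π₀).card_support]; omega)
        (by rw [Finset.card_compl, card_col, (isThreeCycle_conj hσ π₁).card_support]; omega)
      exact (world S D).comm (disjoint_compl_right (a := F0)) _
        (TX_mem_loc (D := D) hr (isEv_of_isClopen hev.isClopen.compl)
          (isThreeCycle_conj hσ π₀) hF0 hF05.ge) _
        (TX_mem_loc (D := D) hr hs (isThreeCycle_conj hσ π₁)
          (Finset.subset_compl_comm.1 hF1) (by rw [Finset.card_compl, card_col]; omega))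
    have split' : ∀ {ρ : Perm (Col depth)}, ρ.IsThreeCycle → eps false Finset.univ ρ =
        TX D hr (evSet P) ρ * TX D hr (evSet P)ᶜ ρ := fun hρ => by
      rw [TX_compl (D := D) hr hev hρ, mul_inv_cancel_left]
    have e2 : mW l * algC D hr U Pᶜ σ * (mW l)⁻¹ =
        (mW l * algC D hr U P σ * (mW l)⁻¹)⁻¹ *
          (mW l * (algC D hr U P σ * algC D hr U Pᶜ σ) * (mW l)⁻¹) := by group
    rw [e2, hs', hP hσ hσF, split' (isThreeCycle_conj hσ π₀), split' (isThreeCycle_conj hσ π₁)]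
    rw [mul_inv_rev, show ∀ a b c d : Cov S D, b⁻¹ * a⁻¹ * (a * c * (b * d)) = b⁻¹ * (c * b) * d
      from fun a b c d => by group, (hm hev).eq]
    group
  · intro P Q hP hQ σ hσ hσF
    obtain ⟨v, rfl, hv⟩ := exists_quint hσ hσF h5
    obtain ⟨-, hl', hr'⟩ := support_q_subset v hv
    have ec : ∀ π : Perm (Col depth), π * qc v * π⁻¹ = qc (v.trans π.toEmbedding) := fun π => by
      simp [Vale.Agent.P196.Pres.qc, Vale.Agent.P196.Pres.cyc_conj]
    have el : ∀ π : Perm (Col depth), ql (v.trans π.toEmbedding) = π * ql v * π⁻¹ := fun π => by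
      simp [Vale.Agent.P196.Pres.ql, Vale.Agent.P196.Pres.cyc_conj]
    have er : ∀ π : Perm (Col depth), qr (v.trans π.toEmbedding) = π * qr v * π⁻¹ := fun π => by
      simp [Vale.Agent.P196.Pres.qr, Vale.Agent.P196.Pres.cyc_conj]
    rw [← (alg_algC (D := D) hr U).commutator_pow Q P v, ← conj_pow,
      show evSet (P ∩ Q) = evSet P ∩ evSet Q by ext; simp, ec π₀, ec π₁,
      TX_inter (D := D) hr ⟨U, Q, rfl⟩ ⟨U, P, rfl⟩ (v.trans π₀.toEmbedding),
      TX_inter (D := D) hr ⟨U, Q, rfl⟩ ⟨U, P, rfl⟩ (v.trans π₁.toEmbedding),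
      el π₀, er π₀, el π₁, er π₁]
    set A0 := TX D hr (evSet Q) (π₀ * ql v * π₀⁻¹)
    set B0 := TX D hr (evSet P) (π₀ * qr v * π₀⁻¹)
    set A1 := TX D hr (evSet Q) (π₁ * ql v * π₁⁻¹)
    set B1 := TX D hr (evSet P) (π₁ * qr v * π₁⁻¹)
    have hA := hQ (ql_three v) hl'
    have hB := hP (qr_three v) hr'
    rw [show mW l * ⁅algC D hr U Q (ql v), algC D hr U P (qr v)⁆ * (mW l)⁻¹ =
      ⁅mW l * algC D hr U Q (ql v) * (mW l)⁻¹, mW l * algC D hr U P (qr v) * (mW l)⁻¹⁆ by
      simp only [commutatorElement_def]; group, hA, hB]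
    let F0 := F.map π₀.toEmbedding
    let F1 := F.map π₁.toEmbedding
    have hF01 : Disjoint F0 F1 := Finset.disjoint_left.2 fun c hc hc' => by
      obtain ⟨p, hp, rfl⟩ := Finset.mem_map.1 hc
      obtain ⟨q, hq, he⟩ := Finset.mem_map.1 hc'
      exact hd p hp q hq he.symm
    have loc : ∀ (π : Perm (Col depth)) {s : Set S.X}, IsEv s → ∀ {τ : Perm (Col depth)},
        τ.IsThreeCycle → τ.support ⊆ F →
          TX D hr s (π * τ * π⁻¹) ∈ (world S D).Loc (F.map π.toEmbedding) :=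
      fun π _ hs τ hτ hτF => TX_mem_loc (D := D) hr hs (isThreeCycle_conj hτ π)
        (by rw [Perm.support_conj]; exact Finset.map_subset_map.2 hτF) (by simpa using h5)
    have a0 : A0 ∈ (world S D).Loc F0 := loc π₀ ⟨U, Q, rfl⟩ (ql_three v) hl'
    have b0 : B0 ∈ (world S D).Loc F0 := loc π₀ ⟨U, P, rfl⟩ (qr_three v) hr'
    have a1 : A1 ∈ (world S D).Loc F1 := loc π₁ ⟨U, Q, rfl⟩ (ql_three v) hl'
    have b1 : B1 ∈ (world S D).Loc F1 := loc π₁ ⟨U, P, rfl⟩ (qr_three v) hr'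
    have cm := fun {x y : Cov S D} (hx : x ∈ (world S D).Loc F0) (hy : y ∈ (world S D).Loc F1) =>
      (world S D).comm hF01 x hx y hy
    have c0 : ⁅A0, B0⁆ ∈ (world S D).Loc F0 := by
      rw [commutatorElement_def]
      exact mul_mem (mul_mem (mul_mem a0 b0) (inv_mem a0)) (inv_mem b0)
    have c1 : ⁅A1, B1⁆ ∈ (world S D).Loc F1 := by
      rw [commutatorElement_def]
      exact mul_mem (mul_mem (mul_mem a1 b1) (inv_mem a1)) (inv_mem b1)
    have hcomm : ⁅A0 * A1, B0 * B1⁆ = ⁅A0, B0⁆ * ⁅A1, B1⁆ := by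
      simp only [commutatorElement_def, mul_inv_rev]
      calc A0 * A1 * (B0 * B1) * (A1⁻¹ * A0⁻¹) * (B1⁻¹ * B0⁻¹)
          = A0 * (A1 * B0) * (B1 * A1⁻¹ * A0⁻¹) * (B1⁻¹ * B0⁻¹) := by group
        _ = A0 * (B0 * A1) * (A0⁻¹ * (B1 * A1⁻¹)) * (B1⁻¹ * B0⁻¹) := by
            rw [(cm b0 a1).eq, (cm (inv_mem a0) (mul_mem b1 (inv_mem a1))).eq]
        _ = A0 * B0 * (A1 * A0⁻¹) * (B1 * A1⁻¹ * B1⁻¹) * B0⁻¹ := by group
        _ = A0 * B0 * (A0⁻¹ * A1) * ((B1 * A1⁻¹ * B1⁻¹) * B0⁻¹) := by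
            rw [(cm (inv_mem a0) a1).eq]; group
        _ = A0 * B0 * A0⁻¹ * (A1 * (B0⁻¹ * (B1 * A1⁻¹ * B1⁻¹))) := by
            rw [(cm (inv_mem b0) (mul_mem (mul_mem b1 (inv_mem a1)) (inv_mem b1))).eq]; group
        _ = A0 * B0 * A0⁻¹ * (B0⁻¹ * A1) * (B1 * A1⁻¹ * B1⁻¹) := by
            rw [(cm (inv_mem b0) a1).eq]; group
        _ = _ := by group
    rw [hcomm, ((cm c0 c1)).mul_pow]
  · intro e he σ hσ hσF
    obtain ⟨⟨u, c⟩, -, rfl⟩ := List.mem_map.1 he
    have k0 := isThreeCycle_conj hσ π₀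
    have k1 := isThreeCycle_conj hσ π₁
    rw [show algC D hr U (ev u.1 u.2 c) σ = Pres.cell u.1 c σ from (isCtx _).cell u.2 c hσ,
      TX_ev (D := D) hr _ k0, TX_ev (D := D) hr _ k1,
      show algC D hr U (ev u.1 u.2 c) (π₀ * σ * π₀⁻¹) = Pres.cell u.1 c (π₀ * σ * π₀⁻¹) from
        (isCtx _).cell u.2 c k0,
      show algC D hr U (ev u.1 u.2 c) (π₁ * σ * π₁⁻¹) = Pres.cell u.1 c (π₁ * σ * π₁⁻¹) from
        (isCtx _).cell u.2 c k1]
    set f := tri σ (cmv u.1)
    have hf : ∀ a ∉ F, f a = 1 := fun a ha => if_neg fun h => ha (hσF h)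
    have et := mW_tr_split (S := S) (D := D) hl h0 h1 hd f hf
    rw [cell, cell, cell, Xv_eq hσ (t := f) (fun a ha => tri_apply ha),
      Xv_eq k0 (t := fun b =>
        if π₀⁻¹ b ∈ F then f (π₀⁻¹ b) else if π₁⁻¹ b ∈ F then f (π₁⁻¹ b) else 1) (fun b hb => by
        rw [Perm.support_conj, Finset.mem_map] at hb
        obtain ⟨a, ha, rfl⟩ := hb
        rw [show π₀⁻¹ (π₀.toEmbedding a) = a from π₀.symm_apply_apply a, if_pos (hσF ha)]
        exact tri_apply ha),
      Xv_eq k1 (t := fun b =>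
        if π₀⁻¹ b ∈ F then f (π₀⁻¹ b) else if π₁⁻¹ b ∈ F then f (π₁⁻¹ b) else 1) (fun b hb => by
        rw [Perm.support_conj, Finset.mem_map] at hb
        obtain ⟨a, ha, rfl⟩ := hb
        have hn : ¬ π₀⁻¹ (π₁.toEmbedding a) ∈ F := fun h =>
          hd _ h a (hσF ha) (π₀.apply_symm_apply _)
        rw [if_neg hn,
          show π₁⁻¹ (π₁.toEmbedding a) = a from π₁.symm_apply_apply a, if_pos (hσF ha)]
        exact tri_apply ha),
      ← et]
    set Q := ev (1 : Γ) (origin_mem S) c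
    calc mW l * (tr f * eps false Q σ * (tr f)⁻¹) * (mW l)⁻¹
        = (mW l * tr f * (mW l)⁻¹) * (mW l * eps false Q σ * (mW l)⁻¹) *
            (mW l * tr f * (mW l)⁻¹)⁻¹ := by group
      _ = _ := by rw [short _ _ hσ hσF]; group

end

end Vale.Agent.P193.Pres
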