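import Vale.Agent.P193.Pres.Translated

/-!
P193, W5: a cycle carries every cycle whose three pieces it carries, by spare colours; the model.
-/

namespace Vale.Agent.P193.Pres

open Equiv BH Prefix
open scoped Classical

noncomputable section

variable {Γ : Type} [Group Γ] {S : SFT Γ} {D : KPres Γ}

lemma image_act (γ : Γ) (U : Set S.X) : S.act γ '' U = shiftSet γ U := by
  rw [Equiv.image_eq_preimage_symm]
  ext x
  show (gA S γ)⁻¹ x ∈ U ↔ gA S γ⁻¹ x ∈ U
  rw [map_inv]

lemma Nice.long {c : S.Cyc} (h : Nice c) : Long3 c.pre := h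

lemma long3_cons {a b c : Wd} (ha : depth ≤ a.length) (hb : depth ≤ b.length)
    (hc : depth ≤ c.length) (hab : Inc a b) (hac : Inc a c) (hbc : Inc b c) :
    Long3 ![a, b, c] := by
  refine ⟨fun i => by fin_cases i <;> assumption, fun i j hij => ?_⟩
  fin_cases i <;> fin_cases j <;> first
    | exact absurd rfl hij
    | assumption
    | exact Inc.symm ‹_›

variable (hr : S.Rigid)

variable (D) in
/-- The cycle of three pieces given by shift and prefix. -/
abbrev tp (V : Set S.X) (a b c : Γ × Wd) : Cov S D :=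
  t3 D hr V ![a.1, b.1, c.1] ![a.2, b.2, c.2]

variable {U V : Set S.X}

lemma tp_rot (hV : IsEv V) {a b c : Γ × Wd} (h : Long3 ![a.2, b.2, c.2]) :
    tp D hr V b c a = tp D hr V a b c := by
  have := t3_rot (D := D) hr hV (γ := ![a.1, b.1, c.1]) h
  refine Eq.trans ?_ this
  show t3 D hr V _ _ = t3 D hr V _ _
  congr 1 <;> funext i <;> fin_cases i <;> rfl

lemma tp_eta (V : Set S.X) (γ : Fin 3 → Γ) (p : Conf 3) :
    tp D hr V (γ 0, p 0) (γ 1, p 1) (γ 2, p 2) = t3 D hr V γ p := by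
  rw [tp]
  congr 1 <;> funext i <;> fin_cases i <;> rfl

/-- The cycle through `s, x, y` substitutes `x` for `s`. -/
lemma tp_subst (hV : IsEv V) {s x y a b : Γ × Wd} (h : Long3 ![s.2, x.2, y.2])
    (h' : Long3 ![s.2, a.2, b.2]) (hax : Inc a.2 x.2) (hay : Inc a.2 y.2) (hbx : Inc b.2 x.2)
    (hby : Inc b.2 y.2) :
    tp D hr V s x y * tp D hr V s a b * (tp D hr V s x y)⁻¹ = tp D hr V x a b := by
  have has : Inc a.2 s.2 := h'.2 1 0 (by decide)
  have hbs : Inc b.2 s.2 := h'.2 2 0 (by decide)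
  have key := t3_piece (D := D) hr [] hV h (γ := ![s.1, x.1, y.1]) (δ := ![s.1, a.1, b.1]) hV h' 0
    (by simp) (fun i => by fin_cases i <;> assumption) (fun i => by fin_cases i <;> assumption)
  rw [show tp D hr V s x y * tp D hr V s a b * (tp D hr V s x y)⁻¹ = _ from key]
  simp [tp, t3_empty (D := D) hr h']

/-- What the spare pieces are apart from. -/
def Apart (A B C P Q R : Γ × Wd) : Prop :=
  ∀ u ∈ [P, Q, R], ∀ v ∈ [A, B, C], Inc u.2 v.2

/-- A cycle by three spare pieces, each factor meeting one of its pieces. -/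
lemma tp_decomp (hV : IsEv V) {A B C P Q R : Γ × Wd} (h : Long3 ![A.2, B.2, C.2])
    (hs : Long3 ![P.2, Q.2, R.2]) (ha : Apart A B C P Q R) :
    tp D hr V A B C =
      tp D hr V C R P * (tp D hr V B R Q * tp D hr V A Q P * (tp D hr V B R Q)⁻¹) *
        (tp D hr V C R P)⁻¹ := by
  have lA : depth ≤ A.2.length := h.1 0
  have lB : depth ≤ B.2.length := h.1 1
  have lC : depth ≤ C.2.length := h.1 2
  have lP : depth ≤ P.2.length := hs.1 0
  have lQ : depth ≤ Q.2.length := hs.1 1
  have lR : depth ≤ R.2.length := hs.1 2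
  have AB : Inc A.2 B.2 := h.2 0 1 (by decide)
  have AC : Inc A.2 C.2 := h.2 0 2 (by decide)
  have BC : Inc B.2 C.2 := h.2 1 2 (by decide)
  have PQ : Inc P.2 Q.2 := hs.2 0 1 (by decide)
  have PR : Inc P.2 R.2 := hs.2 0 2 (by decide)
  have QR : Inc Q.2 R.2 := hs.2 1 2 (by decide)
  have PA := ha P (by simp) A (by simp)
  have PB := ha P (by simp) B (by simp)
  have PC := ha P (by simp) C (by simp)
  have QA := ha Q (by simp) A (by simp)
  have QB := ha Q (by simp) B (by simp)
  have QC := ha Q (by simp) C (by simp)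
  have RA := ha R (by simp) A (by simp)
  have RB := ha R (by simp) B (by simp)
  have RC := ha R (by simp) C (by simp)
  have hQBR := long3_cons lQ lB lR QB QR RB.symm
  have hQPA := long3_cons lQ lP lA PQ.symm QA PA
  have hPAB := long3_cons lP lA lB PA PB AB
  have hPCR := long3_cons lP lC lR PC PR RC.symm
  have e1 : tp D hr V B R Q * tp D hr V A Q P * (tp D hr V B R Q)⁻¹ = tp D hr V P A B := by
    rw [tp_rot (D := D) hr hV hQBR,
      ← tp_rot (D := D) hr hV (long3_cons lA lQ lP QA.symm PA.symm PQ.symm),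
      tp_subst (D := D) hr hV hQBR hQPA PB PR AB RA.symm]
    exact (tp_rot (D := D) hr hV (long3_cons lB lP lA PB.symm AB.symm PA)).symm
  rw [e1, tp_rot (D := D) hr hV hPCR, tp_subst (D := D) hr hV hPCR hPAB AC RA.symm BC RB.symm]
  exact tp_rot (D := D) hr hV (long3_cons lC lA lB AC.symm BC.symm AB)

lemma mem_shift_iff (γ δ : Γ) (x : S.X) :
    x ∈ shiftSet (δ⁻¹ * γ) U ↔ S.act δ x ∈ S.act γ '' U := by
  rw [image_act, mem_shiftSet, mem_shiftSet, mul_inv_rev, inv_inv, map_mul]
  rfl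

/-- A cycle carries a cycle that it meets in one piece as it carries that piece. -/
lemma tp_carry {c : S.Cyc} (hc : Nice c) (hV : IsEv V) {A A' x y : Γ × Wd}
    (hA : Carries c V A.1 A.2 A'.1 A'.2) (h : Long3 ![A.2, x.2, y.2])
    (hx : ∀ i, Inc x.2 (c.pre i)) (hy : ∀ i, Inc y.2 (c.pre i)) :
    t3 D hr c.base c.shift c.pre * tp D hr V A x y * (t3 D hr c.base c.shift c.pre)⁻¹ =
      tp D hr V A' x y := by
  have hU : IsEv c.base := isEv_of_isClopen c.clopen
  have key : ∀ j r, A.2 = c.pre j ++ r → _ := fun j r e =>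
    t3_piece (D := D) hr r hU hc.long (γ := c.shift) (δ := ![A.1, x.1, y.1]) hV h j e hx hy
  have hl : ∀ j r, A.2 = c.pre j ++ r → Long3 ![c.pre (j + 1) ++ r, x.2, y.2] := fun j r _ =>
    long3_cons (by have := hc.1 (j + 1); simp; omega) (h.1 1) (h.1 2)
      ((hx _).of_prefix (List.prefix_append _ r)).symm
      ((hy _).of_prefix (List.prefix_append _ r)).symm (h.2 1 2 (by decide))
  rcases hA with ⟨hk, e1, e2⟩ | ⟨j, r, e, hsub, e2, e1⟩
  · rw [Prod.ext e1 e2 (y := A)]
    by_cases hall : ∀ j, Inc (c.pre j) A.2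
    · rw [mul_inv_eq_iff_eq_mul]
      refine (t3_commute (D := D) hr hU hV hc.long h fun i j => ?_).eq
      fin_cases i
      exacts [(hall j).symm, hx j, hy j]
    push Not at hall
    obtain ⟨j, hj⟩ := hall
    obtain ⟨⟨r, e⟩, hd⟩ := (hk j).resolve_left hj
    have hW : V ∩ shiftSet (A.1⁻¹ * c.shift j) c.base = ∅ :=
      Set.eq_empty_iff_forall_notMem.2 fun z ⟨hz, hz'⟩ =>
        Set.disjoint_left.1 hd ⟨z, hz, rfl⟩ ((mem_shift_iff _ _ z).1 hz')
    rw [show tp D hr V A x y = t3 D hr V ![A.1, x.1, y.1] ![A.2, x.2, y.2] from rfl,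
      key j r e.symm]
    simp only [Matrix.cons_val_zero, Matrix.cons_val_one, Matrix.cons_val, hW]
    rw [t3_empty (D := D) hr (hl j r e.symm), one_mul, ← Set.sdiff_self_inter, hW, Set.sdiff_empty]
  · have hW : V ⊆ shiftSet (A.1⁻¹ * c.shift j) c.base := fun z hz =>
      (mem_shift_iff _ _ z).2 (hsub ⟨z, hz, rfl⟩)
    rw [show tp D hr V A x y = t3 D hr V ![A.1, x.1, y.1] ![A.2, x.2, y.2] from rfl, key j r e]
    simp only [Matrix.cons_val_zero, Matrix.cons_val_one, Matrix.cons_val,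
      Set.inter_eq_left.2 hW, Set.sdiff_eq_empty.2 hW]
    rw [t3_empty (D := D) hr h, mul_one, tp, e1, e2]

/-- Conjugation of one cycle by another. -/
theorem t3_conj {c d d' : S.Cyc} (hc : Nice c) (hd : Nice d) (hd' : Nice d')
    (hb : d'.base = d.base)
    (h : ∀ i, Carries c d.base (d.shift i) (d.pre i) (d'.shift i) (d'.pre i)) :
    t3 D hr c.base c.shift c.pre * t3 D hr d.base d.shift d.pre *
        (t3 D hr c.base c.shift c.pre)⁻¹ =
      t3 D hr d'.base d'.shift d'.pre := by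
  rw [hb]
  have hV : IsEv d.base := isEv_of_isClopen d.clopen
  obtain ⟨cs, hcs, hnd, hinc⟩ :=
    exists_colours 3 (List.ofFn c.pre ++ List.ofFn d.pre ++ List.ofFn d'.pre)
      (fun v hv => by
        simp only [List.mem_append, List.mem_ofFn] at hv
        rcases hv with (⟨i, rfl⟩ | ⟨i, rfl⟩) | ⟨i, rfl⟩
        exacts [hc.1 i, hd.1 i, hd'.1 i]) (by simp)
  obtain ⟨u, v, w, rfl⟩ : ∃ u v w, cs = [u, v, w] := List.length_eq_three.1 hcs
  simp only [List.nodup_cons, List.mem_cons, List.not_mem_nil, or_false, not_or] at hnd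
  obtain ⟨⟨huv, huw⟩, hvw, -⟩ := hnd
  let P : Γ × Wd := (1, cw u)
  let Q : Γ × Wd := (1, cw v)
  let R : Γ × Wd := (1, cw w)
  have hs : Long3 ![P.2, Q.2, R.2] :=
    long3_cons (by simp [P]) (by simp [Q]) (by simp [R]) (inc_cw huv) (inc_cw huw) (inc_cw hvw)
  have hsp : ∀ s ∈ [P, Q, R], ∀ i, Inc s.2 (c.pre i) ∧ Inc s.2 (d.pre i) ∧ Inc s.2 (d'.pre i) := by
    intro s hs i
    simp only [List.mem_cons, List.not_mem_nil, or_false] at hs
    rcases hs with rfl | rfl | rfl <;>
      exact ⟨hinc _ (by simp) _ (List.mem_append_left _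
          (List.mem_append_left _ (List.mem_ofFn.2 ⟨i, rfl⟩))),
        hinc _ (by simp) _ (List.mem_append_left _
          (List.mem_append_right _ (List.mem_ofFn.2 ⟨i, rfl⟩))),
        hinc _ (by simp) _ (List.mem_append_right _ (List.mem_ofFn.2 ⟨i, rfl⟩))⟩
  let A : Fin 3 → Γ × Wd := fun i => (d.shift i, d.pre i)
  let A' : Fin 3 → Γ × Wd := fun i => (d'.shift i, d'.pre i)
  have hA : Long3 ![(A 0).2, (A 1).2, (A 2).2] :=
    long3_cons (hd.1 0) (hd.1 1) (hd.1 2) (hd.2 0 1 (by decide)) (hd.2 0 2 (by decide))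
      (hd.2 1 2 (by decide))
  have hA' : Long3 ![(A' 0).2, (A' 1).2, (A' 2).2] :=
    long3_cons (hd'.1 0) (hd'.1 1) (hd'.1 2) (hd'.2 0 1 (by decide)) (hd'.2 0 2 (by decide))
      (hd'.2 1 2 (by decide))
  have ap : Apart (A 0) (A 1) (A 2) P Q R := fun s hs z hz => by
    simp only [List.mem_cons, List.not_mem_nil, or_false] at hz
    rcases hz with rfl | rfl | rfl <;> exact (hsp s hs _).2.1
  have ap' : Apart (A' 0) (A' 1) (A' 2) P Q R := fun s hs z hz => by
    simp only [List.mem_cons, List.not_mem_nil, or_false] at hz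
    rcases hz with rfl | rfl | rfl <;> exact (hsp s hs _).2.2
  have f : ∀ i x y, x ∈ [P, Q, R] → y ∈ [P, Q, R] → Inc x.2 y.2 →
      MulAut.conj (t3 D hr c.base c.shift c.pre) (tp D hr d.base (A i) x y) =
        tp D hr d.base (A' i) x y := fun i x y hx hy hxy =>
    tp_carry (D := D) hr hc hV (h i)
      (long3_cons (hd.1 i)
        (by simp only [List.mem_cons, List.not_mem_nil, or_false] at hx
            rcases hx with rfl | rfl | rfl <;> simp [P, Q, R])
        (by simp only [List.mem_cons, List.not_mem_nil, or_false] at hy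
            rcases hy with rfl | rfl | rfl <;> simp [P, Q, R])
        (hsp x hx i).2.1.symm (hsp y hy i).2.1.symm hxy)
      (fun j => (hsp x hx j).1) fun j => (hsp y hy j).1
  rw [← tp_eta (D := D) hr d.base d.shift d.pre, ← tp_eta (D := D) hr d.base d'.shift d'.pre,
    ← MulAut.conj_apply]
  show MulAut.conj _ (tp D hr d.base (A 0) (A 1) (A 2)) = tp D hr d.base (A' 0) (A' 1) (A' 2)
  rw [tp_decomp (D := D) hr hV hA hs ap, tp_decomp (D := D) hr hV hA' hs ap']
  simp only [map_mul, map_inv]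
  rw [f 2 R P (by simp) (by simp) (hs.2 2 0 (by decide)),
    f 1 R Q (by simp) (by simp) (hs.2 2 1 (by decide)),
    f 0 Q P (by simp) (by simp) (hs.2 1 0 (by decide))]

end

end Vale.Agent.P193.Pres
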