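import Vale.Agent.P193.Pres.Good

/-!
P193, W5: three-cycles of colours over clopen sets in the presented group.
-/

namespace Vale.Agent.P193.Pres

open Equiv BH
open scoped Classical commutatorElement
open Vale.Agent.P196.Pres (World Alg Family event_induction isThreeCycle_conj ql qr qc ql_three
  qr_three qc_three exists_quint qc_eq support_q_subset)

noncomputable section

variable {Γ : Type} [Group Γ] {S : SFT Γ} {D : KPres Γ}

lemma isClosed_carrier (S : SFT Γ) : IsClosed S.carrier := by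
  have e : S.carrier = ⋂ γ, (fun x : Γ → S.A => S.window x γ) ⁻¹' {p | S.allowed p} := by
    ext x; simp [SFT.carrier]
  rw [e]
  exact isClosed_iInter fun γ =>
    (isClosed_discrete _).preimage (continuous_pi fun w => continuous_apply _)

instance : CompactSpace S.X := isCompact_iff_compactSpace.1 (isClosed_carrier S).isCompact

lemma isClosed_admissible (R : Finset Γ) : IsClosed {a : Γ → S.A | S.Admissible R a} := by
  have e : {a : Γ → S.A | S.Admissible R a} =
      ⋂ γ, {a | (∀ w ∈ S.win, γ * w ∈ R) → S.allowed (S.window a γ)} := by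
    ext a; simp [SFT.Admissible]
  rw [e]
  refine isClosed_iInter fun γ => ?_
  by_cases h : ∀ w ∈ S.win, γ * w ∈ R
  · have e2 : {a : Γ → S.A | (∀ w ∈ S.win, γ * w ∈ R) → S.allowed (S.window a γ)} =
        (fun x : Γ → S.A => S.window x γ) ⁻¹' {p | S.allowed p} := by
      ext a; simp only [Set.mem_preimage, Set.mem_ofPred_eq]; exact ⟨fun f => f h, fun f _ => f⟩
    rw [e2]
    exact (isClosed_discrete _).preimage (continuous_pi fun w => continuous_apply _)
  · have e2 : {a : Γ → S.A | (∀ w ∈ S.win, γ * w ∈ R) → S.allowed (S.window a γ)} = Set.univ :=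
      Set.eq_univ_of_forall fun a f => absurd f h
    rw [e2]
    exact isClosed_univ

/-- A pattern not occurring in the subshift has no admissible extension to a large set. -/
lemma exists_death {U : Finset Γ} (p : Pat S U) (hp : ∀ x : S.X, patX U x ≠ p) :
    ∃ (R : Finset Γ) (h : U ⊆ R), ∀ q : Pat S R, res h q ≠ p := by
  by_contra! hcon
  let C : Finset Γ → Set (Γ → S.A) := fun R =>
    {a | S.Admissible (U ∪ R) a} ∩ {a | ∀ u : U, a u = p.1 u}
  have hne : ∀ R, (C R).Nonempty := by
    intro R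
    obtain ⟨q, hq⟩ := hcon (U ∪ R) Finset.subset_union_left
    refine ⟨wit (U ∪ R) q, wit_admissible q, fun u => ?_⟩
    rw [← hq]
    exact wit_apply q ⟨u.1, Finset.mem_union_left _ u.2⟩
  have hclosed : ∀ R, IsClosed (C R) := fun R => by
    refine (isClosed_admissible _).inter ?_
    rw [Set.ofPred_forall]
    exact isClosed_iInter fun u => isClosed_eq (continuous_apply _) continuous_const
  have hdir : Directed (· ⊇ ·) C := fun R R' =>
    ⟨R ∪ R', fun a ha => ⟨admissible_mono (Finset.union_subset_union subset_rfl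
      Finset.subset_union_left) ha.1, ha.2⟩, fun a ha => ⟨admissible_mono
      (Finset.union_subset_union subset_rfl Finset.subset_union_right) ha.1, ha.2⟩⟩
  obtain ⟨a, ha⟩ := IsCompact.nonempty_iInter_of_directed_nonempty_isCompact_isClosed C hdir hne
    (fun R => (hclosed R).isCompact) hclosed
  rw [Set.mem_iInter] at ha
  have hX : a ∈ S.carrier := fun γ =>
    (ha (S.win.image fun w => γ * w)).1 γ fun w hw =>
      Finset.mem_union_right _ (Finset.mem_image.2 ⟨w, hw, rfl⟩)
  exact hp ⟨a, hX⟩ (Subtype.ext (funext fun u => (ha ∅).2 u))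

variable (hr : S.Rigid)

variable (D) in
/-- The algebra on the patterns of a finite set. -/
abbrev algC (U : Finset Γ) : Finset (Pat S U) → Perm (Col depth) → Cov S D :=
  ctx (good_all (D := D) hr U)

lemma alg_algC (U : Finset Γ) : Alg (world S D) (algC D hr U) := (isCtx _).alg

lemma algC_pre {R U : Finset Γ} (h : R ⊆ U) (p : Finset (Pat S R)) {σ : Perm (Col depth)}
    (hσ : σ.IsThreeCycle) : algC D hr U (pre h p) σ = algC D hr R p σ :=
  ctx_pre h _ _ p hσ

lemma algC_die {U : Finset Γ} (p : Pat S U) (hp : ∀ x : S.X, patX U x ≠ p)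
    {σ : Perm (Col depth)} (hσ : σ.IsThreeCycle) : algC D hr U {p} σ = 1 := by
  obtain ⟨R, h, hR⟩ := exists_death p hp
  rw [← algC_pre (D := D) hr h {p} hσ, show pre h {p} = (∅ : Finset (Pat S R)) from
    Finset.eq_empty_of_forall_notMem fun q hq => hR q (by simpa using hq)]
  exact (alg_algC (D := D) hr R).empty hσ

lemma algC_congr {U : Finset Γ} {s s' : Finset (Pat S U)} (he : evSet s = evSet s')
    {σ : Perm (Col depth)} (hσ : σ.IsThreeCycle) : algC D hr U s σ = algC D hr U s' σ := by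
  have hA := alg_algC (D := D) hr U
  have kill : ∀ t : Finset (Pat S U), evSet t = ∅ → algC D hr U t σ = 1 := by
    intro t
    induction t using Finset.induction_on with
    | empty => exact fun _ => hA.empty hσ
    | insert a t ha ih =>
      intro h
      have h' : ∀ x, patX U x ∉ insert a t := fun x hx =>
        (Set.eq_empty_iff_forall_notMem.1 h x) hx
      rw [Finset.insert_eq, hA.union hσ (Finset.disjoint_singleton_left.2 ha),
        algC_die (D := D) hr a (fun x hx => h' x (hx ▸ Finset.mem_insert_self a t)) hσ,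
        ih (Set.eq_empty_iff_forall_notMem.2 fun x hx => h' x (Finset.mem_insert_of_mem hx)),
        one_mul]
  have split : ∀ s s' : Finset (Pat S U), evSet s = evSet s' →
      algC D hr U s σ = algC D hr U (s ∩ s') σ := by
    intro s s' he
    have hd : evSet (s \ s') = ∅ := Set.eq_empty_iff_forall_notMem.2 fun x hx => by
      obtain ⟨h1, h2⟩ := Finset.mem_sdiff.1 (mem_evSet.1 hx)
      exact h2 ((Set.ext_iff.1 he x).1 h1)
    conv_lhs => rw [← Finset.sdiff_union_inter s s']
    rw [hA.union hσ (Finset.disjoint_sdiff_inter s s'), kill _ hd, one_mul]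
  rw [split s s' he, split s' s he.symm, Finset.inter_comm]

lemma algC_congr' {U U' : Finset Γ} {s : Finset (Pat S U)} {s' : Finset (Pat S U')}
    (he : evSet s = evSet s') {σ : Perm (Col depth)} (hσ : σ.IsThreeCycle) :
    algC D hr U s σ = algC D hr U' s' σ := by
  rw [← algC_pre (D := D) hr (Finset.subset_union_left (s₂ := U')) s hσ,
    ← algC_pre (D := D) hr (Finset.subset_union_right (s₁ := U)) s' hσ]
  exact algC_congr (D := D) hr (by rw [evSet_pre, evSet_pre, he]) hσ

/-- A set given by finitely many cells. -/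
def IsEv (s : Set S.X) : Prop := ∃ (U : Finset Γ) (P : Finset (Pat S U)), evSet P = s

omit hr in
lemma isEv_of_isClopen {s : Set S.X} (hs : IsClopen s) : IsEv s := by
  have key : ∀ x ∈ s, ∃ U : Finset Γ, evSet ({patX U x} : Finset (Pat S U)) ⊆ s := by
    intro x hx
    obtain ⟨O, hO, hOs⟩ := isOpen_induced_iff.1 hs.isOpen
    have hxO : x.1 ∈ O := by rw [← hOs] at hx; exact hx
    obtain ⟨U, u, hu, hUO⟩ := isOpen_pi_iff.1 hO x.1 hxO
    refine ⟨U, fun y hy => ?_⟩
    rw [← hOs]
    refine hUO fun a ha => ?_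
    have hy' : patX U y = patX U x := by simpa using hy
    have := congrFun (congrArg Subtype.val hy') ⟨a, ha⟩
    show y.1 a ∈ u a
    rw [show y.1 a = x.1 a from this]
    exact (hu a ha).2
  choose U hU using key
  obtain ⟨F, hF⟩ := hs.isClosed.isCompact.elim_finite_subcover
    (fun x : s => evSet ({patX (U x.1 x.2) x.1} : Finset (Pat S (U x.1 x.2))))
    (fun x => (isClopen_evSet _).isOpen) fun x hx => Set.mem_iUnion.2 ⟨⟨x, hx⟩, by simp⟩
  let W : Finset Γ := F.biUnion fun x => U x.1 x.2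
  refine ⟨W, Finset.univ.filter fun p => ∃ x ∈ s, patX W x = p, ?_⟩
  ext y
  simp only [mem_evSet, Finset.mem_filter, Finset.mem_univ, true_and]
  refine ⟨fun ⟨x, hx, hxy⟩ => ?_, fun hy => ⟨y, hy, rfl⟩⟩
  obtain ⟨z, hz⟩ := Set.mem_iUnion.1 (hF hx)
  obtain ⟨hzF, hz'⟩ := Set.mem_iUnion.1 hz
  have hsub : U z.1 z.2 ⊆ W := fun a ha => Finset.mem_biUnion.2 ⟨z, hzF, ha⟩
  refine hU z.1 z.2 ?_
  simp only [mem_evSet, Finset.mem_singleton] at hz' ⊢
  rw [← res_patX hsub y, ← hxy, res_patX hsub x, hz']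

omit hr in
lemma IsEv.isClopen {s : Set S.X} (h : IsEv s) : IsClopen s := by
  obtain ⟨U, P, rfl⟩ := h
  exact isClopen_evSet P

omit hr in
lemma IsEv.common {s t : Set S.X} (hs : IsEv s) (ht : IsEv t) :
    ∃ (U : Finset Γ) (P Q : Finset (Pat S U)), evSet P = s ∧ evSet Q = t := by
  obtain ⟨U, P, rfl⟩ := hs
  obtain ⟨U', Q, rfl⟩ := ht
  exact ⟨U ∪ U', pre Finset.subset_union_left P, pre Finset.subset_union_right Q,
    evSet_pre _ _, evSet_pre _ _⟩

variable (D) in
/-- The three-cycle over a clopen set. -/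
def TX (s : Set S.X) (σ : Perm (Col depth)) : Cov S D :=
  if h : IsEv s ∧ σ.IsThreeCycle then algC D hr h.1.choose h.1.choose_spec.choose σ else 1

lemma TX_ev {U : Finset Γ} (P : Finset (Pat S U)) {σ : Perm (Col depth)} (hσ : σ.IsThreeCycle) :
    TX D hr (evSet P) σ = algC D hr U P σ := by
  have hs : IsEv (evSet P) := ⟨U, P, rfl⟩
  rw [TX, dif_pos ⟨hs, hσ⟩]
  exact algC_congr' (D := D) hr hs.choose_spec.choose_spec hσ

lemma TX_family {s : Set S.X} (hs : IsEv s) : Family (TX D hr s) := by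
  obtain ⟨U, P, rfl⟩ := hs
  have h := (alg_algC (D := D) hr U).family P
  exact
    { conj := fun {σ τ} hσ hτ => by
        rw [TX_ev (D := D) hr P hσ, TX_ev (D := D) hr P hτ, TX_ev (D := D) hr P (isThreeCycle_conj hτ σ)]
        exact h.conj hσ hτ
      inv := fun {σ} hσ => by
        rw [TX_ev (D := D) hr P hσ, TX_ev (D := D) hr P hσ.inv]; exact h.inv hσ
      cube := fun {σ} hσ => by rw [TX_ev (D := D) hr P hσ]; exact h.cube hσ }

lemma TX_univ {σ : Perm (Col depth)} (hσ : σ.IsThreeCycle) :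
    TX D hr Set.univ σ = eps false Finset.univ σ := by
  rw [← evSet_univ (U := (∅ : Finset Γ)), TX_ev (D := D) hr _ hσ]
  exact (alg_algC (D := D) hr ∅).univ hσ

lemma TX_union {s t : Set S.X} (hs : IsEv s) (ht : IsEv t) (hd : Disjoint s t)
    {σ : Perm (Col depth)} (hσ : σ.IsThreeCycle) :
    TX D hr (s ∪ t) σ = TX D hr s σ * TX D hr t σ := by
  obtain ⟨U, P, Q, rfl, rfl⟩ := hs.common ht
  have e1 : evSet P ∪ evSet Q = evSet (P ∪ Q) := by ext; simp
  have e2 : evSet Q = evSet (Q \ P) := by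
    ext x
    simp only [mem_evSet, Finset.mem_sdiff]
    exact ⟨fun hq => ⟨hq, fun hp => Set.disjoint_left.1 hd hp hq⟩, fun h => h.1⟩
  rw [e1, TX_ev (D := D) hr _ hσ, TX_ev (D := D) hr _ hσ, e2, TX_ev (D := D) hr _ hσ,
    ← (alg_algC (D := D) hr U).union hσ Finset.disjoint_sdiff, Finset.union_sdiff_self_eq_union]

lemma TX_commute {s t : Set S.X} (hs : IsEv s) (ht : IsEv t) (hd : Disjoint s t)
    {σ τ : Perm (Col depth)} (hσ : σ.IsThreeCycle) (hτ : τ.IsThreeCycle) :
    Commute (TX D hr s σ) (TX D hr t τ) := by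
  obtain ⟨U, P, Q, rfl, rfl⟩ := hs.common ht
  have e2 : evSet Q = evSet (Q \ P) := by
    ext x
    simp only [mem_evSet, Finset.mem_sdiff]
    exact ⟨fun hq => ⟨hq, fun hp => Set.disjoint_left.1 hd hp hq⟩, fun h => h.1⟩
  rw [e2, TX_ev (D := D) hr _ hσ, TX_ev (D := D) hr _ hτ]
  exact (alg_algC (D := D) hr U).commute hσ hτ Finset.disjoint_sdiff

lemma TX_compl {s : Set S.X} (hs : IsEv s) {σ : Perm (Col depth)} (hσ : σ.IsThreeCycle) :
    TX D hr sᶜ σ = (TX D hr s σ)⁻¹ * eps false Finset.univ σ := by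
  obtain ⟨U, P, rfl⟩ := hs
  have e : (evSet P)ᶜ = evSet Pᶜ := by ext; simp
  rw [e, TX_ev (D := D) hr _ hσ, TX_ev (D := D) hr _ hσ,
    show eps false Finset.univ σ = (world S D).K σ from rfl,
    (alg_algC (D := D) hr U).split_univ P hσ, inv_mul_cancel_left]

lemma TX_inter {s t : Set S.X} (hs : IsEv s) (ht : IsEv t) (v : Fin 5 ↪ Col depth) :
    TX D hr (t ∩ s) (qc v) = ⁅TX D hr s (ql v), TX D hr t (qr v)⁆ ^ 4 := by
  obtain ⟨U, P, Q, rfl, rfl⟩ := hs.common ht
  have e : evSet Q ∩ evSet P = evSet (Q ∩ P) := by ext; simp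
  rw [e, TX_ev (D := D) hr _ (qc_three v), TX_ev (D := D) hr _ (ql_three v), TX_ev (D := D) hr _ (qr_three v),
    (alg_algC (D := D) hr U).commutator_pow P Q v]

lemma TX_mem_loc {s : Set S.X} (hs : IsEv s) {σ : Perm (Col depth)} (hσ : σ.IsThreeCycle)
    {F : Finset (Col depth)} (hF : σ.support ⊆ F) (h5 : 5 ≤ F.card) :
    TX D hr s σ ∈ (world S D).Loc F := by
  obtain ⟨U, P, rfl⟩ := hs
  rw [TX_ev (D := D) hr _ hσ]
  exact (alg_algC (D := D) hr U).loc P hσ hF h5

lemma qc_pow_four (v : Fin 5 ↪ Col depth) : qc v ^ 4 = qc v := by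
  have h : qc v ^ 3 = 1 := by rw [← (qc_three v).orderOf]; exact pow_orderOf_eq_one _
  rw [pow_succ, h, one_mul]

lemma exists_quint_univ {σ : Perm (Col depth)} (hσ : σ.IsThreeCycle) :
    ∃ v : Fin 5 ↪ Col depth, qc v = σ :=
  (exists_quint hσ (Finset.subset_univ _) (by
    rw [Finset.card_univ, Fintype.card_fun, Fintype.card_bool, Fintype.card_fin]
    norm_num [depth])).imp fun _ h => h.1

/-- The permutation of a three-cycle over a clopen set. -/
lemma proj_TX {s : Set S.X} (hs : IsEv s) {σ : Perm (Col depth)} (hσ : σ.IsThreeCycle) :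
    proj S D (TX D hr s σ) = colP S (ind S s σ) := by
  obtain ⟨U, P, rfl⟩ := hs
  rw [TX_ev (D := D) hr P hσ]
  refine event_induction (fun P => ∀ {σ : Perm (Col depth)}, σ.IsThreeCycle →
    proj S D (algC D hr U P σ) = colP S (ind S (evSet P) σ)) ?_ ?_ ?_ (cellEvents U) ?_ P
    (fun a b h => by rw [eq_of_cellEvents h]) hσ
  · intro σ hσ
    rw [(alg_algC (D := D) hr U).univ hσ, show (world S D).K σ = eps false Finset.univ σ from rfl,
      proj_eps _ hσ, evSet_univ, evSet_univ]
  · intro P hP σ hσ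
    have e := congrArg (proj S D) ((alg_algC (D := D) hr U).split_univ P hσ)
    rw [show (world S D).K σ = eps false Finset.univ σ from rfl, proj_eps _ hσ, evSet_univ,
      map_mul, hP hσ] at e
    rw [← inv_mul_cancel_left (colP S (ind S (evSet P) σ)) (proj S D (algC D hr U Pᶜ σ)), ← e,
      ← map_inv, ← map_mul]
    refine colP_ext fun x => ?_
    simp only [Pi.mul_apply, Pi.inv_apply, ind, mem_evSet, Finset.mem_compl, Set.mem_univ,
      if_true]
    by_cases hx : patX U x ∈ P <;> simp [hx]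
  · intro P Q hP hQ σ hσ
    obtain ⟨v, rfl⟩ := exists_quint_univ hσ
    rw [← (alg_algC (D := D) hr U).commutator_pow Q P v, map_pow, map_commutatorElement,
      hQ (ql_three v), hP (qr_three v), ← map_commutatorElement, ← map_pow]
    refine colP_ext fun x => ?_
    conv_rhs => rw [← qc_pow_four v, qc_eq]
    simp only [Pi.pow_apply, commutatorElement_def, Pi.mul_apply, Pi.inv_apply, ind, mem_evSet,
      Finset.mem_inter]
    by_cases h1 : patX U x ∈ P <;> by_cases h2 : patX U x ∈ Q <;> simp [h1, h2]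
  · intro e he σ hσ
    obtain ⟨⟨u, l⟩, -, rfl⟩ := List.mem_map.1 he
    rw [show algC D hr U (ev u.1 u.2 l) σ = Pres.cell u.1 l σ from (isCtx _).cell u.2 l hσ,
      cell, proj_Xv _ _ _ hσ]
    refine colP_ext fun x => ?_
    unfold ind
    congr 1
    simp only [mem_shiftSet, mem_evSet, mem_ev, eq_iff_iff]
    show (gA S (cmv u.1)⁻¹ x).1 1 = l ↔ x.1 u.1 = l
    rw [gA_inv_val, gmov_cmv]

end

end Vale.Agent.P193.Pres
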