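import Vale.Agent.P193.Pres.Cantor
import Vale.Agent.P196.Simple.Cycles

/-!
P193, W5: exchanges of cylinders, translations on cylinders and colourings by three-cycles lie in
the group of the subshift. In particular all translations do.
-/

namespace Vale.Agent.P193.Pres

open Equiv BH Prefix
open scoped Classical
open Vale.Agent.P196.Simple (cyc cyc_apply exists_cyc)

noncomputable section

variable {Γ : Type} [Group Γ] {S : SFT Γ}

lemma mem_piece_inCyl {U : Set S.X} {γ : Γ} {a : Wd} {q : S.Pt}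
    (h : q ∈ S.piece U γ a) : InCyl a q.2 := by
  obtain ⟨x, -, w, rfl⟩ := h
  exact inCyl_cat _ _

/-- The datum of three pieces with incomparable prefixes. -/
def mkCyc (U : Set S.X) (hU : IsClopen U) (γ : Fin 3 → Γ) (p : Conf 3) (hp : Dist p) :
    S.Cyc where
  base := U
  clopen := hU
  shift := γ
  pre := p
  disjoint i j hij := Set.disjoint_left.2 fun _ h1 h2 =>
    (mem_piece_inCyl h1).not_inc (mem_piece_inCyl h2) (hp i j hij)

lemma Rot3.isPerm {U : Set S.X} {p : Conf 3} {g : Perm S.Pt} (h : Rot3 U p g) (c : S.Cyc)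
    (hb : c.base = U) (hs : ∀ i, c.shift i = 1) (hp : c.pre = p) : c.IsPerm S g := by
  subst hb hp
  refine ⟨fun i x hx w => ?_, fun ⟨x, w⟩ hn => ?_⟩
  · rw [hs, hs, S.act_one, h.1 i x hx]
  · refine h.2 x w ?_
    by_cases hx : x ∈ c.base
    · exact Or.inr fun i hi => hn i ⟨x, hx, drp (c.pre i).length w,
        by rw [hs, S.act_one, cat_drp hi]⟩
    · exact Or.inl hx

lemma mem_full {c : S.Cyc} {g : Perm S.Pt} (h : c.IsPerm S g) : g ∈ S.fullGroup :=
  Subgroup.subset_closure ⟨c, h⟩

/-- A colouring by a three-cycle over an event rotates three pieces. -/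
lemma rot3_colP {N : ℕ} (s : Set S.X) {a b c : Col N} (hab : a ≠ b) (hbc : b ≠ c) (hac : a ≠ c) :
    Rot3 s ![cw a, cw b, cw c] (colP S (ind S s (cyc a b c))) := by
  obtain ⟨h1, h2, h3, h4⟩ := cyc_apply hab hbc hac
  refine ⟨fun i x hx t => ?_, fun x w hw => ?_⟩
  · fin_cases i <;> simp [colP_cat, ind, hx, h1, h2, h3]
  · rw [← cat_col w (N := N), colP_cat]
    by_cases hx : x ∈ s
    · have hn := hw.resolve_left (not_not.2 hx)
      have : ∀ i, col N w ≠ (![a, b, c] : Fin 3 → Col N) i := fun i e => hn i (by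
        fin_cases i <;> exact inCyl_cw.2 e)
      simp only [ind, hx, if_true, h4 _ (this 0) (this 1) (this 2)]
    · simp [ind, hx]

lemma colP_ind_mem {N : ℕ} {s : Set S.X} (hs : IsClopen s) {σ : Perm (Col N)}
    (hσ : σ.IsThreeCycle) : colP S (ind S s σ) ∈ S.fullGroup := by
  obtain ⟨a, b, c, hab, hbc, hac, rfl⟩ := exists_cyc hσ
  have hp : Dist ![cw a, cw b, cw c] := fun i j hij => by
    fin_cases i <;> fin_cases j <;> first
      | exact absurd rfl hij
      | exact inc_cw ‹_›
      | exact (inc_cw ‹_›).symm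
  exact mem_full ((rot3_colP s hab hbc hac).isPerm (mkCyc s hs (fun _ => 1) _ hp) rfl
    (fun _ => rfl) rfl)

/-! ### Exchanges -/

variable {a b c d : Wd}

variable (S) in
/-- Exchange of two cylinders, translating by `γ` on the way from the first to the second. -/
def swapT (a b : Wd) (h : Inc a b) (γ : Γ) : Perm S.Pt :=
  trP S b γ * trP S a γ⁻¹ * onW S (swapC a b h)

lemma swapT_a (h : Inc a b) (γ : Γ) (x : S.X) (t : ℕ → Bool) :
    swapT S a b h γ (x, SFT.cat a t) = (gA S γ x, SFT.cat b t) := by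
  rw [swapT, Perm.mul_apply, Perm.mul_apply, onW_apply, swapC_a,
    trP_out (not_inCyl_cat h t), trP_in (inCyl_cat _ _)]

lemma swapT_b (h : Inc a b) (γ : Γ) (x : S.X) (t : ℕ → Bool) :
    swapT S a b h γ (x, SFT.cat b t) = (gA S γ⁻¹ x, SFT.cat a t) := by
  rw [swapT, Perm.mul_apply, Perm.mul_apply, onW_apply, swapC_b,
    trP_in (inCyl_cat _ _), trP_out (not_inCyl_cat h.symm t)]

lemma swapT_fix (h : Inc a b) (γ : Γ) (x : S.X) {w : ℕ → Bool} (ha : ¬ InCyl a w)
    (hb : ¬ InCyl b w) : swapT S a b h γ (x, w) = (x, w) := by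
  rw [swapT, Perm.mul_apply, Perm.mul_apply, onW_apply, swapC_fix ha hb, trP_out ha, trP_out hb]

lemma swapT_one (h : Inc a b) : swapT S a b h 1 = onW S (swapC a b h) := by simp [swapT]

/-- A rotation of three pieces with translations. -/
lemma swapT_mul_mem (hab : Inc a b) (hbc : Inc b c) (hac : Inc a c) (γ : Γ) :
    swapT S a b hab γ * onW S (swapC b c hbc) ∈ S.fullGroup := by
  have hp : Dist ![a, b, c] := fun i j hij => by
    fin_cases i <;> fin_cases j <;> first
      | exact absurd rfl hij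
      | assumption
      | exact Inc.symm ‹_›
  refine mem_full (c := mkCyc Set.univ isClopen_univ ![1, γ, γ] ![a, b, c] hp)
    ⟨fun i x _ t => ?_, fun ⟨x, w⟩ hn => ?_⟩
  · fin_cases i <;>
      simp only [mkCyc, Perm.mul_apply, onW_apply, Fin.zero_eta, Fin.mk_one, Fin.reduceFinMk,
        Fin.reduceAdd, Matrix.cons_val, S.act_one, ← gA_apply]
    · rw [swapC_fix (not_inCyl_cat hab.symm t) (not_inCyl_cat hac.symm t), swapT_a]
    · rw [swapC_a, swapT_fix hab γ _ (not_inCyl_cat hac t) (not_inCyl_cat hbc t)]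
    · rw [swapC_b, swapT_b, gA_inv_apply]
  · have hout : ∀ i, ¬ InCyl (![a, b, c] i) w := by
      intro i hi
      refine hn i ⟨S.act ((![1, γ, γ] : Fin 3 → Γ) i)⁻¹ x, trivial,
        drp _ w, Prod.ext ?_ (cat_drp hi).symm⟩
      show x = _
      rw [S.act_act]
      simp [mkCyc, S.act_one]
    have h0 : ¬ InCyl a w := hout 0
    have h1 : ¬ InCyl b w := hout 1
    have h2 : ¬ InCyl c w := hout 2
    rw [Perm.mul_apply, onW_apply, swapC_fix h1 h2, swapT_fix hab γ x h0 h1]

lemma inc_snoc (a : Wd) : Inc (a ++ [false]) (a ++ [true]) :=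
  (inc_iff_ne (by simp)).2 (by simp)

lemma Inc.child (h : Inc a b) (x y : Bool) : Inc (a ++ [x]) (b ++ [y]) :=
  ((h.of_prefix (List.prefix_append b [y])).symm.of_prefix (List.prefix_append a [x])).symm

lemma swapC_split (h : Inc a b) :
    swapC a b h = swapC (a ++ [false]) (b ++ [false]) (Inc.child h _ _) *
      swapC (a ++ [true]) (b ++ [true]) (Inc.child h _ _) := by
  refine Equiv.ext fun w => ?_
  have key : ∀ (u : Wd) (t : ℕ → Bool), SFT.cat u t = SFT.cat (u ++ [t 0]) (drp 1 t) := fun u t => by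
    rw [cat_append]
    congr 1
    have h1 : InCyl [t 0] t := fun i hi => by
      simp only [List.length_singleton, Nat.lt_one_iff] at hi
      subst hi; rfl
    have := cat_drp h1
    simpa using this.symm
  rw [Perm.mul_apply]
  by_cases ha : InCyl a w
  · rw [← cat_drp ha, swapC_a, key a, key b]
    cases drp a.length w 0
    · rw [swapC_fix (not_inCyl_cat (inc_snoc a).symm _)
        (not_inCyl_cat (Inc.child h.symm _ _) _), swapC_a]
    · rw [swapC_a, swapC_fix (not_inCyl_cat (Inc.child h _ _) _)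
        (not_inCyl_cat (inc_snoc b) _)]
  by_cases hb : InCyl b w
  · rw [← cat_drp hb, swapC_b, key a, key b]
    cases drp b.length w 0
    · rw [swapC_fix (not_inCyl_cat (Inc.child h _ _) _)
        (not_inCyl_cat (inc_snoc b).symm _), swapC_b]
    · rw [swapC_b, swapC_fix (not_inCyl_cat (inc_snoc a) _)
        (not_inCyl_cat (Inc.child h.symm _ _) _)]
  have na : ∀ z, ¬ InCyl (a ++ [z]) w := fun z hc => ha (hc.of_prefix (List.prefix_append _ _))
  have nb : ∀ z, ¬ InCyl (b ++ [z]) w := fun z hc => hb (hc.of_prefix (List.prefix_append _ _))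
  rw [swapC_fix ha hb, swapC_fix (h := Inc.child h true true) (na true) (nb true),
    swapC_fix (na false) (nb false)]

/-- The exchange of two cylinders. -/
theorem swapC_mem (h : Inc a b) : onW S (swapC a b h) ∈ S.fullGroup := by
  have h3 : ∀ {p q r : Wd} (hpq : Inc p q) (hqr : Inc q r), Inc p r →
      onW S (swapC p q hpq) * onW S (swapC q r hqr) ∈ S.fullGroup := by
    intro p q r hpq hqr hpr
    have := swapT_mul_mem (S := S) hpq hqr hpr 1
    rwa [swapT_one] at this
  have h01 := Inc.child h false false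
  have h11 := Inc.child h true true
  have hm : Inc (b ++ [false]) (a ++ [true]) := Inc.child h.symm false true
  have e : onW S (swapC a b h) =
      (onW S (swapC _ _ h01) * onW S (swapC _ _ hm)) *
        (onW S (swapC _ _ hm) * onW S (swapC _ _ h11)) := by
    rw [mul_assoc, ← mul_assoc (onW S (swapC _ _ hm)), ← map_mul (onW S) (swapC _ _ hm),
      swapC_sq, map_one, one_mul, ← map_mul, ← swapC_split h]
  rw [e]
  exact mul_mem (h3 _ _ (inc_snoc a)) (h3 _ _ (inc_snoc b))

/-! ### Translations -/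

/-- A translation on one cylinder and the inverse one on a second. -/
lemma trP_pair_mem (hab : Inc a b) (hbc : Inc b c) (hac : Inc a c) (γ : Γ) :
    trP S b γ * trP S a γ⁻¹ ∈ S.fullGroup := by
  have h := mul_mem (mul_mem (swapT_mul_mem (S := S) hab hbc hac γ) (swapC_mem (S := S) hbc))
    (swapC_mem (S := S) hab)
  rwa [mul_assoc (swapT S a b hab γ), ← map_mul (onW S), swapC_sq, map_one, mul_one, swapT,
    mul_assoc, ← map_mul (onW S), swapC_sq, map_one, mul_one] at h

lemma trP_mem_of_three (hab : Inc a b) (hbc : Inc b c) (hac : Inc a c) (γ : Γ) :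
    trP S b γ ∈ S.fullGroup := by
  have h0 : Inc (a ++ [false]) b := (hab.symm.of_prefix (List.prefix_append a [false])).symm
  have h1 : Inc (a ++ [true]) b := (hab.symm.of_prefix (List.prefix_append a [true])).symm
  have i0 := trP_pair_mem (S := S) h0.symm (inc_snoc a) h1.symm γ
  have i1 := trP_pair_mem (S := S) h1.symm (inc_snoc a).symm h0.symm γ
  have hm := mul_mem (mul_mem (trP_pair_mem (S := S) hab hbc hac γ) i0) i1
  have c0 : Commute (trP S b γ) (trP S (a ++ [false]) γ) := trP_commute h0.symm _ _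
  have c1 : Commute (trP S b γ) (trP S (a ++ [true]) γ) := trP_commute h1.symm _ _
  rw [map_inv, map_inv, trP_split a γ] at hm
  set B := trP S b γ
  set A0 := trP S (a ++ [false]) γ
  set A1 := trP S (a ++ [true]) γ
  have e : B * (A0 * A1)⁻¹ * (A0 * B⁻¹) * (A1 * B⁻¹) = B⁻¹ := by
    calc B * (A0 * A1)⁻¹ * (A0 * B⁻¹) * (A1 * B⁻¹) = B * A1⁻¹ * (B⁻¹ * A1) * B⁻¹ := by group
      _ = B * A1⁻¹ * (A1 * B⁻¹) * B⁻¹ := by rw [c1.inv_left.eq]
      _ = B⁻¹ := by group
  rw [e] at hm
  exact inv_mem_iff.1 hm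

/-- The translations on cylinders. -/
theorem trP_mem : ∀ (n : ℕ) (a : Wd), 2 ≤ a.length + n → ∀ γ : Γ, trP S a γ ∈ S.fullGroup := by
  intro n
  induction n with
  | zero =>
    intro b hb γ
    obtain ⟨x, y, r, rfl⟩ : ∃ x y r, b = x :: y :: r := by
      match b, hb with
      | x :: y :: r, _ => exact ⟨x, y, r, rfl⟩
      | [x], hb => simp at hb
      | [], hb => simp at hb
    refine trP_mem_of_three (a := (!x) :: y :: r) (c := x :: (!y) :: r) ?_ ?_ ?_ γ <;>
      exact (inc_iff_ne (by simp)).2 (by cases x <;> cases y <;> simp)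
  | succ n ih =>
    intro b hb γ
    rw [trP_split b γ]
    exact mul_mem (ih _ (by simp; omega) γ) (ih _ (by simp; omega) γ)

lemma trP_nil (γ : Γ) : trP S [] γ = S.trans (γ) := Equiv.ext fun ⟨x, w⟩ => by
  rw [trP_in (fun i hi => absurd hi (by simp))]
  rfl

/-- The translations lie in the group. -/
theorem translation : TranslationStatement := fun Γ _ S γ => by
  have := trP_mem (S := S) 2 [] (by simp) γ
  rwa [trP_nil] at this

end

end Vale.Agent.P193.Pres
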