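import Vale.Agent.P193.Pres.Carry
import Vale.Agent.P193.Pres.InFull

/-!
P193, W5: translations and three-cycles on all long prefixes, by extension from short ones, and
their relations, by descent to colours.
-/

namespace Vale.Agent.P193.Pres

open Equiv BH Prefix
open scoped Classical
open Vale.Agent.P196.Pres (cyc_conj cyc_rot cyc_three)
open Vale.Agent.P196.Simple (cyc cyc_apply)

noncomputable section

/-- Descent to colours. -/
lemma induct_colour {k : ℕ} (hk : k + 6 ≤ 2 ^ depth) {P : Conf k → Prop}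
    (base : ∀ c : Fin k → Col depth, P fun i => cw (c i))
    (step : ∀ (e : Mv depth) p, Ok depth p → AffC e p → P (act e p) → P p) :
    ∀ p, Ok depth p → P p := by
  intro p
  induction hn : weight p using Nat.strong_induction_on generalizing p with
  | _ n ih =>
    intro hp
    by_cases hb : ∀ i, (p i).length = depth
    · choose c hc using fun i => exists_cw (hb i)
      rw [show p = fun i => cw (c i) from funext fun i => (hc i).symm]
      exact base c
    · push Not at hb
      obtain ⟨i, hi⟩ := hb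
      obtain ⟨e, he, -⟩ := exists_dec_of_long hk hp ⟨i, by have := hp.1 i; omega⟩ []
        (by simp) (by simp)
      exact step e p hp (he.aff hp) (ih _ (hn ▸ he.weight_lt) _ rfl (ok_act hp (he.aff hp)))

lemma aff_append {s : Mv depth} {v : Wd} (h : Aff s v) (u : Wd) : Aff s (v ++ u) :=
  ⟨fun h' => (h.1 ((List.prefix_append v u).trans h')).trans (List.prefix_append v u),
    fun h' => (h.2 ((List.prefix_append v u).trans h')).trans (List.prefix_append v u)⟩

lemma mv_injective (s : Mv depth) : Function.Injective (mv s) := fun v w h => by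
  rw [← mv_mv s v, h, mv_mv]

lemma Dist.move {s : Mv depth} {p : Conf 3} (hd : Dist p) (hs : AffC s p) : Dist (act s p) :=
  fun i j hij => mv_inc (hs i) (hs j) (hd i j hij)

lemma ok_of_dist {p : Conf 3} (hd : Dist p) (hl : ∀ i, depth ≤ (p i).length) : Ok depth p :=
  ⟨hl, fun i j => (eq_or_ne i j).imp (congrArg p) (hd i j)⟩

lemma injective_of_dist {c : Fin 3 → Col depth} (hd : Dist fun i => cw (c i)) :
    Function.Injective c := fun i j h => by
  by_contra hij
  exact (hd i j hij).1 (show cw (c i) <+: cw (c j) by rw [h])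

lemma swapM_back {s : Mv depth} {v : Wd} (h : Aff s v) (t : ℕ → Bool) :
    swapM s (SFT.cat (mv s v) t) = SFT.cat v t := by rw [swapM_cat (aff_mv h), mv_mv]

variable {Γ : Type} [Group Γ] {S : SFT Γ} {D : KPres Γ}

variable (S D) in
/-- The representation of the moves. -/
abbrev MR : MoveRep depth (Cov S D) := moveRep

lemma cj_eq (s : Mv depth) (g : Cov S D) :
    (MR S D).cj s g = MulAut.conj (mg (S := S) (D := D) s) g := by
  have h : (mg (S := S) (D := D) s)⁻¹ = mg s := inv_eq_of_mul_eq_one_right ((MR S D).sq s)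
  show mg s * g * mg s = mg s * g * (mg s)⁻¹
  rw [h]

lemma cj_mul (s : Mv depth) (x y : Cov S D) : (MR S D).cj s (x * y) = (MR S D).cj s x * (MR S D).cj s y := by
  simp only [cj_eq, map_mul]

lemma cj_inv (s : Mv depth) (x : Cov S D) : (MR S D).cj s x⁻¹ = ((MR S D).cj s x)⁻¹ := by
  simp only [cj_eq, map_inv]

lemma cj_one (s : Mv depth) : (MR S D).cj s 1 = 1 := by simp only [cj_eq, map_one]

lemma proj_cj (s : Mv depth) (x : Cov S D) :
    proj S D ((MR S D).cj s x) = onW S (swapM s) * proj S D x * (onW S (swapM s))⁻¹ := by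
  rw [cj_eq, MulAut.conj_apply, map_mul, map_mul, map_inv, proj_mg]

/-! ### Translations -/

variable (S D) in
/-- The label of one short prefix. -/
def θ₀ (γ : Γ) (v : Conf 1) : Cov S D :=
  if h : (v 0).length = depth ∨ (v 0).length = depth + 1 then th ⟨v 0, h⟩ γ else 1

variable (S D) in
/-- The translation on a long prefix. -/
def Th (v : Wd) (γ : Γ) : Cov S D := ext (MR S D) (θ₀ S D γ) fun _ => v

lemma hk1 : 1 + 6 ≤ 2 ^ depth := by norm_num [depth]

lemma hk2 : 2 + 6 ≤ 2 ^ depth := by norm_num [depth]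

lemma hk3 : 3 + 6 ≤ 2 ^ depth := by norm_num [depth]

lemma hk4 : 4 + 6 ≤ 2 ^ depth := by norm_num [depth]

lemma hk6 : 6 + 6 ≤ 2 ^ depth := by norm_num [depth]

lemma θ₀_move (γ : Γ) (s : Mv depth) (p : Conf 1) (hp : Ok depth p) (hb : Base depth p)
    (hs : AffC s p) (hb' : Base depth (act s p)) :
    (MR S D).cj s (θ₀ S D γ p) = θ₀ S D γ (act s p) := by
  have h : (p 0).length = depth ∨ (p 0).length = depth + 1 := by
    have := hp.1 0; have := hb 0; omega
  have h' : (act s p 0).length = depth ∨ (act s p 0).length = depth + 1 := by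
    have h1 : depth ≤ (act s p 0).length := le_length_mv (hp.1 0)
    have := hb' 0; omega
  rw [θ₀, θ₀, dif_pos h, dif_pos h', cj_eq, MulAut.conj_apply]
  have := mW_th (S := S) (D := D) (l := [s]) (by simp) (a := ⟨p 0, h⟩) (a' := ⟨act s p 0, h'⟩)
    (carry_single (hs 0)) γ
  simpa [mW] using this

lemma ok_one {v : Wd} (hv : depth ≤ v.length) : Ok depth (fun _ : Fin 1 => v) :=
  ⟨fun _ => hv, fun _ _ => Or.inl rfl⟩

/-- Moves carry translations. -/
lemma Th_act {v : Wd} (hv : depth ≤ v.length) {s : Mv depth} (hs : Aff s v) (γ : Γ) :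
    (MR S D).cj s (Th S D v γ) = Th S D (mv s v) γ :=
  ext_covariant (MR S D) (θ₀ S D γ) hk1 (θ₀_move γ) (ok_one hv) fun _ => hs

lemma Th_short (a : SW) (γ : Γ) : Th S D a.1 γ = th a γ := by
  have hl : depth ≤ a.1.length := by rcases a.2 with h | h <;> omega
  rw [Th, ext_base (MR S D) (θ₀ S D γ) hk1 (θ₀_move γ) _ (ok_one hl)
    (fun _ => by rcases a.2 with h | h <;> omega), θ₀, dif_pos a.2]

lemma Th_cw (c : Col depth) (γ : Γ) : Th S D (cw c) γ = th (cs c) γ := Th_short (cs c) γ

lemma Th_step {v : Wd} (hv : depth ≤ v.length) {e : Mv depth} (he : Aff e v) (γ : Γ) :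
    Th S D v γ = (MR S D).cj e (Th S D (mv e v) γ) := by
  rw [← Th_act hv he, MoveRep.cj_cj_self]

lemma Th_mul {v : Wd} (hv : depth ≤ v.length) (γ δ : Γ) :
    Th S D v (γ * δ) = Th S D v γ * Th S D v δ := by
  refine induct_colour hk1 (P := fun p : Conf 1 =>
    Th S D (p 0) (γ * δ) = Th S D (p 0) γ * Th S D (p 0) δ) (fun c => ?_) (fun e p hp he ih => ?_)
    _ (ok_one hv)
  · simp only [Th_cw, map_mul]
  · rw [Th_step (hp.1 0) (he 0), Th_step (hp.1 0) (he 0) (γ := γ),
      Th_step (hp.1 0) (he 0) (γ := δ), ← cj_mul]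
    exact congrArg _ ih

lemma Th_one {v : Wd} (hv : depth ≤ v.length) : Th S D v (1 : Γ) = 1 := by
  have := Th_mul (S := S) (D := D) hv 1 1
  rwa [one_mul, left_eq_mul] at this

/-- The translations on a long prefix as a homomorphism. -/
def ThH {v : Wd} (hv : depth ≤ v.length) : Γ →* Cov S D where
  toFun := Th S D v
  map_one' := Th_one hv
  map_mul' := Th_mul hv

lemma Th_inv {v : Wd} (hv : depth ≤ v.length) (γ : Γ) : Th S D v γ⁻¹ = (Th S D v γ)⁻¹ :=
  map_inv (ThH (S := S) (D := D) hv) γ

lemma proj_Th {v : Wd} (hv : depth ≤ v.length) (γ : Γ) :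
    proj S D (Th S D v γ) = trP S v γ := by
  refine induct_colour hk1 (P := fun p : Conf 1 => proj S D (Th S D (p 0) γ) = trP S (p 0) γ)
    (fun c => ?_) (fun e p hp he ih => ?_) _ (ok_one hv)
  · simp only [Th_cw, proj_th]; rfl
  · rw [Th_step (hp.1 0) (he 0), proj_cj]
    rw [show proj S D (Th S D (mv e (p 0)) γ) = trP S (mv e (p 0)) γ from ih,
      onW_conj_trP (swapM_back (he 0))]

lemma Th_commute {v w : Wd} (hv : depth ≤ v.length) (hw : depth ≤ w.length) (h : Inc v w)
    (γ δ : Γ) : Commute (Th S D v γ) (Th S D w δ) := by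
  refine induct_colour hk2 (P := fun p : Conf 2 => Inc (p 0) (p 1) →
    Commute (Th S D (p 0) γ) (Th S D (p 1) δ)) (fun c hi => ?_) (fun e p hp he ih hi => ?_)
    ![v, w] ⟨fun i => by fin_cases i <;> assumption, fun i j => ?_⟩ h
  · rw [Th_cw, Th_cw]
    exact th_commute hi γ δ
  · rw [Th_step (hp.1 0) (he 0), Th_step (hp.1 1) (he 1)]
    simp only [cj_eq]
    exact (ih (mv_inc (he 0) (he 1) hi)).map (MulAut.conj _).toMonoidHom
  · fin_cases i <;> fin_cases j <;> first
      | exact Or.inl rfl
      | exact Or.inr h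
      | exact Or.inr h.symm

lemma Th_split {v : Wd} (hv : depth ≤ v.length) (γ : Γ) :
    Th S D v γ = Th S D (v ++ [false]) γ * Th S D (v ++ [true]) γ := by
  refine induct_colour hk1 (P := fun p : Conf 1 =>
    Th S D (p 0) γ = Th S D (p 0 ++ [false]) γ * Th S D (p 0 ++ [true]) γ)
    (fun c => ?_) (fun e p hp he ih => ?_) _ (ok_one hv)
  · let a₀ : SW := ⟨cw (c 0) ++ [false], Or.inr (by simp)⟩
    let a₁ : SW := ⟨cw (c 0) ++ [true], Or.inr (by simp)⟩
    rw [Th_cw, show cw (c 0) ++ [false] = a₀.1 from rfl, show cw (c 0) ++ [true] = a₁.1 from rfl,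
      Th_short, Th_short]
    exact th_split (a := cs (c 0)) (a₀ := a₀) (a₁ := a₁) rfl rfl γ
  · have hl : ∀ b : Bool, depth ≤ (p 0 ++ [b]).length := fun b => by
      have := hp.1 0; simp; omega
    rw [Th_step (hp.1 0) (he 0), Th_step (hl false) (aff_append (he 0) _),
      Th_step (hl true) (aff_append (he 0) _), mv_append (he 0), mv_append (he 0), ← cj_mul]
    exact congrArg _ ih

/-! ### Three-cycles -/

variable (hr : S.Rigid)

variable (D) in
/-- The three-cycle over a set on three long prefixes. -/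
def T (U : Set S.X) (p : Conf 3) : Cov S D := ext (MR S D) (T₀ D hr U) p

variable {U V : Set S.X}

lemma T_act (hU : IsEv U) {p : Conf 3} (hp : Ok depth p) {s : Mv depth} (hs : AffC s p) :
    (MR S D).cj s (T D hr U p) = T D hr U (act s p) :=
  ext_covariant (MR S D) (T₀ D hr U) hk3 (T₀_move (D := D) hr hU) hp hs

lemma T_step (hU : IsEv U) {p : Conf 3} (hp : Ok depth p) {e : Mv depth} (he : AffC e p) :
    T D hr U p = (MR S D).cj e (T D hr U (act e p)) := by
  rw [← T_act (D := D) hr hU hp he, MoveRep.cj_cj_self]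

lemma T_base (hU : IsEv U) {p : Conf 3} {l : List (Mv depth)} {c : Fin 3 → Col depth}
    (hd : Dist p) (hb : ∀ i, (p i).length = depth ∨ (p i).length = depth + 1)
    (hl : l.length ≤ 10) (h : ∀ i, Carry l (p i) (cw (c i))) :
    T D hr U p = (mW l)⁻¹ * tx3 hr U c * mW l := by
  obtain ⟨l', c', hx⟩ := exists_toCols hd hb
  rw [T, ext_base (MR S D) (T₀ D hr U) hk3 (T₀_move (D := D) hr hU) _
    (ok_of_dist hd fun i => by rcases hb i with h | h <;> omega)
    (fun i => by rcases hb i with h | h <;> omega),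
    T₀_eq (D := D) hr hU hl h ⟨(l', c'), hx⟩]

lemma T_cw (hU : IsEv U) {c : Fin 3 → Col depth} (hc : Function.Injective c) :
    T D hr U (fun i => cw (c i)) = tx3 hr U c := by
  rw [T_base (D := D) hr hU (l := []) (c := c) (fun i j hij => inc_cw (hc.ne hij))
    (fun i => Or.inl (length_cw _)) (by simp) (fun i => carry_nil _),
    show mW (S := S) (D := D) [] = 1 from rfl]
  simp

lemma three_cyc {c : Fin 3 → Col depth} (hc : Function.Injective c) :
    (cyc (c 0) (c 1) (c 2)).IsThreeCycle :=
  cyc_three (hc.ne (by decide)) (hc.ne (by decide)) (hc.ne (by decide))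

lemma proj_T (hU : IsEv U) {p : Conf 3} (hp : Ok depth p) (hd : Dist p) :
    Rot3 U p (proj S D (T D hr U p)) := by
  refine induct_colour hk3 (P := fun p => Dist p → Rot3 U p (proj S D (T D hr U p)))
    (fun c hd => ?_) (fun e p hp he ih hd => ?_) p hp hd
  · have hc := injective_of_dist hd
    rw [T_cw (D := D) hr hU hc, tx3, proj_TX (D := D) hr hU (three_cyc hc)]
    have e : (fun i => cw (c i)) = ![cw (c 0), cw (c 1), cw (c 2)] := by
      funext i; fin_cases i <;> rfl
    rw [e]
    exact rot3_colP U (hc.ne (by decide)) (hc.ne (by decide)) (hc.ne (by decide))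
  · rw [T_step (D := D) hr hU hp he, proj_cj]
    exact (ih (hd.move he)).conj fun i => swapM_back (he i)

lemma T_union (hU : IsEv U) (hV : IsEv V) (hdj : Disjoint U V) {p : Conf 3} (hp : Ok depth p)
    (hd : Dist p) : T D hr (U ∪ V) p = T D hr U p * T D hr V p := by
  have hUV : IsEv (U ∪ V) := isEv_of_isClopen (hU.isClopen.union hV.isClopen)
  refine induct_colour hk3 (P := fun p => Dist p →
    T D hr (U ∪ V) p = T D hr U p * T D hr V p) (fun c hd => ?_) (fun e p hp he ih hd => ?_) p hp hd
  · have hc := injective_of_dist hd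
    rw [T_cw (D := D) hr hUV hc, T_cw (D := D) hr hU hc, T_cw (D := D) hr hV hc]
    exact TX_union (D := D) hr hU hV hdj (three_cyc hc)
  · rw [T_step (D := D) hr hUV hp he, T_step (D := D) hr hU hp he, T_step (D := D) hr hV hp he,
      ih (hd.move he), cj_mul]

lemma T_rot (hU : IsEv U) {p : Conf 3} (hp : Ok depth p) (hd : Dist p) :
    T D hr U (fun i => p (i + 1)) = T D hr U p := by
  refine induct_colour hk3 (P := fun p => Dist p → T D hr U (fun i => p (i + 1)) = T D hr U p)
    (fun c hd => ?_) (fun e p hp he ih hd => ?_) p hp hd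
  · have hc := injective_of_dist hd
    rw [T_cw (D := D) hr hU (c := fun i => c (i + 1))
      (hc.comp (add_left_injective (1 : Fin 3))), T_cw (D := D) hr hU hc]
    show TX D hr U (cyc (c 1) (c 2) (c 0)) = TX D hr U (cyc (c 0) (c 1) (c 2))
    rw [← cyc_rot (hc.ne (by decide)) (hc.ne (by decide)) (hc.ne (by decide))]
  · rw [T_step (D := D) hr hU hp he,
      T_step (D := D) hr hU (p := fun i => p (i + 1)) ⟨fun i => hp.1 _, fun i j => hp.2 _ _⟩
        (e := e) (fun i => he _)]
    exact congrArg _ (ih (hd.move he))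

lemma T_split (hU : IsEv U) {p : Conf 3} (hp : Ok depth p) (hd : Dist p) :
    T D hr U p = T D hr U (fun i => p i ++ [false]) * T D hr U (fun i => p i ++ [true]) := by
  refine induct_colour hk3 (P := fun p => Dist p →
    T D hr U p = T D hr U (fun i => p i ++ [false]) * T D hr U (fun i => p i ++ [true]))
    (fun c hd => ?_) (fun e p hp he ih hd => ?_) p hp hd
  · have hc := injective_of_dist hd
    obtain ⟨cs', hcs', hnd', hinc'⟩ := exists_colours 2 (List.ofFn fun i => cw (c i))
      (fun v hv => by obtain ⟨i, rfl⟩ := List.mem_ofFn.1 hv; simp) (by simp)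
    match cs', hcs', hnd', hinc' with
    | [x, y], _, hnd', hinc' =>
      let f : Fin 5 → Col depth := ![c 0, c 1, c 2, x, y]
      have hxy : x ≠ y := by
        simp only [List.nodup_cons, List.mem_cons, List.not_mem_nil, or_false] at hnd'
        exact hnd'.1
      have hne : ∀ z ∈ [x, y], ∀ i, c i ≠ z := fun z hz i e =>
        (hinc' z hz (cw (c i)) (List.mem_ofFn.2 ⟨i, rfl⟩)).1 (by rw [e])
      have hf : Function.Injective f := by
        intro i j hij
        have a0 := hne x (by simp)
        have a1 := hne y (by simp)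
        fin_cases i <;> fin_cases j <;> first
          | rfl
          | exact absurd hij (hc.ne (by decide))
          | exact absurd hij (a0 _)
          | exact absurd hij.symm (a0 _)
          | exact absurd hij (a1 _)
          | exact absurd hij.symm (a1 _)
          | exact absurd hij hxy
          | exact absurd hij.symm hxy
      let g : Fin 10 → Wd := fun i =>
        cw (f ⟨i.1 % 5, Nat.mod_lt _ (by norm_num)⟩) ++ [decide (5 ≤ i.1)]
      have hg : Function.Injective g := by
        intro i j hij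
        obtain ⟨h1, h2⟩ := List.append_inj' hij (by simp)
        have h1 := congrArg Fin.val (hf (cw_injective h1))
        simp only [List.cons.injEq, and_true, decide_eq_decide] at h2
        simp only at h1
        apply Fin.ext
        omega
      obtain ⟨l, cs, hl, hcs, hnd, hinc, hcar, -⟩ := exists_carry (List.ofFn g)
        (List.ofFn fun i => cw (f i))
        (fun v hv => by obtain ⟨i, rfl⟩ := List.mem_ofFn.1 hv; exact Or.inr (by simp [g]))
        (List.pairwise_ofFn.2 fun i j hij =>
          (inc_iff_ne (by simp [g])).2 (hg.ne hij.ne))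
        (fun v hv => by obtain ⟨i, rfl⟩ := List.mem_ofFn.1 hv; simp) (by simp)
      rw [List.length_ofFn] at hl hcs
      let h : Fin 10 → Col depth := fun i => cs[i.1]'(by have := i.2; omega)
      have hh : Function.Injective h := fun i j e =>
        Fin.ext ((List.Nodup.getElem_inj_iff hnd).1 e)
      have hcarry : ∀ i : Fin 10, Carry l (g i) (cw (h i)) := fun i => by
        have := hcar i.1 (by simp) (by omega)
        simpa only [List.getElem_ofFn] using this
      let lo : Fin 5 → Fin 10 := fun i => ⟨i.1, by omega⟩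
      let hi : Fin 5 → Fin 10 := fun i => ⟨i.1 + 5, by omega⟩
      have glo : ∀ i, g (lo i) = cw (f i) ++ [false] := fun i => by
        simp only [g, lo]
        congr 2
        · exact congrArg f (Fin.ext (Nat.mod_eq_of_lt i.2))
        · simp
      have ghi : ∀ i, g (hi i) = cw (f i) ++ [true] := fun i => by
        simp only [g, hi]
        congr 2
        · exact congrArg f (Fin.ext (by simp [Nat.mod_eq_of_lt i.2]))
      obtain ⟨π₀, hπ₀⟩ := exists_perm ⟨f, hf⟩
        ⟨fun i => h (lo i), hh.comp fun i j e => Fin.ext (by simpa [lo] using e)⟩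
      obtain ⟨π₁, hπ₁⟩ := exists_perm ⟨f, hf⟩
        ⟨fun i => h (hi i), hh.comp fun i j e => Fin.ext (by simpa [hi] using e)⟩
      simp only [Function.Embedding.coeFn_mk] at hπ₀ hπ₁
      have k0 : ∀ i, Carry l (cw (f i) ++ [false]) (cw (π₀ (f i))) := fun i => by
        rw [hπ₀, ← glo]; exact hcarry _
      have k1 : ∀ i, Carry l (cw (f i) ++ [true]) (cw (π₁ (f i))) := fun i => by
        rw [hπ₁, ← ghi]; exact hcarry _
      have hmem : ∀ i, f i ∈ Finset.univ.image f := fun i =>
        Finset.mem_image_of_mem f (Finset.mem_univ i)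
      have key := mW_TX_split (D := D) hr (l := l) (by omega) (π₀ := π₀) (π₁ := π₁)
        (F := Finset.univ.image f) (by rw [Finset.card_image_of_injective _ hf]; simp)
        (fun a ha => by obtain ⟨i, -, rfl⟩ := Finset.mem_image.1 ha; exact k0 i)
        (fun a ha => by obtain ⟨i, -, rfl⟩ := Finset.mem_image.1 ha; exact k1 i)
        (fun a ha b hb => by
          obtain ⟨i, -, rfl⟩ := Finset.mem_image.1 ha
          obtain ⟨j, -, rfl⟩ := Finset.mem_image.1 hb
          rw [hπ₀, hπ₁]
          exact hh.ne fun e => by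
            have := congrArg Fin.val e
            simp only [lo, hi] at this
            omega)
        (three_cyc hc) (Vale.Agent.P196.Pres.Family.support_cyc_subset (hc.ne (by decide))
          (hc.ne (by decide)) (hc.ne (by decide)) (hmem 0) (hmem 1) (hmem 2)) hU
      rw [cyc_conj, cyc_conj] at key
      have hlen : ∀ (b : Bool) i,
          (cw (c i) ++ [b]).length = depth ∨ (cw (c i) ++ [b]).length = depth + 1 :=
        fun b i => Or.inr (by simp)
      have hd' : ∀ b : Bool, Dist fun i => cw (c i) ++ [b] := fun b i j hij =>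
        Inc.child (hd i j hij) b b
      have hf3 : ∀ i : Fin 3, ∃ i' : Fin 5, f i' = c i := fun i => by
        fin_cases i
        exacts [⟨0, rfl⟩, ⟨1, rfl⟩, ⟨2, rfl⟩]
      have e0 := T_base (D := D) hr hU (c := fun i => π₀ (c i)) (hd' false) (hlen false)
        (by omega : l.length ≤ 10) (fun i => by
          obtain ⟨i', hi'⟩ := hf3 i
          rw [← hi']; exact k0 i')
      have e1 := T_base (D := D) hr hU (c := fun i => π₁ (c i)) (hd' true) (hlen true)
        (by omega : l.length ≤ 10) (fun i => by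
          obtain ⟨i', hi'⟩ := hf3 i
          rw [← hi']; exact k1 i')
      show T D hr U (fun i => cw (c i)) = _
      rw [T_cw (D := D) hr hU hc, e0, e1]
      simp only [tx3]
      rw [show TX D hr U (cyc (c 0) (c 1) (c 2)) =
        (mW l)⁻¹ * (mW l * TX D hr U (cyc (c 0) (c 1) (c 2)) * (mW l)⁻¹) * mW l by group, key]
      group
  · have hl : ∀ b : Bool, Ok depth fun i => p i ++ [b] := fun b =>
      ⟨fun i => by have := hp.1 i; simp; omega,
        fun i j => (eq_or_ne i j).imp (fun e => by rw [e]) fun hij => Inc.child (hd i j hij) b b⟩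
    have ha : ∀ b : Bool, AffC e fun i => p i ++ [b] := fun b i => aff_append (he i) _
    have hm : ∀ b : Bool, act e (fun i => p i ++ [b]) = fun i => act e p i ++ [b] := fun b =>
      funext fun i => mv_append (he i) _
    rw [T_step (D := D) hr hU hp he, T_step (D := D) hr hU (hl false) (ha false),
      T_step (D := D) hr hU (hl true) (ha true), hm, hm, ← cj_mul]
    exact congrArg _ (ih (hd.move he))

lemma Th_T_commute (hU : IsEv U) {v : Wd} (hv : depth ≤ v.length) {p : Conf 3}
    (hp : Ok depth p) (hd : Dist p) (hvp : ∀ i, Inc v (p i)) (γ : Γ) :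
    Commute (Th S D v γ) (T D hr U p) := by
  refine induct_colour hk4 (P := fun q : Conf 4 => Dist (Fin.tail q) →
    (∀ i, Inc (q 0) (Fin.tail q i)) → Commute (Th S D (q 0) γ) (T D hr U (Fin.tail q)))
    (fun c hd hvp => ?_) (fun e q hq he ih hd hvp => ?_) (Fin.cons v p)
    ⟨fun i => ?_, fun i j => ?_⟩ (by simpa using hd) (by simpa using hvp)
  · have hc : Function.Injective (Fin.tail c) := injective_of_dist hd
    show Commute (Th S D (cw (c 0)) γ) (T D hr U fun i => cw (Fin.tail c i))
    rw [Th_cw, T_cw (D := D) hr hU hc, ← tr_single]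
    refine tr_commute_TX (D := D) hr (three_cyc hc) (fun a ha => ?_) hU
    refine Pi.mulSingle_eq_of_ne (M := fun _ => Γ) (fun e => ?_) _
    subst e
    rw [Perm.mem_support] at ha
    obtain ⟨-, -, -, h4⟩ := cyc_apply (hc.ne (show (0 : Fin 3) ≠ 1 by decide))
      (hc.ne (show (1 : Fin 3) ≠ 2 by decide)) (hc.ne (show (0 : Fin 3) ≠ 2 by decide))
    refine ha (h4 _ ?_ ?_ ?_) <;> intro e
    · exact (hvp 0).1 (show cw (c 0) <+: cw (Fin.tail c 0) by rw [e])
    · exact (hvp 1).1 (show cw (c 0) <+: cw (Fin.tail c 1) by rw [e])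
    · exact (hvp 2).1 (show cw (c 0) <+: cw (Fin.tail c 2) by rw [e])
  · have hq' : Ok depth (Fin.tail q) := ⟨fun i => hq.1 _, fun i j => hq.2 _ _⟩
    rw [Th_step (hq.1 0) (he 0), T_step (D := D) hr hU hq' (e := e) (fun i => he _)]
    simp only [cj_eq]
    exact (ih (hd.move fun i => he _) fun i => mv_inc (he 0) (he _) (hvp i)).map
      (MulAut.conj _).toMonoidHom
  · refine Fin.cases ?_ (fun i => ?_) i
    · simpa using hv
    · simpa using hp.1 i
  · refine Fin.cases ?_ (fun i => ?_) i <;> refine Fin.cases ?_ (fun j => ?_) j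
    · exact Or.inl rfl
    · simpa using Or.inr (hvp j)
    · simpa using Or.inr (hvp i).symm
    · simpa using hp.2 i j

lemma T_uniform (hU : IsEv U) {p : Conf 3} (hp : Ok depth p) (hd : Dist p) (γ : Γ) :
    Th S D (p 0) γ * Th S D (p 1) γ * Th S D (p 2) γ * T D hr U p *
        (Th S D (p 0) γ * Th S D (p 1) γ * Th S D (p 2) γ)⁻¹ =
      T D hr (shiftSet γ U) p := by
  refine induct_colour hk3 (P := fun p => Dist p →
    Th S D (p 0) γ * Th S D (p 1) γ * Th S D (p 2) γ * T D hr U p *
        (Th S D (p 0) γ * Th S D (p 1) γ * Th S D (p 2) γ)⁻¹ =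
      T D hr (shiftSet γ U) p) (fun c hd => ?_) (fun e p hp he ih hd => ?_) p hp hd
  · have hc := injective_of_dist hd
    rw [T_cw (D := D) hr hU hc, T_cw (D := D) hr (isEv_shiftSet γ hU) hc, Th_cw, Th_cw, Th_cw,
      ← tr_single, ← tr_single, ← tr_single, ← map_mul tr, ← map_mul tr]
    refine tr_conj_TX (D := D) hr (three_cyc hc) (fun a ha => ?_) hU
    have hs := Vale.Agent.P196.Pres.Family.support_cyc_subset (S := {c 0, c 1, c 2})
      (hc.ne (show (0 : Fin 3) ≠ 1 by decide)) (hc.ne (show (1 : Fin 3) ≠ 2 by decide))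
      (hc.ne (show (0 : Fin 3) ≠ 2 by decide)) (by simp) (by simp) (by simp) ha
    simp only [Finset.mem_insert, Finset.mem_singleton] at hs
    rcases hs with rfl | rfl | rfl <;> simp [hc.eq_iff]
  · rw [T_step (D := D) hr hU hp he, T_step (D := D) hr (isEv_shiftSet γ hU) hp he,
      Th_step (hp.1 0) (he 0), Th_step (hp.1 1) (he 1), Th_step (hp.1 2) (he 2),
      ← cj_mul, ← cj_mul, ← cj_inv, ← cj_mul, ← cj_mul]
    exact congrArg _ (ih (hd.move he))

/-! ### Conjugation -/

/-- One step forward among three prefixes. -/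
def rotp (p : Conf 3) (v : Wd) : Wd :=
  if v = p 0 then p 1 else if v = p 1 then p 2 else if v = p 2 then p 0 else v

lemma rotp_act (e : Mv depth) (p : Conf 3) (v : Wd) :
    rotp (act e p) (mv e v) = mv e (rotp p v) := by
  simp only [rotp, act, (mv_injective e).eq_iff]
  split_ifs <;> rfl

lemma rotp_cases (p : Conf 3) (v : Wd) : (∃ j, rotp p v = p j) ∨ rotp p v = v := by
  unfold rotp
  split_ifs
  exacts [Or.inl ⟨1, rfl⟩, Or.inl ⟨2, rfl⟩, Or.inl ⟨0, rfl⟩, Or.inr rfl]

lemma rotp_cw {a : Fin 3 → Col depth} (ha : Function.Injective a) (x : Col depth) :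
    rotp (fun i => cw (a i)) (cw x) = cw (cyc (a 0) (a 1) (a 2) x) := by
  obtain ⟨h1, h2, h3, h4⟩ := cyc_apply (ha.ne (show (0 : Fin 3) ≠ 1 by decide))
    (ha.ne (show (1 : Fin 3) ≠ 2 by decide)) (ha.ne (show (0 : Fin 3) ≠ 2 by decide))
  simp only [rotp, cw_injective.eq_iff]
  split_ifs with e0 e1 e2
  · rw [e0, h1]
  · rw [e1, h2]
  · rw [e2, h3]
  · rw [h4 x e0 e1 e2]

/-- Conjugation of cycles on prefixes that are equal or apart. -/
theorem T_conj (hU : IsEv U) (hV : IsEv V) {p q : Conf 3} (hp : Ok depth p) (hdp : Dist p)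
    (hq : Ok depth q) (hdq : Dist q) (hpq : ∀ i j, q i = p j ∨ Inc (q i) (p j)) :
    T D hr U p * T D hr V q * (T D hr U p)⁻¹ =
      T D hr (V ∩ U) (fun i => rotp p (q i)) * T D hr (V \ U) q := by
  have hVU : IsEv (V ∩ U) := isEv_of_isClopen (hV.isClopen.inter hU.isClopen)
  have hVU' : IsEv (V \ U) := isEv_of_isClopen (hV.isClopen.diff hU.isClopen)
  let fst : Conf 6 → Conf 3 := fun r i => r (Fin.castAdd 3 i)
  let snd : Conf 6 → Conf 3 := fun r i => r (Fin.natAdd 3 i)
  have main : ∀ r : Conf 6, Ok depth r → Dist (fst r) → Dist (snd r) →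
      T D hr U (fst r) * T D hr V (snd r) * (T D hr U (fst r))⁻¹ =
        T D hr (V ∩ U) (fun i => rotp (fst r) (snd r i)) * T D hr (V \ U) (snd r) := by
    refine induct_colour hk6 (fun c ha hb => ?_) (fun e r hr' he ih ha hb => ?_)
    · have hia : Function.Injective fun i : Fin 3 => c (Fin.castAdd 3 i) := injective_of_dist ha
      have hib : Function.Injective fun i : Fin 3 => c (Fin.natAdd 3 i) := injective_of_dist hb
      set a := fun i : Fin 3 => c (Fin.castAdd 3 i)
      set b := fun i : Fin 3 => c (Fin.natAdd 3 i)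
      show T D hr U (fun i => cw (a i)) * T D hr V (fun i => cw (b i)) *
          (T D hr U fun i => cw (a i))⁻¹ =
        T D hr (V ∩ U) (fun i => rotp (fun i => cw (a i)) (cw (b i))) *
          T D hr (V \ U) fun i => cw (b i)
      rw [show (fun i => rotp (fun i => cw (a i)) (cw (b i))) =
        fun i => cw (cyc (a 0) (a 1) (a 2) (b i)) from funext fun i => rotp_cw hia _]
      rw [T_cw (D := D) hr hU hia, T_cw (D := D) hr hV hib,
        T_cw (D := D) hr hVU (c := fun i => cyc (a 0) (a 1) (a 2) (b i))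
          ((cyc (a 0) (a 1) (a 2)).injective.comp hib),
        T_cw (D := D) hr hVU' hib]
      obtain ⟨W, P, Q, rfl, rfl⟩ := hU.common hV
      have e1 : evSet Q ∩ evSet P = evSet (Q ∩ P) := by ext; simp
      have e2 : evSet Q \ evSet P = evSet (Q \ P) := by ext; simp
      rw [e1, e2]
      simp only [tx3]
      rw [TX_ev (D := D) hr P (three_cyc hia), TX_ev (D := D) hr Q (three_cyc hib),
        TX_ev (D := D) hr _ (three_cyc hib),
        (alg_algC (D := D) hr W).conj P Q (three_cyc hia) (three_cyc hib), cyc_conj,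
        TX_ev (D := D) hr _ (cyc_three
          ((cyc (a 0) (a 1) (a 2)).injective.ne (hib.ne (show (0 : Fin 3) ≠ 1 by decide)))
          ((cyc (a 0) (a 1) (a 2)).injective.ne (hib.ne (show (1 : Fin 3) ≠ 2 by decide)))
          ((cyc (a 0) (a 1) (a 2)).injective.ne (hib.ne (show (0 : Fin 3) ≠ 2 by decide))))]
    · have o1 : Ok depth (fst r) := ⟨fun i => hr'.1 _, fun i j => hr'.2 _ _⟩
      have o2 : Ok depth (snd r) := ⟨fun i => hr'.1 _, fun i j => hr'.2 _ _⟩
      have a1 : AffC e (fst r) := fun i => he _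
      have a2 : AffC e (snd r) := fun i => he _
      have hsel : ∀ i, ∃ j, rotp (fst r) (snd r i) = r j := fun i =>
        (rotp_cases _ _).elim (fun ⟨j, h⟩ => ⟨_, h⟩) fun h => ⟨_, h⟩
      choose j hj using hsel
      have o3 : Ok depth fun i => rotp (fst r) (snd r i) :=
        ⟨fun i => by simp only [hj]; exact hr'.1 _, fun i i' => by simp only [hj]; exact hr'.2 _ _⟩
      have a3 : AffC e fun i => rotp (fst r) (snd r i) := fun i => by simp only [hj]; exact he _
      have hm : act e (fun i => rotp (fst r) (snd r i)) =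
          fun i => rotp (fst (act e r)) (snd (act e r) i) :=
        funext fun i => (rotp_act e (fst r) (snd r i)).symm
      rw [T_step (D := D) hr hU o1 a1, T_step (D := D) hr hV o2 a2,
        T_step (D := D) hr hVU o3 a3, T_step (D := D) hr hVU' o2 a2, hm, ← cj_mul, ← cj_inv,
        ← cj_mul, ← cj_mul]
      exact congrArg _ (ih (ha.move a1) (hb.move a2))
  have h1 : fst (Fin.append p q) = p := funext fun i => Fin.append_left p q i
  have h2 : snd (Fin.append p q) = q := funext fun i => Fin.append_right p q i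
  have := main (Fin.append p q) ⟨fun i => ?_, fun i j => ?_⟩ (h1.symm ▸ hdp) (h2.symm ▸ hdq)
  · rwa [h1, h2] at this
  · refine Fin.addCases (m := 3) (n := 3) (fun a => ?_) (fun a => ?_) i <;>
      simp only [Fin.append_left, Fin.append_right]
    exacts [hp.1 a, hq.1 a]
  · refine Fin.addCases (m := 3) (n := 3) (fun a => ?_) (fun a => ?_) i <;>
      refine Fin.addCases (m := 3) (n := 3) (fun b => ?_) (fun b => ?_) j <;>
      simp only [Fin.append_left, Fin.append_right]
    exacts [hp.2 a b, (hpq b a).imp Eq.symm Inc.symm, hpq a b, hq.2 a b]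

end

end Vale.Agent.P193.Pres
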