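import Vale.Agent.P193.Pres.Windows

/-!
P193, W5: in a rigid subshift every finite set of cells carries an algebra. Contexts are finite
sets of cells with a coarsening of the letters, so the algebras are built on classes of patterns.
-/

namespace Vale.Agent.P193.Pres

open Equiv BH
open scoped Classical commutatorElement
open Vale.Agent.P196.Pres (World Alg Sep pull join ql qr qc ql_three qr_three qc_three
  exists_quint)

noncomputable section

variable {Γ : Type} [Group Γ] {S : SFT Γ} {D : KPres Γ}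

variable (D) in
/-- An algebra on the patterns of `U` extending the cell elements. -/
structure IsCtx (U : Finset Γ) (T : Finset (Pat S U) → Perm (Col depth) → Cov S D) : Prop where
  alg : Alg (world S D) T
  cell : ∀ {u : Γ} (hu : u ∈ U) (c : S.A) {σ : Perm (Col depth)}, σ.IsThreeCycle →
    T (ev u hu c) σ = Pres.cell u c σ

variable (D S) in
/-- A set of cells with an algebra. -/
def Good (U : Finset Γ) : Prop :=
  ∃ T : Finset (Pat S U) → Perm (Col depth) → Cov S D, IsCtx D U T

lemma IsCtx.unique {U : Finset Γ} {T T' : Finset (Pat S U) → Perm (Col depth) → Cov S D}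
    (h : IsCtx D U T) (h' : IsCtx D U T') (p : Finset (Pat S U)) {σ : Perm (Col depth)}
    (hσ : σ.IsThreeCycle) : T p σ = T' p σ := by
  refine h.alg.ext_gen h'.alg (cellEvents U) (fun e he τ hτ => ?_) p (fun a b hab => ?_) hσ
  · obtain ⟨⟨u, c⟩, -, rfl⟩ := List.mem_map.1 he
    rw [h.cell u.2 c hτ, h'.cell u.2 c hτ]
  · rw [eq_of_cellEvents hab]

lemma IsCtx.res {R U : Finset Γ} (h : R ⊆ U)
    {T : Finset (Pat S U) → Perm (Col depth) → Cov S D} (hT : IsCtx D U T) :
    IsCtx D R (pull (Pres.res h) T) where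
  alg := hT.alg.pull _
  cell hu c σ hσ := by
    rw [← hT.cell (h hu) c hσ, ← pre_ev h hu c]
    rfl

lemma Good.mono {R U : Finset Γ} (h : R ⊆ U) (hU : Good S D U) : Good S D R := by
  obtain ⟨T, hT⟩ := hU
  exact ⟨_, hT.res h⟩

/-- The algebra of a good set. -/
def ctx {U : Finset Γ} (hU : Good S D U) :
    Finset (Pat S U) → Perm (Col depth) → Cov S D := hU.choose

lemma isCtx {U : Finset Γ} (hU : Good S D U) : IsCtx D U (ctx hU) := hU.choose_spec

lemma ctx_pre {R U : Finset Γ} (h : R ⊆ U) (hU : Good S D U) (hR : Good S D R)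
    (p : Finset (Pat S R)) {σ : Perm (Col depth)} (hσ : σ.IsThreeCycle) :
    ctx hU (pre h p) σ = ctx hR p σ :=
  ((isCtx hU).res h).unique (isCtx hR) p hσ

lemma good_win (w : Bool) (γ : Γ) : Good S D (movF γ (wcells S w)) :=
  ⟨_, ⟨alg_Tw w γ, fun hu c _ hσ => Tw_cell hu c hσ⟩⟩

lemma good_singleton (v : Γ) : Good S D {v} :=
  (good_win false v).mono (Finset.singleton_subset_iff.2
    (mem_movF.2 (Finset.mem_singleton.2 (inv_mul_cancel v))))

/-! ### Classes of patterns -/

variable {g k : Γ → S.A → S.A}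

variable (S) in
/-- The patterns of classes on a finite set of cells. -/
def CPat (g : Γ → S.A → S.A) (U : Finset Γ) : Type :=
  {p : U → S.A // ∃ a : Γ → S.A, S.AdmissibleClass g U a ∧ ∀ u : U, p u = g u (a u)}

instance (U : Finset Γ) : Fintype (CPat S g U) := by unfold CPat; infer_instance

instance (U : Finset Γ) : DecidableEq (CPat S g U) := by unfold CPat; infer_instance

/-- A witness of a pattern of classes. -/
def cwit {U : Finset Γ} (p : CPat S g U) : Γ → S.A := p.2.choose

lemma cwit_admissible {U : Finset Γ} (p : CPat S g U) : S.AdmissibleClass g U (cwit p) :=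
  p.2.choose_spec.1

lemma cwit_apply {U : Finset Γ} (p : CPat S g U) (u : U) : g u (cwit p u) = p.1 u :=
  (p.2.choose_spec.2 u).symm

/-- On `R` the classes of `g` determine those of `k`. -/
def Le (k g : Γ → S.A → S.A) (R : Finset Γ) : Prop :=
  ∀ c ∈ R, ∀ l l', g c l = g c l' → k c l = k c l'

lemma Le.refl (g : Γ → S.A → S.A) (R : Finset Γ) : Le g g R := fun _ _ _ _ h => h

/-- A pattern of classes read on a smaller set with coarser classes. -/
def cres {R U : Finset Γ} (h : R ⊆ U) (hk : Le k g R) (p : CPat S g U) : CPat S k R :=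
  ⟨fun r => k r (cwit p r), cwit p, fun γ => by
    obtain ⟨q, hq, e⟩ := cwit_admissible p γ
    exact ⟨q, hq, fun w hw hR => hk _ hR _ _ (e w hw (h hR))⟩, fun _ => rfl⟩

lemma cres_self {R U : Finset Γ} (h : R ⊆ U) (p : CPat S g U) (r : R) :
    (cres h (Le.refl g R) p).1 r = p.1 ⟨r.1, h r.2⟩ := cwit_apply p ⟨r.1, h r.2⟩

/-- The classes of a pattern, whether admissible or not. -/
def raw (g : Γ → S.A → S.A) {R U : Finset Γ} (h : R ⊆ U) (p : Pat S U) : R → S.A :=
  fun r => g r (p.1 ⟨r.1, h r.2⟩)

/-- The classes of patterns among all classes. -/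
def incl (g : Γ → S.A → S.A) (R : Finset Γ) : CPat S g R ↪ (R → S.A) :=
  Function.Embedding.subtype _

/-- An algebra restricted to a range outside which it vanishes. -/
lemma map_filter_eq {P R : Type*} [Fintype P] [DecidableEq P] [Fintype R] [DecidableEq R]
    {J : Finset P → Perm (Col depth) → Cov S D} (hJ : Alg (world S D) J) (f : R ↪ P)
    {σ : Perm (Col depth)} (hσ : σ.IsThreeCycle)
    (hz : ∀ a, a ∉ Set.range f → J {a} σ = 1) (s : Finset P) (s' : Finset R)
    (hs : ∀ r, r ∈ s' ↔ f r ∈ s) : J (s'.map f) σ = J s σ := by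
  have hsub : s'.map f ⊆ s := fun a ha => by
    obtain ⟨r, hr, rfl⟩ := Finset.mem_map.1 ha
    exact (hs r).1 hr
  have hrest : ∀ t : Finset P, (∀ a ∈ t, a ∉ Set.range f) → J t σ = 1 := by
    intro t
    induction t using Finset.induction_on with
    | empty => exact fun _ => hJ.empty hσ
    | insert a t ha ih =>
      intro h
      rw [Finset.insert_eq, hJ.union hσ (Finset.disjoint_singleton_left.2 ha),
        hz a (h a (Finset.mem_insert_self a t)),
        ih fun b hb => h b (Finset.mem_insert_of_mem hb), mul_one]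
  conv_rhs => rw [← Finset.union_sdiff_of_subset hsub]
  rw [hJ.union hσ Finset.disjoint_sdiff, hrest (s \ s'.map f) fun a ha ⟨r, hr⟩ => ?_, mul_one]
  obtain ⟨h1, h2⟩ := Finset.mem_sdiff.1 ha
  exact h2 (hr ▸ Finset.mem_map_of_mem f ((hs r).2 (hr ▸ h1)))

/-- A pattern with a part in a window that no allowed window shows is zero in every context. -/
lemma ctx_bad {U : Finset Γ} {T : Finset (Pat S U) → Perm (Col depth) → Cov S D}
    (hT : IsCtx D U T) (p : Pat S U) {γ : Γ}
    (hbad : ∀ q : Γ → S.A, S.allowed (S.window q γ) →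
      ∃ w ∈ S.win, γ * w ∈ U ∧ q (γ * w) ≠ wit U p (γ * w))
    {σ : Perm (Col depth)} (hσ : σ.IsThreeCycle) : T {p} σ = 1 := by
  let R : Finset Γ := U ∩ movF γ S.win
  have hRU : R ⊆ U := Finset.inter_subset_left
  have hRW : R ⊆ movF γ S.win := Finset.inter_subset_right
  have hW : Good S D (movF γ S.win) := good_win true γ
  have hzero : ∀ {τ : Perm (Col depth)}, τ.IsThreeCycle → T (pre hRU {res hRU p}) τ = 1 := by
    intro τ hτ
    have e : pre hRW ({res hRU p} : Finset (Pat S R)) = ∅ := by
      refine Finset.eq_empty_of_forall_notMem fun z hz => ?_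
      simp only [mem_pre, Finset.mem_singleton] at hz
      obtain ⟨w, hw, hwU, hne⟩ := hbad (wit (movF γ S.win) z)
        (wit_admissible z γ fun q hq => gmov_mem_movF hq)
      have hwW : γ * w ∈ movF γ S.win := gmov_mem_movF hw
      refine hne ((wit_apply z ⟨_, hwW⟩).trans ?_)
      exact (congrFun (congrArg Subtype.val hz) ⟨_, Finset.mem_inter.2 ⟨hwU, hwW⟩⟩).trans
        (wit_apply p ⟨_, hwU⟩).symm
    rw [show T (pre hRU {res hRU p}) τ = _ from
      ((hT.res hRU).unique ((isCtx hW).res hRW) _ hτ)]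
    show ctx hW (pre hRW {res hRU p}) τ = 1
    rw [e]
    exact (isCtx hW).alg.empty hτ
  refine hT.alg.zero_of_commutator (p := pre hRU {res hRU p}) (q := pre hRU {res hRU p}) ?_
    (fun v => ?_) hσ
  · simp
  · rw [hzero (ql_three v), commutatorElement_one_left]

/-- The event that the cell `u` has the class `l`. -/
def cev {U : Finset Γ} (u : Γ) (hu : u ∈ U) (l : S.A) : Finset (CPat S g U) :=
  Finset.univ.filter fun p => p.1 ⟨u, hu⟩ = l

@[simp] lemma mem_cev {U : Finset Γ} {u : Γ} {hu : u ∈ U} {l : S.A} {p : CPat S g U} :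
    p ∈ cev u hu l ↔ p.1 ⟨u, hu⟩ = l := by simp [cev]

/-- The list of all class events. -/
def classEvents (g : Γ → S.A → S.A) (U : Finset Γ) : List (Finset (CPat S g U)) :=
  (Finset.univ : Finset (U × S.A)).toList.map fun x => cev x.1.1 x.1.2 x.2

lemma eq_of_classEvents {U : Finset Γ} {p q : CPat S g U}
    (h : ∀ e ∈ classEvents g U, p ∈ e ↔ q ∈ e) : p = q := by
  apply Subtype.ext
  funext u
  have := h (cev u.1 u.2 (q.1 u))
    (List.mem_map.2 ⟨(u, q.1 u), Finset.mem_toList.2 (Finset.mem_univ _), rfl⟩)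
  simp only [mem_cev] at this
  exact this.2 (by trivial)

/-- The preimage of an event. -/
def cpre {R U : Finset Γ} (h : R ⊆ U) (hk : Le k g R) (s : Finset (CPat S k R)) :
    Finset (CPat S g U) :=
  Finset.univ.filter fun p => cres h hk p ∈ s

@[simp] lemma mem_cpre {R U : Finset Γ} {h : R ⊆ U} {hk : Le k g R} {s : Finset (CPat S k R)}
    {p : CPat S g U} : p ∈ cpre h hk s ↔ cres h hk p ∈ s := by simp [cpre]

lemma cpre_compl {R U : Finset Γ} (h : R ⊆ U) (hk : Le k g R) (s : Finset (CPat S k R)) :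
    cpre h hk sᶜ = (cpre h hk s)ᶜ := by ext; simp

variable (S D) in
/-- The classes of a single cell. -/
def one (g : Γ → S.A → S.A) (u : Γ) : Finset S.A → Perm (Col depth) → Cov S D :=
  pull (fun q : Pat S {u} => g u (wit {u} q u)) (ctx (good_singleton u))

lemma alg_one (g : Γ → S.A → S.A) (u : Γ) : Alg (world S D) (one S D g u) :=
  (isCtx _).alg.pull _

variable (D) in
/-- An algebra on the patterns of classes extending those of the single cells. -/
structure IsCCtx (g : Γ → S.A → S.A) (U : Finset Γ)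
    (T : Finset (CPat S g U) → Perm (Col depth) → Cov S D) : Prop where
  alg : Alg (world S D) T
  cell : ∀ {u : Γ} (hu : u ∈ U) (l : S.A) {σ : Perm (Col depth)}, σ.IsThreeCycle →
    T (cev u hu l) σ = one S D g u {l} σ

variable (D S) in
/-- A set of cells with an algebra of classes. -/
def CGood (g : Γ → S.A → S.A) (U : Finset Γ) : Prop :=
  ∃ T : Finset (CPat S g U) → Perm (Col depth) → Cov S D, IsCCtx D g U T

lemma IsCCtx.unique {U : Finset Γ} {T T' : Finset (CPat S g U) → Perm (Col depth) → Cov S D}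
    (h : IsCCtx D g U T) (h' : IsCCtx D g U T') (p : Finset (CPat S g U))
    {σ : Perm (Col depth)} (hσ : σ.IsThreeCycle) : T p σ = T' p σ := by
  refine h.alg.ext_gen h'.alg (classEvents g U) (fun e he τ hτ => ?_) p (fun a b hab => ?_) hσ
  · obtain ⟨⟨u, c⟩, -, rfl⟩ := List.mem_map.1 he
    rw [h.cell u.2 c hτ, h'.cell u.2 c hτ]
  · rw [eq_of_classEvents hab]

/-- All events of one cell are those of the cell. -/
lemma IsCCtx.cell_set {U : Finset Γ} {T : Finset (CPat S g U) → Perm (Col depth) → Cov S D}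
    (h : IsCCtx D g U T) {u : Γ} (hu : u ∈ U) (s : Finset S.A) {σ : Perm (Col depth)}
    (hσ : σ.IsThreeCycle) :
    T (Finset.univ.filter fun p => p.1 ⟨u, hu⟩ ∈ s) σ = one S D g u s σ := by
  refine (h.alg.pull fun p : CPat S g U => p.1 ⟨u, hu⟩).ext_gen (alg_one g u)
    ((Finset.univ : Finset S.A).toList.map fun l => ({l} : Finset S.A)) (fun e he τ hτ => ?_) s
    (fun a b hab => ?_) hσ
  · obtain ⟨l, -, rfl⟩ := List.mem_map.1 he
    rw [← h.cell hu l hτ]
    unfold Vale.Agent.P196.Pres.pull cev
    simp only [Finset.mem_singleton]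
  · have := hab {b} (List.mem_map.2 ⟨b, Finset.mem_toList.2 (Finset.mem_univ _), rfl⟩)
    simp only [Finset.mem_singleton] at this
    rw [this.2 trivial]

lemma IsCCtx.res {R U : Finset Γ} (h : R ⊆ U) (hk : Le k g R)
    {T : Finset (CPat S g U) → Perm (Col depth) → Cov S D} (hT : IsCCtx D g U T) :
    IsCCtx D k R (pull (cres h hk) T) where
  alg := hT.alg.pull _
  cell {u} hu l σ hσ := by
    let s : Finset S.A := Finset.univ.filter fun m => ∃ a, g u a = m ∧ k u a = l
    have hs : ∀ a, g u a ∈ s ↔ k u a = l := fun a => by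
      simp only [s, Finset.mem_filter, Finset.mem_univ, true_and]
      exact ⟨fun ⟨b, e, hb⟩ => (hk u hu _ _ e).symm.trans hb, fun ha => ⟨a, rfl, ha⟩⟩
    have e1 : pull (cres h hk) T (cev u hu l) σ =
        T (Finset.univ.filter fun p => p.1 ⟨u, h hu⟩ ∈ s) σ := by
      unfold Vale.Agent.P196.Pres.pull
      congr 1
      refine Finset.filter_congr fun p _ => ?_
      have e : g u (cwit p u) = p.1 ⟨u, h hu⟩ := cwit_apply p ⟨u, h hu⟩
      rw [mem_cev, ← e, hs]
      rfl
    have e2 : one S D g u s σ = one S D k u {l} σ := by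
      unfold one Vale.Agent.P196.Pres.pull
      congr 1
      refine Finset.filter_congr fun q _ => ?_
      rw [hs, Finset.mem_singleton]
    rw [e1, hT.cell_set (h hu) s hσ, e2]

lemma CGood.mono {R U : Finset Γ} (h : R ⊆ U) (hk : Le k g R) (hU : CGood S D g U) :
    CGood S D k R := by
  obtain ⟨T, hT⟩ := hU
  exact ⟨_, hT.res h hk⟩

/-- Classes without an admissible witness are zero in the algebra of the patterns. -/
lemma pull_raw_zero (g : Γ → S.A → S.A) {R U : Finset Γ} (h : R ⊆ U)
    {T : Finset (Pat S U) → Perm (Col depth) → Cov S D} (hT : IsCtx D U T)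
    (c : R → S.A) (hc : c ∉ Set.range (incl (S := S) g R)) {σ : Perm (Col depth)}
    (hσ : σ.IsThreeCycle) : pull (raw g h) T {c} σ = 1 := by
  have hall : ∀ s : Finset (Pat S U), (∀ p ∈ s, raw g h p = c) → T s σ = 1 := by
    intro s
    induction s using Finset.induction_on with
    | empty => exact fun _ => hT.alg.empty hσ
    | insert p s hp ih =>
      intro hs
      rw [Finset.insert_eq, hT.alg.union hσ (Finset.disjoint_singleton_left.2 hp),
        ih fun q hq => hs q (Finset.mem_insert_of_mem hq), mul_one]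
      have hn : ¬ S.AdmissibleClass g R (wit U p) := fun hadm => hc ⟨⟨c, wit U p, hadm, fun u => by
        rw [← hs p (Finset.mem_insert_self p s)]
        show g u (p.1 _) = g u (wit U p u)
        rw [wit_apply p ⟨u.1, h u.2⟩]⟩, rfl⟩
      simp only [SFT.AdmissibleClass, not_forall, not_exists, not_and] at hn
      obtain ⟨γ, hγ⟩ := hn
      refine ctx_bad hT p (γ := γ) (fun q hq => ?_) hσ
      obtain ⟨w, hw, hwR, hne⟩ := hγ q hq
      exact ⟨w, hw, h hwR, fun e => hne (by rw [e])⟩
  exact hall _ (by simp)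

/-- An algebra on patterns read on classes. -/
def clsAlg (g : Γ → S.A → S.A) {R U : Finset Γ} (h : R ⊆ U)
    (T : Finset (Pat S U) → Perm (Col depth) → Cov S D) :
    Finset (CPat S g R) → Perm (Col depth) → Cov S D :=
  Vale.Agent.P196.Pres.restrict (incl g R) (pull (raw g h) T)

lemma clsAlg_eq (g : Γ → S.A → S.A) {R U : Finset Γ} (h : R ⊆ U)
    {T : Finset (Pat S U) → Perm (Col depth) → Cov S D} (hT : IsCtx D U T)
    (s : Finset (R → S.A)) (s' : Finset (CPat S g R)) (hs : ∀ r, r ∈ s' ↔ r.1 ∈ s)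
    {σ : Perm (Col depth)} (hσ : σ.IsThreeCycle) :
    clsAlg g h T s' σ = T (Finset.univ.filter fun p => raw g h p ∈ s) σ :=
  map_filter_eq (hT.alg.pull (raw g h)) (incl g R) hσ
    (fun a ha => pull_raw_zero g h hT a ha hσ) s s' hs

/-- An algebra on patterns gives one on the patterns of classes. -/
lemma isCCtx_cls (g : Γ → S.A → S.A) {R U : Finset Γ} (h : R ⊆ U)
    {T : Finset (Pat S U) → Perm (Col depth) → Cov S D} (hT : IsCtx D U T) :
    IsCCtx D g R (clsAlg g h T) where
  alg := (hT.alg.pull _).restrict _ fun a ha {σ} hσ => pull_raw_zero g h hT a ha hσ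
  cell {u} hu l σ hσ := by
    have hu' : ({u} : Finset Γ) ⊆ U := Finset.singleton_subset_iff.2 (h hu)
    let t : Finset (Pat S {u}) := Finset.univ.filter fun q => g u (wit {u} q u) = l
    have e2 : one S D g u {l} σ = T (pre hu' t) σ := by
      rw [show T (pre hu' t) σ = _ from (hT.res hu').unique (isCtx (good_singleton u)) t hσ]
      unfold one Vale.Agent.P196.Pres.pull
      simp only [Finset.mem_singleton]
      rfl
    rw [e2, clsAlg_eq g h hT (Finset.univ.filter fun r => r ⟨u, hu⟩ = l) _ (fun r => by simp) hσ]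
    congr 1
    ext p
    rw [mem_pre]
    simp only [t, Finset.mem_filter, Finset.mem_univ, true_and]
    show g u (p.1 _) = l ↔ g u (wit {u} (res hu' p) u) = l
    rw [wit_apply (res hu' p) ⟨u, Finset.mem_singleton_self u⟩]
    rfl

lemma cgood_of_good (g : Γ → S.A → S.A) {R U : Finset Γ} (h : R ⊆ U) (hU : Good S D U) :
    CGood S D g R := by
  obtain ⟨T, hT⟩ := hU
  exact ⟨_, isCCtx_cls g h hT⟩

/-- The algebra of a good set of classes. -/
def cctx {U : Finset Γ} (hU : CGood S D g U) :
    Finset (CPat S g U) → Perm (Col depth) → Cov S D := hU.choose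

lemma isCCtx {U : Finset Γ} (hU : CGood S D g U) : IsCCtx D g U (cctx hU) := hU.choose_spec

lemma cctx_pre {R U : Finset Γ} (h : R ⊆ U) (hk : Le k g R) (hU : CGood S D g U)
    (hR : CGood S D k R) (p : Finset (CPat S k R)) {σ : Perm (Col depth)}
    (hσ : σ.IsThreeCycle) : cctx hU (cpre h hk p) σ = cctx hR p σ :=
  ((isCCtx hU).res h hk).unique (isCCtx hR) p hσ

/-- Separation of two events given on possibly different sets, read on larger sets. -/
lemma sep_cpre_iff {g' k' : Γ → S.A → S.A} {R U R' W : Finset Γ} (h : R ⊆ U) (hk : Le k g R)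
    (h' : R' ⊆ W) (hk' : Le k' g' R') (hU : CGood S D g U) (hW : CGood S D g' W)
    (hR : CGood S D k R) (hR' : CGood S D k' R')
    (p : Finset (CPat S k R)) (q : Finset (CPat S k' R')) :
    Sep (cctx hU) (cctx hW) (cpre h hk p) (cpre h' hk' q) ↔ Sep (cctx hR) (cctx hR') p q := by
  constructor <;> intro hs <;> constructor <;> intro a b c ha hb hc <;>
    have := hs.comm ha hb hc
  · rwa [← cpre_compl, cctx_pre h hk hU hR p ha, cctx_pre h hk hU hR pᶜ hc,
      cctx_pre h' hk' hW hR' q hb] at this
  · rwa [← cpre_compl, cctx_pre h hk hU hR p ha, cctx_pre h hk hU hR pᶜ hc,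
      cctx_pre h' hk' hW hR' q hb]

/-! ### Observables -/

/-- Two letters at `c` are not told apart by `o`. -/
def letterSetoid (o : S.Obs) (c : Γ) : Setoid S.A where
  r l l' := ∀ x, o.val (Function.update x c l) = o.val (Function.update x c l')
  iseqv := ⟨fun _ _ => rfl, fun h x => (h x).symm, fun h h' x => (h x).trans (h' x)⟩

/-- The coarsest classes through which an observable factors. -/
def canon (o : S.Obs) (c : Γ) (l : S.A) : S.A := (Quotient.mk (letterSetoid o c) l).out

lemma le_canon {o : S.Obs} (h : o.Thru S g) : Le (canon o) g o.supp := by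
  intro c _ l l' e
  refine congrArg Quotient.out (Quotient.sound fun x => h _ _ fun d _ => ?_)
  by_cases hd : d = c
  · subst hd; simpa using e
  · simp [Function.update_of_ne hd]

lemma thru_canon (o : S.Obs) : o.Thru S (canon o) := by
  intro x y h
  have key : ∀ V : Finset Γ, V ⊆ o.supp →
      o.val (fun c => if c ∈ V then y c else x c) = o.val x := by
    intro V
    induction V using Finset.induction_on with
    | empty => exact fun _ => by simp
    | insert a V ha ih =>
      intro hV
      rw [← ih ((Finset.subset_insert a V).trans hV)]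
      set z : Γ → S.A := fun c => if c ∈ V then y c else x c
      have hr : (letterSetoid o a).r (x a) (y a) := by
        have e := h a (hV (Finset.mem_insert_self a V))
        have e' : Quotient.mk (letterSetoid o a) (x a) = Quotient.mk (letterSetoid o a) (y a) := by
          rw [← Quotient.out_eq (Quotient.mk (letterSetoid o a) (x a))]
          conv_rhs => rw [← Quotient.out_eq (Quotient.mk (letterSetoid o a) (y a))]
          exact congrArg _ e
        exact Quotient.exact e'
      have e1 : (fun c => if c ∈ insert a V then y c else x c) = Function.update z a (y a) := by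
        funext c
        by_cases hc : c = a
        · subst hc; simp
        · simp [z, hc]
      have e2 : z = Function.update z a (x a) := by
        funext c
        by_cases hc : c = a
        · subst hc; simp [z, ha]
        · simp [hc]
      rw [e1]
      conv_rhs => rw [e2]
      exact (hr z).symm
  rw [← key o.supp (subset_refl _)]
  exact o.dep _ _ fun c hc => by simp [hc]

lemma thru_classObs (g : Γ → S.A → S.A) (c : Γ) (l : S.A) : (S.classObs g c l).Thru S g := by
  intro x y h
  show decide (g c (x c) = l) = decide (g c (y c) = l)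
  rw [h c (Finset.mem_singleton_self c)]

/-- The event of an observable on its support. -/
def oev (o : S.Obs) : Finset (CPat S (canon o) o.supp) :=
  Finset.univ.filter fun p => o.val (cwit p) = true

lemma mem_cpre_oev {U : Finset Γ} (o : S.Obs) (h : o.supp ⊆ U) (hg : o.Thru S g)
    (p : CPat S g U) : p ∈ cpre h (le_canon hg) (oev o) ↔ o.val (cwit p) = true := by
  simp only [mem_cpre, oev, Finset.mem_filter, Finset.mem_univ, true_and]
  rw [thru_canon o (cwit (cres h (le_canon hg) p)) (cwit p) fun u hu =>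
    cwit_apply (cres h (le_canon hg) p) ⟨u, hu⟩]

lemma cpre_oev_class {U : Finset Γ} {u : Γ} (hu : u ∈ U) (l : S.A)
    (h : (S.classObs g u l).supp ⊆ U) :
    cpre h (le_canon (thru_classObs g u l)) (oev (S.classObs g u l)) = cev u hu l := by
  ext p
  rw [mem_cpre_oev _ h (thru_classObs g u l), mem_cev]
  show decide (g u (cwit p u) = l) = true ↔ _
  rw [decide_eq_true_iff]
  exact iff_of_eq (congrArg (· = l) (cwit_apply p ⟨u, hu⟩))

variable (D) in
/-- The observables are separated. -/
def OSep (o o' : S.Obs) : Prop :=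
  ∃ (h : CGood S D (canon o) o.supp) (h' : CGood S D (canon o') o'.supp),
    Sep (cctx h) (cctx h') (oev o) (oev o')

/-- Adding a cell separated from all cells of a good set. -/
theorem CGood.insert {U : Finset Γ} (hU : CGood S D g U) {v : Γ}
    (hsep : ∀ u ∈ U, ∀ c d : S.A, OSep D (S.classObs g u c) (S.classObs g v d)) :
    CGood S D g (insert v U) := by
  have hUs : U ⊆ Insert.insert v U := Finset.subset_insert v U
  have hvs : ({v} : Finset Γ) ⊆ Insert.insert v U :=
    Finset.singleton_subset_iff.2 (Finset.mem_insert_self v U)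
  have hvv : v ∈ ({v} : Finset Γ) := Finset.mem_singleton_self v
  have hv : CGood S D g {v} := cgood_of_good g (subset_refl _) (good_singleton v)
  have hatom : ∀ (p : CPat S g U) (d : CPat S g {v}), Sep (cctx hU) (cctx hv) {p} {d} := by
    intro p d
    have ed : ({d} : Finset (CPat S g {v})) = cev v hvv (d.1 ⟨v, hvv⟩) := by
      ext e
      simp only [Finset.mem_singleton, mem_cev]
      refine ⟨fun h => by rw [h], fun h => Subtype.ext (funext fun u => ?_)⟩
      obtain rfl : u = ⟨v, hvv⟩ := Subtype.ext (Finset.mem_singleton.1 u.2)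
      exact h
    refine Sep.of_measurable (isCCtx hU).alg (isCCtx hv).alg (classEvents g U) (fun e he => ?_) _
      fun a b hab => by rw [eq_of_classEvents hab]
    obtain ⟨⟨u, c⟩, -, rfl⟩ := List.mem_map.1 he
    obtain ⟨h1, h2, h3⟩ := hsep u.1 u.2 c (d.1 ⟨v, hvv⟩)
    have hu1 : (S.classObs g u.1 c).supp ⊆ U := Finset.singleton_subset_iff.2 u.2
    have hv1 : (S.classObs g v (d.1 ⟨v, hvv⟩)).supp ⊆ {v} := subset_refl _
    have h4 := (sep_cpre_iff hu1 (le_canon (thru_classObs g u.1 c)) hv1
      (le_canon (thru_classObs g v _)) hU hv h1 h2 _ _).2 h3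
    rw [cpre_oev_class u.2 c hu1, cpre_oev_class hvv _ hv1] at h4
    rw [ed]
    exact h4
  obtain ⟨J, hJ, hJ1, hJ2⟩ := join (isCCtx hU).alg (isCCtx hv).alg hatom
  let f : CPat S g (Insert.insert v U) ↪ CPat S g U × CPat S g {v} :=
    ⟨fun p => (cres hUs (Le.refl g U) p, cres hvs (Le.refl g _) p), fun p q hpq => by
      apply Subtype.ext
      funext u
      obtain ⟨hp1, hp2⟩ := Prod.mk.inj hpq
      rcases Finset.mem_insert.1 u.2 with hu | hu
      · have e := congrFun (congrArg Subtype.val hp2) ⟨u.1, Finset.mem_singleton.2 hu⟩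
        rwa [cres_self, cres_self] at e
      · have e := congrFun (congrArg Subtype.val hp1) ⟨u.1, hu⟩
        rwa [cres_self, cres_self] at e⟩
  have hz : ∀ a, a ∉ Set.range f → ∀ {σ : Perm (Col depth)}, σ.IsThreeCycle → J {a} σ = 1 := by
    rintro ⟨p, d⟩ hnot σ hσ
    let a : Γ → S.A := fun u => if u ∈ U then cwit p u else cwit d u
    by_cases hvU : v ∈ U
    · -- the pattern disagrees with itself at `v`
      have hne : p.1 ⟨v, hvU⟩ ≠ d.1 ⟨v, hvv⟩ := by
        intro heq
        refine hnot ⟨⟨fun u => g u (cwit p u), cwit p, ?_, fun _ => rfl⟩, Prod.ext ?_ ?_⟩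
        · rw [Finset.insert_eq_of_mem hvU]; exact cwit_admissible p
        · refine Subtype.ext (funext fun u => ?_)
          exact (cres_self hUs _ u).trans (cwit_apply p u)
        · refine Subtype.ext (funext fun u => ?_)
          obtain rfl : u = ⟨v, hvv⟩ := Subtype.ext (Finset.mem_singleton.1 u.2)
          exact (cres_self hvs _ _).trans ((cwit_apply p ⟨v, hvU⟩).trans heq)
      refine hJ.zero_of_commutator (p := cev v hvU (p.1 ⟨v, hvU⟩) ×ˢ Finset.univ)
        (q := Finset.univ ×ˢ cev v hvv (d.1 ⟨v, hvv⟩)) (by simp) (fun w => ?_) hσ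
      rw [hJ1 _ (ql_three w), hJ2 _ (qr_three w), (isCCtx hU).cell hvU _ (ql_three w),
        (isCCtx hv).cell hvv _ (qr_three w), commutatorElement_eq_one_iff_commute]
      exact (alg_one g v).commute (ql_three w) (qr_three w) (Finset.disjoint_singleton.2 hne)
    have hau : ∀ u : U, g u (a u) = p.1 u := fun u => by
      simp only [a, if_pos u.2]; exact cwit_apply p u
    have hav : g v (a v) = d.1 ⟨v, hvv⟩ := by
      simp only [a, if_neg hvU]; exact cwit_apply d ⟨v, hvv⟩
    have hnadm : ¬ S.AdmissibleClass g (Insert.insert v U) a := by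
      intro hadm
      refine hnot ⟨⟨fun u => g u (a u), a, hadm, fun _ => rfl⟩, Prod.ext ?_ ?_⟩
      · exact Subtype.ext (funext fun u => (cres_self hUs _ u).trans (hau u))
      · refine Subtype.ext (funext fun u => ?_)
        obtain rfl : u = ⟨v, hvv⟩ := Subtype.ext (Finset.mem_singleton.1 u.2)
        exact (cres_self hvs _ _).trans hav
    simp only [SFT.AdmissibleClass, not_forall] at hnadm
    obtain ⟨v0, hbad⟩ := hnadm
    have hvW : v ∈ movF v0 S.win := by
      by_contra hn
      obtain ⟨q, hqa, e⟩ := cwit_admissible p v0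
      refine hbad ⟨q, hqa, fun w hw hwI => ?_⟩
      have hwU : v0 * w ∈ U :=
        (Finset.mem_insert.1 hwI).resolve_left fun h => hn (h ▸ gmov_mem_movF hw)
      simp only [a, if_pos hwU]
      exact e w hw hwU
    let R := U ∩ movF v0 S.win
    have hRU : R ⊆ U := Finset.inter_subset_left
    have hRW : R ⊆ movF v0 S.win := Finset.inter_subset_right
    have hW : Good S D (movF v0 S.win) := good_win true v0
    have hR : CGood S D g R := cgood_of_good g hRW hW
    have hvW' : ({v} : Finset Γ) ⊆ movF v0 S.win := Finset.singleton_subset_iff.2 hvW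
    set c := cres hRU (Le.refl g R) p
    refine hJ.zero_of_commutator
      (p := cpre hRU (Le.refl g R) {c} ×ˢ Finset.univ)
      (q := Finset.univ ×ˢ ({d} : Finset (CPat S g {v}))) (by simp [c]) (fun w => ?_) hσ
    rw [hJ1 _ (ql_three w), hJ2 _ (qr_three w), cctx_pre hRU (Le.refl g R) hU hR _ (ql_three w),
      ← (isCCtx_cls g hRW (isCtx hW)).unique (isCCtx hR) _ (ql_three w),
      ← (isCCtx_cls g hvW' (isCtx hW)).unique (isCCtx hv) _ (qr_three w),
      clsAlg_eq g hRW (isCtx hW) {c.1} _
        (fun r => by simp only [Finset.mem_singleton]; exact Subtype.ext_iff) (ql_three w),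
      clsAlg_eq g hvW' (isCtx hW) {d.1} _
        (fun r => by simp only [Finset.mem_singleton]; exact Subtype.ext_iff) (qr_three w),
      commutatorElement_eq_one_iff_commute]
    refine (isCtx hW).alg.commute (ql_three w) (qr_three w) (Finset.disjoint_left.2 ?_)
    intro z hz1 hz2
    simp only [Finset.mem_filter, Finset.mem_univ, true_and, Finset.mem_singleton] at hz1 hz2
    refine hbad ⟨wit (movF v0 S.win) z,
      wit_admissible z v0 fun q hq => gmov_mem_movF hq, fun q hq hqI => ?_⟩
    have hqW : v0 * q ∈ movF v0 S.win := gmov_mem_movF hq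
    rw [wit_apply z ⟨v0 * q, hqW⟩]
    rcases Finset.mem_insert.1 hqI with h | hqU
    · have hzq : (⟨v0 * q, hqW⟩ : (movF v0 S.win : Finset Γ)) = ⟨v, hvW⟩ := Subtype.ext h
      have e1 : g v (z.1 ⟨v, hvW⟩) = d.1 ⟨v, hvv⟩ := congrFun hz2 ⟨v, hvv⟩
      rw [hzq, h, hav]
      exact e1
    · have e1 : g (v0 * q) (z.1 ⟨v0 * q, hqW⟩) = c.1 ⟨v0 * q, Finset.mem_inter.2 ⟨hqU, hqW⟩⟩ :=
        congrFun hz1 ⟨v0 * q, Finset.mem_inter.2 ⟨hqU, hqW⟩⟩
      rw [e1, cres_self]
      exact (hau ⟨v0 * q, hqU⟩).symm
  refine ⟨Vale.Agent.P196.Pres.restrict f J, hJ.restrict f hz, fun {u} hu c σ hσ => ?_⟩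
  have key := map_filter_eq hJ f hσ fun a ha => hz a ha hσ
  show J _ σ = _
  rcases Finset.mem_insert.1 hu with rfl | huU
  · rw [key (Finset.univ ×ˢ cev u (Finset.mem_singleton_self u) c), hJ2 _ hσ,
      (isCCtx hv).cell _ c hσ]
    intro p
    simp only [Finset.mem_product, Finset.mem_univ, true_and, mem_cev]
    exact iff_of_eq (congrArg (· = c) (cres_self hvs p ⟨u, Finset.mem_singleton_self u⟩).symm)
  · rw [key (cev u huU c ×ˢ Finset.univ), hJ1 _ hσ, (isCCtx hU).cell _ c hσ]
    intro p
    simp only [Finset.mem_product, Finset.mem_univ, and_true, mem_cev]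
    exact iff_of_eq (congrArg (· = c) (cres_self hUs p ⟨u, huU⟩).symm)

/-- A set of cells all of whose pairs of classes are separated is good. -/
lemma cgood_of_pairs (g : Γ → S.A → S.A) {U : Finset Γ}
    (h : ∀ a ∈ U, ∀ b ∈ U, ∀ c d : S.A, OSep D (S.classObs g a c) (S.classObs g b d)) :
    CGood S D g U := by
  induction U using Finset.induction_on with
  | empty => exact cgood_of_good g (Finset.empty_subset _) (good_singleton (1 : Γ))
  | insert v U hv ih =>
    refine CGood.insert (ih fun a ha b hb => h a (Finset.mem_insert_of_mem ha) b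
      (Finset.mem_insert_of_mem hb)) fun u hu c d => ?_
    exact h u (Finset.mem_insert_of_mem hu) v (Finset.mem_insert_self v U) c d

variable (D) in
/-- The observables are the same event. -/
def OEq (o o' : S.Obs) : Prop :=
  ∃ (h : CGood S D (canon o) o.supp) (h' : CGood S D (canon o') o'.supp),
    ∀ {σ : Perm (Col depth)}, σ.IsThreeCycle → cctx h (oev o) σ = cctx h' (oev o') σ

/-- Separation passes to the same event. -/
lemma OSep.transport {o o₁ o' : S.Obs} (he : OEq D o o₁) (hs : OSep D o₁ o') : OSep D o o' := by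
  obtain ⟨h, h₁, he⟩ := he
  obtain ⟨g₁, h', hsep⟩ := hs
  have hc : ∀ {σ : Perm (Col depth)}, σ.IsThreeCycle →
      cctx h (oev o)ᶜ σ = cctx h₁ (oev o₁)ᶜ σ := by
    intro σ hσ
    have e := (isCCtx h).alg.split_univ (oev o) hσ
    rw [(isCCtx h₁).alg.split_univ (oev o₁) hσ, he hσ] at e
    exact (mul_left_cancel e).symm
  refine ⟨h, h', ⟨fun {a b c} ha hb hc' => ?_⟩⟩
  rw [he ha, hc hc']
  exact hsep.comm ha hb hc'

/-- The same function of the same events is the same event. -/
lemma oEq_combine {o o' : S.Obs} {n : ℕ} (ms ms' : Fin n → S.Obs) (f : (Fin n → Bool) → Bool)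
    {U W : Finset Γ} (hU : CGood S D g U) (hW : CGood S D k W) (ho : o.supp ⊆ U)
    (ho' : o'.supp ⊆ W) (h1 : ∀ i, (ms i).supp ⊆ U) (h2 : ∀ i, (ms' i).supp ⊆ W)
    (t : o.Thru S g) (t1 : ∀ i, (ms i).Thru S g) (t' : o'.Thru S k)
    (t2 : ∀ i, (ms' i).Thru S k)
    (hoU : ∀ a : Γ → S.A, S.AdmissibleClass g U a → o.val a = f fun i => (ms i).val a)
    (hoW : ∀ a : Γ → S.A, S.AdmissibleClass k W a → o'.val a = f fun i => (ms' i).val a)
    (hm : ∀ i, OEq D (ms i) (ms' i)) : OEq D o o' := by
  let F : CPat S g U → (Fin n → Bool) := fun p i => (ms i).val (cwit p)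
  let F' : CPat S k W → (Fin n → Bool) := fun p i => (ms' i).val (cwit p)
  let G : Finset (Fin n → Bool) := Finset.univ.filter fun v => f v = true
  refine ⟨hU.mono ho (le_canon t), hW.mono ho' (le_canon t'), fun {σ} hσ => ?_⟩
  rw [← cctx_pre ho (le_canon t) hU (hU.mono ho (le_canon t)) _ hσ,
    ← cctx_pre ho' (le_canon t') hW (hW.mono ho' (le_canon t')) _ hσ]
  have e1 : cpre ho (le_canon t) (oev o) = Finset.univ.filter fun p => F p ∈ G := by
    ext p
    rw [mem_cpre_oev o ho t, hoU _ (cwit_admissible p)]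
    simp [G, F]
  have e2 : cpre ho' (le_canon t') (oev o') = Finset.univ.filter fun p => F' p ∈ G := by
    ext p
    rw [mem_cpre_oev o' ho' t', hoW _ (cwit_admissible p)]
    simp [G, F']
  rw [e1, e2]
  refine ((isCCtx hU).alg.pull F).ext_gen ((isCCtx hW).alg.pull F')
    ((List.finRange n).map fun i => Finset.univ.filter fun v => v i = true)
    (fun e he τ hτ => ?_) G (fun a b hab => ?_) hσ
  · obtain ⟨i, -, rfl⟩ := List.mem_map.1 he
    obtain ⟨k1, k2, h⟩ := hm i
    unfold Vale.Agent.P196.Pres.pull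
    rw [show (Finset.univ.filter fun p => F p ∈ Finset.univ.filter fun v => v i = true) =
        cpre (h1 i) (le_canon (t1 i)) (oev (ms i)) by
          ext p; rw [mem_cpre_oev _ (h1 i) (t1 i)]; simp [F],
      show (Finset.univ.filter fun p => F' p ∈ Finset.univ.filter fun v => v i = true) =
        cpre (h2 i) (le_canon (t2 i)) (oev (ms' i)) by
          ext p; rw [mem_cpre_oev _ (h2 i) (t2 i)]; simp [F'],
      cctx_pre (h1 i) (le_canon (t1 i)) hU k1 _ hτ,
      cctx_pre (h2 i) (le_canon (t2 i)) hW k2 _ hτ, h hτ]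
  · have : a = b := funext fun i => Bool.eq_iff_iff.2 (by
      simpa using hab _ (List.mem_map.2 ⟨i, List.mem_finRange i, rfl⟩))
    rw [this]

variable (D) in
/-- The meaning of a forced relation. -/
def Meaning : SFT.Kind → S.Obs → S.Obs → Prop
  | .com => OSep D
  | .same => OEq D

lemma oSep_of_win {o o' : S.Obs} {W : Finset Γ} (hW : Good S D W) (h1 : o.supp ⊆ W)
    (h2 : o'.supp ⊆ W) : OSep D o o' := by
  have g1 := cgood_of_good (canon o) h1 hW
  have g2 := cgood_of_good (canon o') h2 hW
  refine ⟨g1, g2, ⟨fun {a b c} ha hb hc => ?_⟩⟩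
  let P : Finset (o.supp → S.A) := (oev o).map (incl _ _)
  let Q : Finset (o'.supp → S.A) := (oev o').map (incl _ _)
  have hP : ∀ r, r ∈ oev o ↔ r.1 ∈ P := fun r => (Finset.mem_map' (incl _ _)).symm
  have hQ : ∀ r, r ∈ oev o' ↔ r.1 ∈ Q := fun r => (Finset.mem_map' (incl _ _)).symm
  have := (Sep.of_pull (isCtx hW).alg (raw (canon o) h1) (raw (canon o') h2) P Q).comm ha hb hc
  rw [← (isCCtx_cls _ h1 (isCtx hW)).unique (isCCtx g1) _ ha,
    ← (isCCtx_cls _ h1 (isCtx hW)).unique (isCCtx g1) _ hc,
    ← (isCCtx_cls _ h2 (isCtx hW)).unique (isCCtx g2) _ hb,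
    clsAlg_eq _ h1 (isCtx hW) P _ hP ha,
    clsAlg_eq _ h1 (isCtx hW) Pᶜ _ (fun r => by simp [hP r]) hc,
    clsAlg_eq _ h2 (isCtx hW) Q _ hQ hb]
  exact this

/-- Commuting observables are separated, equal ones are the same event. -/
theorem meaning_of_der {t : SFT.Kind} {o o' : S.Obs} (h : S.Der t o o') : Meaning D t o o' := by
  induction h with
  | window o o' γ hd =>
    have hsub : ∀ d, d ∈ o.supp ∨ d ∈ o'.supp → d ∈ movF γ (wcells S true) := fun d hd' => by
      obtain ⟨w, hw, rfl⟩ := hd d hd'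
      exact gmov_mem_movF hw
    exact oSep_of_win (good_win true γ) (fun d hd => hsub d (Or.inl hd))
      fun d hd => hsub d (Or.inr hd)
  | cell o o' γ h1 h2 => exact oSep_of_win (good_singleton γ) h1 h2
  | symm t o o' _ ih =>
    cases t with
    | com =>
      obtain ⟨h1, h2, hs⟩ := ih
      exact ⟨h2, h1, hs.symm (isCCtx h1).alg (isCCtx h2).alg⟩
    | same =>
      obtain ⟨h1, h2, he⟩ := ih
      exact ⟨h2, h1, fun hσ => (he hσ).symm⟩
  | agree o o' g U ho ho' t t' _ heq ihU =>
    have hU := cgood_of_pairs g fun a ha b hb c d => ihU a ha b hb c d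
    refine ⟨hU.mono ho (le_canon t), hU.mono ho' (le_canon t'), fun hσ => ?_⟩
    rw [← cctx_pre ho (le_canon t) hU (hU.mono ho (le_canon t)) _ hσ,
      ← cctx_pre ho' (le_canon t') hU (hU.mono ho' (le_canon t')) _ hσ]
    congr 1
    ext p
    rw [mem_cpre_oev o ho t, mem_cpre_oev o' ho' t', heq _ (cwit_admissible p)]
  | trans o o₁ o' _ _ ih1 ih2 =>
    obtain ⟨h1, h2, he⟩ := ih1
    obtain ⟨h3, h4, he'⟩ := ih2
    exact ⟨h1, h4, fun hσ => (he hσ).trans (he' hσ)⟩
  | congr o o' n ms ms' f g k U W ho h1 ho' h2 t t1 t' t2 _ _ hoU hoW _ ihU ihW ihm =>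
    exact oEq_combine ms ms' f (cgood_of_pairs g fun a ha b hb c d => ihU a ha b hb c d)
      (cgood_of_pairs k fun a ha b hb c d => ihW a ha b hb c d) ho ho' h1 h2 t t1 t' t2 hoU hoW
      ihm
  | subst o o₁ o' _ _ ih1 ih2 => exact OSep.transport ih1 ih2
  | derived o o' n ms f g k U ho hms t t1 t' _ _ hdet _ ihU ihW ihm =>
    have hU := cgood_of_pairs g fun a ha b hb c d => ihU a ha b hb c d
    have hW := cgood_of_pairs k fun a ha b hb c d => ihW a ha b hb c d
    refine ⟨hU.mono ho (le_canon t), hW.mono (subset_refl _) (le_canon t'),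
      (sep_cpre_iff ho (le_canon t) (subset_refl _) (le_canon t') hU hW _ _ _ _).1 ?_⟩
    refine Sep.of_measurable (isCCtx hU).alg (isCCtx hW).alg
      ((List.finRange n).map fun i => cpre (hms i) (le_canon (t1 i)) (oev (ms i)))
      (fun e he => ?_) _ fun a b hab => ?_
    · obtain ⟨i, -, rfl⟩ := List.mem_map.1 he
      obtain ⟨g1, g2, g3⟩ := ihm i
      exact (sep_cpre_iff (hms i) (le_canon (t1 i)) (subset_refl _) (le_canon t') hU hW g1 g2
        _ _).2 g3
    · rw [mem_cpre_oev o ho t, mem_cpre_oev o ho t, hdet _ (cwit_admissible a),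
        hdet _ (cwit_admissible b)]
      have : (fun i => (ms i).val (cwit a)) = fun i => (ms i).val (cwit b) := funext fun i => by
        have := hab _ (List.mem_map.2 ⟨i, List.mem_finRange i, rfl⟩)
        rw [mem_cpre_oev _ (hms i) (t1 i), mem_cpre_oev _ (hms i) (t1 i)] at this
        exact Bool.eq_iff_iff.2 this
      rw [this]
  | exclusive o o' d d' g k U W ho hdU ho' hdW t td t' td' _ _ _ hin hout ihU ihW ihd =>
    have hU := cgood_of_pairs g fun a ha b hb c e => ihU a ha b hb c e
    have hW := cgood_of_pairs k fun a ha b hb c e => ihW a ha b hb c e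
    obtain ⟨g1, g2, he⟩ := ihd
    refine ⟨hU.mono ho (le_canon t), hW.mono ho' (le_canon t'),
      (sep_cpre_iff ho (le_canon t) ho' (le_canon t') hU hW _ _ _ _).1 ?_⟩
    refine Sep.of_exclusive (pc := cpre hdU (le_canon td) (oev d))
      (qc' := cpre hdW (le_canon td') (oev d')) (isCCtx hU).alg (isCCtx hW).alg
      (fun p hp => ?_) (fun q hq => ?_) fun hσ => ?_
    · rw [mem_cpre_oev o ho t] at hp
      rw [mem_cpre_oev d hdU td]
      exact hin _ (cwit_admissible p) hp
    · rw [mem_cpre_oev o' ho' t'] at hq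
      rw [Finset.mem_compl, mem_cpre_oev d' hdW td', hout _ (cwit_admissible q) hq]
      simp
    · rw [cctx_pre hdU (le_canon td) hU g1 _ hσ, cctx_pre hdW (le_canon td') hW g2 _ hσ, he hσ]

/-- A pattern of classes of the identity is a pattern. -/
def patOf {U : Finset Γ} (p : CPat S (fun _ l => l) U) : Pat S U :=
  ⟨p.1, cwit p, (cwit_admissible p).admissible, fun u => (cwit_apply p u).symm⟩

/-- In a rigid subshift every finite set is good. -/
theorem good_all (hr : S.Rigid) (U : Finset Γ) : Good S D U := by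
  obtain ⟨T, hT⟩ := cgood_of_pairs (D := D) (fun _ l => l) (U := U)
    fun a _ b _ c d => meaning_of_der (hr a b c d)
  refine ⟨pull patOf T, hT.alg.pull _, fun {u} hu c σ hσ => ?_⟩
  have e1 : pull patOf T (ev u hu c) σ = T (cev u hu c) σ := by
    unfold Vale.Agent.P196.Pres.pull
    congr 1
    ext p
    simp only [Finset.mem_filter, Finset.mem_univ, true_and, mem_ev, mem_cev]
    rfl
  rw [e1, hT.cell hu c hσ, ← (isCtx (good_singleton (D := D) u)).cell (Finset.mem_singleton_self u)
    c hσ]
  unfold one Vale.Agent.P196.Pres.pull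
  congr 1
  ext q
  simp only [Finset.mem_filter, Finset.mem_univ, true_and, mem_ev, Finset.mem_singleton]
  rw [wit_apply q ⟨u, Finset.mem_singleton_self u⟩]

end

end Vale.Agent.P193.Pres
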