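import Vale.Agent.P193.Pres.Patterns

/-!
P193, W5: the finitely presented group. Generators: translations by generators on the cylinders
of two neighbouring lengths, exchanges of these cylinders, colourings on basic windows. Relators:
all relations among them up to a length given by a presentation of `K`.
-/

namespace Vale.Agent.P193.Pres

open Equiv BH Prefix
open scoped Classical

noncomputable section

/-- A finite presentation. -/
structure KPres (Γ : Type) [Group Γ] where
  r : ℕ
  φ : FreeGroup (Fin r) →* Γ
  surj : Function.Surjective φ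
  R : Finset (FreeGroup (Fin r))
  ker_le : φ.ker ≤ Subgroup.normalClosure (R : Set (FreeGroup (Fin r)))
  rel : ∀ w ∈ R, φ w = 1

variable {Γ : Type} [Group Γ]

lemma exists_kpres (h : Group.IsFinitelyPresented Γ) : Nonempty (KPres Γ) := by
  obtain ⟨n, φ, hφ, s, hs, he⟩ := h.out
  refine ⟨⟨n, φ, hφ, hs.toFinset, ?_, fun w hw => ?_⟩⟩
  · rw [Set.Finite.coe_toFinset, he]
  · exact MonoidHom.mem_ker.1 (he ▸ Subgroup.subset_normalClosure (hs.mem_toFinset.1 hw))

/-- The cells of a basic window: one cell, or the window of the subshift. -/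
def wcells (S : SFT Γ) : Bool → Finset Γ
  | false => {1}
  | true => S.win

/-- The prefixes of the two lengths. -/
abbrev SW : Type := {a : Wd // a.length = depth ∨ a.length = depth + 1}

instance : Finite SW :=
  ((List.finite_length_le Bool (depth + 1)).subset fun a (ha : a.length = depth ∨ _) => by
    show a.length ≤ depth + 1
    omega).to_subtype

variable (S : SFT Γ) (D : KPres Γ)

/-- A word for an element. -/
def gw (γ : Γ) : FreeGroup (Fin D.r) := (D.surj γ).choose

lemma φ_gw (γ : Γ) : D.φ (gw D γ) = γ := (D.surj γ).choose_spec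

/-- The length of the presentation and of the chosen words. -/
def len : ℕ :=
  1 + (D.R.sup fun w => w.norm) + S.win.sup fun w => (gw D w).norm

/-- The length of the relators. -/
def bound : ℕ := 64 * len S D

/-- The generators of the translations. -/
abbrev TI : Type := Fin D.r

/-- The translation of a generator. -/
def tg (i : TI D) : Γ := D.φ (FreeGroup.of i)

/-- The generators. -/
abbrev Gen : Type :=
  (SW × TI D) ⊕ Mv depth ⊕
    ((w : Bool) × Finset (Pat S (wcells S w)) × Perm (Col depth))

/-- The permutation of a generator. -/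
def val : Gen S D → Perm S.Pt
  | Sum.inl (a, j) => trP S a.1 (tg D j)
  | Sum.inr (Sum.inl s) => onW S (swapM s)
  | Sum.inr (Sum.inr ⟨_, P, σ⟩) =>
      if σ.IsThreeCycle then colP S (ind S (evSet P) σ) else 1

/-- All short relations. -/
def rels : Set (FreeGroup (Gen S D)) :=
  {w | w.norm ≤ bound S D ∧ FreeGroup.lift (val S D) w = 1}

instance : Finite (rels S D) :=
  (((List.finite_length_le (Gen S D × Bool) (bound S D)).preimage
    (FreeGroup.toWord_injective.injOn)).subset fun _ hw => hw.1).to_subtype

/-- The presented group. -/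
abbrev Cov : Type := PresentedGroup (rels S D)

lemma cov_fp : Group.IsFinitelyPresented (Cov S D) := inferInstance

/-- The permutation of an element. -/
def proj : Cov S D →* Perm S.Pt :=
  PresentedGroup.toGroup (f := val S D) fun _ hw => hw.2

variable {S D}

lemma proj_of (g : Gen S D) : proj S D (PresentedGroup.of g) = val S D g := by
  show FreeGroup.lift (val S D) (FreeGroup.of g) = val S D g
  simp

/-- An element written with at most `n` generators. -/
def Short (n : ℕ) (x : Cov S D) : Prop :=
  ∃ w : FreeGroup (Gen S D), PresentedGroup.mk (rels S D) w = x ∧ w.norm ≤ n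

lemma Short.mul {m n : ℕ} {x y : Cov S D} (hx : Short m x) (hy : Short n y) :
    Short (m + n) (x * y) := by
  obtain ⟨u, rfl, hu⟩ := hx
  obtain ⟨w, rfl, hw⟩ := hy
  exact ⟨u * w, map_mul _ _ _, (FreeGroup.norm_mul_le u w).trans (by omega)⟩

lemma Short.inv {n : ℕ} {x : Cov S D} (hx : Short n x) : Short n x⁻¹ := by
  obtain ⟨u, rfl, hu⟩ := hx
  exact ⟨u⁻¹, map_inv _ _, by rwa [FreeGroup.norm_inv_eq]⟩

lemma short_one : Short 0 (1 : Cov S D) := ⟨1, map_one _, by simp [FreeGroup.norm_one]⟩

lemma short_of (g : Gen S D) : Short 1 (PresentedGroup.of g : Cov S D) :=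
  ⟨FreeGroup.of g, rfl, by simp [FreeGroup.norm_of]⟩

lemma Short.eq {m n : ℕ} {x y : Cov S D} (hx : Short m x) (hy : Short n y)
    (hmn : m + n ≤ bound S D) (h : proj S D x = proj S D y) : x = y := by
  obtain ⟨u, rfl, hu⟩ := hx
  obtain ⟨w, rfl, hw⟩ := hy
  refine PresentedGroup.mk_eq_mk_of_mul_inv_mem ⟨?_, ?_⟩
  · refine (FreeGroup.norm_mul_le _ _).trans ?_
    rw [FreeGroup.norm_inv_eq]; omega
  · rw [map_mul, map_inv, mul_inv_eq_one]; exact h

lemma one_le_len : 1 ≤ len S D := by unfold len; omega

lemma le_bound {n : ℕ} (h : n ≤ 64) : n ≤ bound S D := by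
  have := one_le_len (S := S) (D := D)
  unfold bound; omega

lemma norm_rel_le {w : FreeGroup (Fin D.r)} (hw : w ∈ D.R) : w.norm ≤ len S D := by
  have := Finset.le_sup (f := fun w : FreeGroup (Fin D.r) => w.norm) hw
  unfold len; omega

lemma norm_gw_le {w : Γ} (hw : w ∈ S.win) : (gw D w).norm ≤ len S D := by
  have := Finset.le_sup (f := fun w => (gw D w).norm) hw
  unfold len; omega

lemma short_lift {ι : Type} [DecidableEq ι] (g : ι → Gen S D) (w : FreeGroup ι) :
    Short w.norm (FreeGroup.lift (fun i => (PresentedGroup.of (g i) : Cov S D)) w) := by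
  refine ⟨FreeGroup.map g w, ?_, ?_⟩
  · exact DFunLike.congr_fun (FreeGroup.ext_hom ((PresentedGroup.mk (rels S D)).comp
      (FreeGroup.map g)) (FreeGroup.lift fun i => (PresentedGroup.of (g i) : Cov S D))
      fun i => by simp [PresentedGroup.of]) w
  · conv_lhs => rw [← FreeGroup.mk_toWord (x := w), FreeGroup.map.mk]
    refine FreeGroup.norm_mk_le.trans ?_
    simp [FreeGroup.norm]

/-! ### Translations -/

/-- The generator of a translation on a cylinder. -/
def thg (a : SW) (j : TI D) : Cov S D := PresentedGroup.of (Sum.inl (a, j))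

lemma proj_thg (a : SW) (j : TI D) : proj S D (thg a j) = trP S a.1 (tg D j) := by
  rw [thg, proj_of]; rfl

/-- The translations on a cylinder, on words. -/
def thW (a : SW) : FreeGroup (Fin D.r) →* Cov S D := FreeGroup.lift fun i => thg a i

lemma proj_thW (a : SW) (w : FreeGroup (Fin D.r)) : proj S D (thW a w) = trP S a.1 (D.φ w) :=
  DFunLike.congr_fun (FreeGroup.ext_hom ((proj S D).comp (thW a)) ((trP S a.1).comp D.φ)
    fun i => by simp [thW, proj_thg, tg]) w

lemma short_thW (a : SW) (w : FreeGroup (Fin D.r)) : Short w.norm (thW (S := S) a w) :=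
  short_lift (fun i => Sum.inl (a, i)) w

/-- The translations on a cylinder. -/
def th (a : SW) : Γ →* Cov S D :=
  D.φ.liftOfSurjective D.surj ⟨thW a, D.ker_le.trans (Subgroup.normalClosure_le_normal
    fun w hw => (short_thW a w).eq short_one
      (by have := norm_rel_le (S := S) hw; unfold bound; omega)
      (by rw [proj_thW, D.rel w hw, map_one, map_one]))⟩

lemma th_φ (a : SW) (w : FreeGroup (Fin D.r)) : th (S := S) a (D.φ w) = thW a w :=
  MonoidHom.liftOfRightInverse_comp_apply _ _ _ _ w

lemma th_tg (a : SW) (j : TI D) : th (S := S) a (tg D j) = thg a j := by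
  simp [tg, th_φ, thW]

lemma short_th_tg (a : SW) (j : TI D) : Short 1 (th (S := S) (D := D) a (tg D j)) := by
  rw [th_tg]; exact short_of _

lemma short_th_win (a : SW) {w : Γ} (hw : w ∈ S.win) :
    Short (len S D) (th (S := S) (D := D) a w) := by
  obtain ⟨v, hv, hn⟩ := short_thW (S := S) a (gw D w)
  exact ⟨v, by rw [hv, ← th_φ, φ_gw], hn.trans (norm_gw_le hw)⟩

/-- A subgroup of translations containing the generators is everything. -/
lemma gam_top {H : Subgroup Γ} (h : ∀ j, tg D j ∈ H) (γ : Γ) : γ ∈ H := by
  obtain ⟨w, rfl⟩ := D.surj γ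
  induction w using FreeGroup.induction_on with
  | C1 => rw [map_one]; exact one_mem H
  | of i => exact h i
  | inv_of i ih => rw [map_inv]; exact inv_mem ih
  | mul x y hx hy => rw [map_mul]; exact mul_mem hx hy

/-- Homomorphisms on the translations are determined on the generators. -/
lemma gam_ext {G : Type*} [Group G] {f g : Γ →* G} (h : ∀ j, f (tg D j) = g (tg D j)) :
    f = g :=
  MonoidHom.ext fun γ => gam_top (H := f.eqLocus g) h γ

lemma proj_th (a : SW) (γ : Γ) : proj S D (th a γ) = trP S a.1 γ :=
  DFunLike.congr_fun (gam_ext (D := D) (f := (proj S D).comp (th a)) (g := trP S a.1) fun j => by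
    rw [MonoidHom.comp_apply, th_tg, proj_thg]) γ

/-- Two translations commute if their generators do. -/
lemma th_commute {a b : SW} (h : Inc a.1 b.1) (γ δ : Γ) :
    Commute (th (S := S) (D := D) a γ) (th b δ) := by
  have h2 : ∀ j δ, Commute (th (S := S) (D := D) a (tg D j)) (th b δ) := fun j δ =>
    Subgroup.mem_centralizer_singleton_iff.1 (gam_top (D := D)
      (H := (Subgroup.centralizer {th (S := S) a (tg D j)}).comap (th b)) (fun i => by
        rw [Subgroup.mem_comap, Subgroup.mem_centralizer_singleton_iff]
        refine (Short.eq ((short_th_tg a j).mul (short_th_tg b i))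
          ((short_th_tg b i).mul (short_th_tg a j)) (le_bound (by norm_num)) ?_).symm
        rw [map_mul, map_mul, proj_th, proj_th]
        exact trP_commute h _ _) δ) |>.symm
  exact Subgroup.mem_centralizer_singleton_iff.1 (gam_top (D := D)
    (H := (Subgroup.centralizer {th (S := S) (D := D) b δ}).comap (th a)) (fun j => by
      rw [Subgroup.mem_comap, Subgroup.mem_centralizer_singleton_iff]
      exact (h2 j δ).eq) γ)

/-! ### Moves -/

/-- The generator of an exchange. -/
def mg (s : Mv depth) : Cov S D := PresentedGroup.of (Sum.inr (Sum.inl s))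

lemma proj_mg (s : Mv depth) : proj S D (mg s) = onW S (swapM s) := by rw [mg, proj_of]; rfl

/-- The moves in the group. -/
def moveRep : MoveRep depth (Cov S D) where
  m := mg
  sq s := Short.eq ((short_of _).mul (short_of _)) short_one (le_bound (by norm_num)) (by
    simp only [map_mul]
    show proj S D (mg s) * proj S D (mg s) = proj S D 1
    rw [map_one, proj_mg, ← map_mul, swapM, swapC_sq, map_one])
  symm s := Short.eq (short_of _) (short_of _) (le_bound (by norm_num)) (by
    show proj S D (mg s.symm) = proj S D (mg s)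
    rw [proj_mg, proj_mg]
    exact congrArg (onW S) swapC_symm)
  conj s e e' h1 h2 h3 h4 := Short.eq (((short_of _).mul (short_of _)).mul (short_of _))
    (short_of _) (le_bound (by norm_num)) (by
    show proj S D (mg s * mg e * mg s) = proj S D (mg e')
    rw [map_mul, map_mul, proj_mg, proj_mg, proj_mg, ← map_mul, ← map_mul,
      swapM_conj s e e' h1 h2 h3 h4])

/-- The element of a list of moves. -/
def mW (l : List (Mv depth)) : Cov S D := (l.map mg).prod

/-- The permutation of a list of moves. -/
def pW (l : List (Mv depth)) : Perm (ℕ → Bool) := (l.map swapM).prod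

lemma proj_mW (l : List (Mv depth)) : proj S D (mW l) = onW S (pW l) := by
  rw [mW, pW, map_list_prod, map_list_prod, List.map_map, List.map_map]
  exact congrArg List.prod (List.map_congr_left fun s _ => proj_mg s)

lemma short_mW : ∀ l : List (Mv depth), Short l.length (mW (S := S) (D := D) l)
  | [] => short_one
  | s :: l => by
    rw [mW, List.map_cons, List.prod_cons, List.length_cons, Nat.add_comm l.length]
    exact (short_of _).mul (short_mW l)

/-- Moves carry translations. -/
lemma mW_th {l : List (Mv depth)} (hl : l.length ≤ 28) {a a' : SW}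
    (h : ∀ t, pW l (SFT.cat a.1 t) = SFT.cat a'.1 t) (γ : Γ) :
    mW (S := S) (D := D) l * th a γ * (mW l)⁻¹ = th a' γ :=
  DFunLike.congr_fun (gam_ext (D := D)
    (f := (MulAut.conj (mW (S := S) (D := D) l)).toMonoidHom.comp (th a)) (g := th a') fun j => by
      show mW l * th a (tg D j) * (mW l)⁻¹ = th a' (tg D j)
      refine Short.eq (((short_mW l).mul (short_th_tg a j)).mul (short_mW l).inv)
        (short_th_tg a' j) (le_bound (by omega)) ?_
      rw [map_mul, map_mul, map_inv, proj_mW, proj_th, proj_th, onW_conj_trP h]) γ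

/-- A translation on a short cylinder is the product of those on its halves. -/
lemma th_split {a a₀ a₁ : SW} (h0 : a₀.1 = a.1 ++ [false]) (h1 : a₁.1 = a.1 ++ [true])
    (γ : Γ) : th (S := S) (D := D) a γ = th a₀ γ * th a₁ γ := by
  have hi : Inc a₀.1 a₁.1 := by rw [h0, h1]; exact (inc_iff_ne (by simp)).2 (by simp)
  let g : Γ →* Cov S D :=
    { toFun := fun γ => th a₀ γ * th a₁ γ
      map_one' := by simp
      map_mul' := fun γ δ => by
        simp only [map_mul, mul_assoc]
        rw [← mul_assoc (th a₁ γ), (th_commute hi δ γ).symm.eq]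
        simp only [mul_assoc] }
  refine DFunLike.congr_fun (gam_ext (D := D) (g := g) fun j => ?_) γ
  refine Short.eq (short_th_tg a j) ((short_th_tg a₀ j).mul (short_th_tg a₁ j))
    (le_bound (by norm_num)) ?_
  show proj S D (th a _) = proj S D (th a₀ _ * th a₁ _)
  rw [map_mul, proj_th, proj_th, proj_th, h0, h1]
  exact trP_split _ _

end

end Vale.Agent.P193.Pres
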