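import Vale.Agent.P193.Pres.Conj
import Vale.Agent.P193.Bridge.Main

/-!
P193, W5: the model, so rigidity gives finite presentability.
-/

namespace Vale.Agent.P193.Pres

open Equiv BH Prefix
open scoped Classical

noncomputable section

variable {Γ : Type} [Group Γ] {S : SFT Γ} {D : KPres Γ}

/-- The presented group acts inside the group of the subshift. -/
lemma proj_mem (e : Cov S D) : proj S D e ∈ S.fullGroup := by
  refine PresentedGroup.generated_by (rels S D) (S.fullGroup.comap (proj S D)) (fun g => ?_) e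
  rw [Subgroup.mem_comap, proj_of]
  rcases g with ⟨a, j⟩ | s | ⟨w, P, σ⟩
  · exact trP_mem 0 a.1 (by have := a.2; unfold depth at this; omega) _
  · exact swapC_mem s.inc
  · show (if σ.IsThreeCycle then colP S (ind S (evSet P) σ) else 1) ∈ S.fullGroup
    split_ifs with hσ
    exacts [colP_ind_mem (isClopen_evSet P) hσ, one_mem _]

lemma trP3_at {p : Conf 3} (hp : Long3 p) (γ : Fin 3 → Γ) (i : Fin 3) (x : S.X) (t : ℕ → Bool) :
    proj S D (Th3 S D γ p) (x, SFT.cat (p i) t) = (gA S (γ i) x, SFT.cat (p i) t) := by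
  have n : ∀ a b, a ≠ b → ¬ InCyl (p a) (SFT.cat (p b) t) := fun a b h =>
    not_inCyl_cat (hp.2 a b h) t
  simp only [Th3, map_mul, proj_Th (hp.1 _), Perm.mul_apply]
  fin_cases i <;> simp [trP_in (inCyl_cat _ _), trP_out, n]

lemma trP3_out {p : Conf 3} (hp : Long3 p) (γ : Fin 3 → Γ) {x : S.X} {w : ℕ → Bool}
    (h : ∀ i, ¬ InCyl (p i) w) : proj S D (Th3 S D γ p) (x, w) = (x, w) := by
  simp only [Th3, map_mul, proj_Th (hp.1 _), Perm.mul_apply, trP_out (h _)]

/-- The element of a cycle permutes its pieces. -/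
lemma proj_t3 (hr : S.Rigid) {c : S.Cyc} (hc : Nice c) :
    c.IsPerm S (proj S D (t3 D hr c.base c.shift c.pre)) := by
  set g := proj S D (t3 D hr c.base c.shift c.pre) with hg
  set A := proj S D (Th3 S D c.shift c.pre)
  have hR := proj_T (D := D) hr (isEv_of_isClopen c.clopen) hc.long.ok hc.long.2
  set R := proj S D (T D hr c.base c.pre)
  have hgA : ∀ q, g (A q) = A (R q) := fun q => by
    simp [hg, t3, A, R, Perm.mul_apply]
  refine ⟨fun i x hx t => ?_, fun ⟨x, w⟩ hn => ?_⟩
  · rw [← gA_apply, ← gA_apply, ← trP3_at (D := D) hc.long c.shift i x t, hgA, hR.1 i x hx,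
      trP3_at hc.long]
  · by_cases hw : ∃ i, InCyl (c.pre i) w
    · obtain ⟨i, hi⟩ := hw
      have e : (x, w) = A (gA S (c.shift i)⁻¹ x, SFT.cat (c.pre i) (drp (c.pre i).length w)) := by
        rw [trP3_at hc.long, cat_drp hi, ← Perm.mul_apply, ← map_mul, mul_inv_cancel, map_one]
        rfl
      have hx : gA S (c.shift i)⁻¹ x ∉ c.base := fun hx =>
        hn i ⟨_, hx, drp (c.pre i).length w, by
          rw [← gA_apply, ← Perm.mul_apply, ← map_mul, mul_inv_cancel, map_one, cat_drp hi]
          rfl⟩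
      rw [e, hgA, hR.2 _ _ (Or.inl hx)]
    · push Not at hw
      have e : A (x, w) = (x, w) := trP3_out hc.long _ hw
      rw [← e, hgA, hR.2 _ _ (Or.inr hw)]

variable (D) in
/-- The model. -/
def model (hr : S.Rigid) : Model S where
  E := Cov S D
  fp := cov_fp S D
  hom := proj S D
  hom_mem := proj_mem
  t c := t3 D hr c.base c.shift c.pre
  hom_t _ hc := proj_t3 hr hc
  union c c₁ c₂ hc h1 h2 h3 h4 hd hb := by
    rw [h1, h2, h3, h4, hb]
    exact t3_union hr (isEv_of_isClopen c₁.clopen) (isEv_of_isClopen c₂.clopen) hd hc.long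
  split c c₀ c₁ hc b0 s0 b1 s1 p0 p1 := by
    rw [b0, s0, b1, s1, funext p0, funext p1]
    exact t3_split hr (isEv_of_isClopen c.clopen) hc.long
  rot c c' hc hb hs hp := by
    rw [hb, funext hs, funext hp]
    exact t3_rot hr (isEv_of_isClopen c.clopen) hc.long
  repar c c' γ hc hb hs hp := by
    rw [hb, funext hs, hp, image_act]
    exact t3_repar hr (isEv_of_isClopen c.clopen) hc.long γ
  conj c d d' hc hd hd' hb h := t3_conj hr hc hd hd' hb h

/-- W5: a rigid subshift over a finitely presented group has a model. -/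
theorem exists_model (hΓ : Group.IsFinitelyPresented Γ) (S : SFT Γ) (hr : S.Rigid) :
    Nonempty (Model S) := by
  obtain ⟨D⟩ := exists_kpres hΓ
  exact ⟨model D hr⟩

/-- W5 and W6: rigidity gives finite presentability. -/
theorem presentation : BH.PresentationStatement :=
  Bridge.presentation_of_models fun _ _ hΓ S _ hr => exists_model hΓ S hr

end

end Vale.Agent.P193.Pres
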