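import Vale.Agent.P193.Pres.Cantor

/-!
P193, W5: admissible patterns on finite sets of cells, and their translates.
-/

namespace Vale.Agent.P193.Pres

open BH
open scoped Classical

noncomputable section

variable {Γ : Type} [Group Γ] (S : SFT Γ)

/-- The admissible patterns on a finite set of cells. -/
def Pat (U : Finset (Γ)) : Type :=
  {p : U → S.A // ∃ a : Γ → S.A, S.Admissible U a ∧ ∀ u : U, p u = a u}

instance (U : Finset (Γ)) : Fintype (Pat S U) := by unfold Pat; infer_instance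

instance (U : Finset (Γ)) : DecidableEq (Pat S U) := by unfold Pat; infer_instance

variable {S}

lemma admissible_mono {R U : Finset (Γ)} (h : R ⊆ U) {a : Γ → S.A}
    (ha : S.Admissible U a) : S.Admissible R a :=
  fun γ hγ => ha γ fun w hw => h (hγ w hw)

lemma admissible_congr {U : Finset Γ} {a b : Γ → S.A}
    (h : ∀ u ∈ U, a u = b u) (ha : S.Admissible U a) : S.Admissible U b := by
  intro γ hγ
  rw [show S.window b γ = S.window a γ from funext fun w => (h _ (hγ w w.2)).symm]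
  exact ha γ hγ

/-- A configuration restricted to a finite set. -/
def patX (U : Finset (Γ)) (x : S.X) : Pat S U :=
  ⟨fun u => x.1 u, x.1, fun γ _ => x.2 γ, fun _ => rfl⟩

/-- A pattern restricted to a smaller set. -/
def res {R U : Finset (Γ)} (h : R ⊆ U) (p : Pat S U) : Pat S R :=
  ⟨fun r => p.1 ⟨r.1, h r.2⟩, by
    obtain ⟨a, ha, hp⟩ := p.2
    exact ⟨a, admissible_mono h ha, fun r => hp ⟨r.1, h r.2⟩⟩⟩

lemma res_res {R U W : Finset (Γ)} (h : R ⊆ U) (h' : U ⊆ W) (p : Pat S W) :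
    res h (res h' p) = res (h.trans h') p := rfl

lemma res_patX {R U : Finset (Γ)} (h : R ⊆ U) (x : S.X) :
    res h (patX U x) = patX R x := rfl

/-- A witness of admissibility. -/
def wit (U : Finset (Γ)) (p : Pat S U) : Γ → S.A := p.2.choose

lemma wit_admissible {U : Finset (Γ)} (p : Pat S U) : S.Admissible U (wit U p) :=
  p.2.choose_spec.1

lemma wit_apply {U : Finset (Γ)} (p : Pat S U) (u : U) : wit U p u = p.1 u :=
  (p.2.choose_spec.2 u).symm

/-- The event that the cell `u` carries the letter `l`. -/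
def ev {U : Finset (Γ)} (u : Γ) (hu : u ∈ U) (l : S.A) : Finset (Pat S U) :=
  Finset.univ.filter fun p => p.1 ⟨u, hu⟩ = l

@[simp] lemma mem_ev {U : Finset (Γ)} {u : Γ} {hu : u ∈ U} {l : S.A}
    {p : Pat S U} : p ∈ ev u hu l ↔ p.1 ⟨u, hu⟩ = l := by simp [ev]

/-- The preimage of an event on a smaller set. -/
def pre {R U : Finset (Γ)} (h : R ⊆ U) (s : Finset (Pat S R)) : Finset (Pat S U) :=
  Finset.univ.filter fun p => res h p ∈ s

@[simp] lemma mem_pre {R U : Finset (Γ)} {h : R ⊆ U} {s : Finset (Pat S R)}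
    {p : Pat S U} : p ∈ pre h s ↔ res h p ∈ s := by simp [pre]

lemma pre_compl {R U : Finset (Γ)} (h : R ⊆ U) (s : Finset (Pat S R)) :
    pre h sᶜ = (pre h s)ᶜ := by ext; simp

lemma pre_ev {R U : Finset (Γ)} (h : R ⊆ U) {u : Γ} (hu : u ∈ R) (l : S.A) :
    pre h (ev u hu l) = ev u (h hu) l := by
  ext
  rw [mem_pre, mem_ev, mem_ev]
  exact Iff.rfl

/-- The list of all cell events. -/
def cellEvents (U : Finset (Γ)) : List (Finset (Pat S U)) :=
  (Finset.univ : Finset (U × S.A)).toList.map fun x => ev x.1.1 x.1.2 x.2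

lemma eq_of_cellEvents {U : Finset (Γ)} {p q : Pat S U}
    (h : ∀ e ∈ cellEvents U, p ∈ e ↔ q ∈ e) : p = q := by
  apply Subtype.ext
  funext u
  have := h (ev u.1 u.2 (q.1 u))
    (List.mem_map.2 ⟨(u, q.1 u), Finset.mem_toList.2 (Finset.mem_univ _), rfl⟩)
  simp only [mem_ev] at this
  exact this.2 (by trivial)

/-- The set of configurations whose pattern lies in an event. -/
def evSet {U : Finset (Γ)} (s : Finset (Pat S U)) : Set S.X := {x | patX U x ∈ s}

@[simp] lemma mem_evSet {U : Finset (Γ)} {s : Finset (Pat S U)} {x : S.X} :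
    x ∈ evSet s ↔ patX U x ∈ s := Iff.rfl

lemma evSet_univ {U : Finset (Γ)} :
    evSet (Finset.univ : Finset (Pat S U)) = Set.univ := by ext; simp

lemma evSet_pre {R U : Finset (Γ)} (h : R ⊆ U) (s : Finset (Pat S R)) :
    evSet (pre h s) = evSet s := by ext; simp [res_patX]

lemma isClopen_evSet {U : Finset (Γ)} (s : Finset (Pat S U)) : IsClopen (evSet s) := by
  have hloc : IsLocallyConstant (patX (S := S) U) := by
    refine (IsLocallyConstant.iff_exists_open _).2 fun x =>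
      ⟨⋂ u ∈ U, (fun y : S.X => y.1 u) ⁻¹' {x.1 u}, ?_, by simp, fun y hy => ?_⟩
    · exact isOpen_biInter_finset fun u _ =>
        (isOpen_discrete {x.1 u}).preimage ((continuous_apply u).comp continuous_subtype_val)
    · simp only [Set.mem_iInter, Set.mem_preimage, Set.mem_singleton_iff] at hy
      exact Subtype.ext (funext fun u => hy u.1 u.2)
  exact ⟨⟨(hloc ((↑s : Set (Pat S U))ᶜ))⟩, hloc (↑s)⟩

/-! ### Translates -/

/-- The translate of a cell. -/
def gmov (γ : Γ) (c : Γ) : Γ := γ * c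

lemma gmov_gmov (γ δ : Γ) (c : Γ) : gmov γ (gmov δ c) = gmov (γ * δ) c := by
  simp [gmov, mul_assoc]

@[simp] lemma gmov_one (c : Γ) : gmov 1 c = c := by simp [gmov]

lemma gmov_injective (γ : Γ) : Function.Injective (gmov γ) := mul_right_injective γ

lemma gA_inv_val (γ : Γ) (x : S.X) (c : Γ) : (gA S γ⁻¹ x).1 c = x.1 (gmov γ c) := by
  show x.1 (γ⁻¹⁻¹ * c) = _
  rw [inv_inv]; rfl

/-- The translate of a finite set of cells. -/
def movF (γ : Γ) (U : Finset (Γ)) : Finset (Γ) :=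
  U.map ⟨gmov γ, gmov_injective γ⟩

lemma mem_movF {γ : Γ} {U : Finset (Γ)} {c : Γ} :
    c ∈ movF γ U ↔ gmov γ⁻¹ c ∈ U := by
  constructor
  · intro h
    obtain ⟨d, hd, rfl⟩ := Finset.mem_map.1 h
    simpa [gmov_gmov] using hd
  · exact fun h => Finset.mem_map.2 ⟨_, h, by simp [gmov_gmov]⟩

lemma gmov_mem_movF {γ : Γ} {U : Finset (Γ)} {c : Γ} (h : c ∈ U) :
    gmov γ c ∈ movF γ U := Finset.mem_map.2 ⟨c, h, rfl⟩

lemma admissible_mov {γ : Γ} {U : Finset (Γ)} {a : Γ → S.A}
    (ha : S.Admissible U a) : S.Admissible (movF γ U) fun c => a (gmov γ⁻¹ c) := by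
  intro δ hδ
  rw [show S.window (fun c => a (gmov γ⁻¹ c)) δ = S.window a (γ⁻¹ * δ) from
    funext fun w => by simp [SFT.window, gmov, mul_assoc]]
  refine ha _ fun w hw => ?_
  have := mem_movF.1 (hδ w hw)
  simpa [gmov, mul_assoc] using this

/-- A pattern moved. -/
def movPat (γ : Γ) {U : Finset (Γ)} (p : Pat S U) : Pat S (movF γ U) :=
  ⟨fun u => p.1 ⟨gmov γ⁻¹ u.1, mem_movF.1 u.2⟩, fun c => wit U p (gmov γ⁻¹ c),
    admissible_mov (wit_admissible p), fun _ => (wit_apply p _).symm⟩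

lemma movPat_patX (γ : Γ) (U : Finset (Γ)) (x : S.X) :
    movPat γ (patX U (gA S γ⁻¹ x)) = patX (movF γ U) x := by
  apply Subtype.ext
  funext u
  show (gA S γ⁻¹ x).1 (gmov γ⁻¹ u.1) = x.1 u.1
  rw [gA_inv_val, gmov_gmov, mul_inv_cancel, gmov_one]

end

end Vale.Agent.P193.Pres
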