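import Vale.Agent.P193.Pres.Extend

/-!
P193, W5: three-cycles of translated pieces with long incomparable prefixes and their relations:
union, split, rotation, reparametrisation, and conjugation on one piece.
-/

namespace Vale.Agent.P193.Pres

open Equiv BH Prefix
open scoped Classical

noncomputable section

/-- Long, pairwise incomparable prefixes of three pieces. -/
def Long3 (p : Conf 3) : Prop := (∀ i, depth ≤ (p i).length) ∧ Dist p

lemma Long3.ok {p : Conf 3} (h : Long3 p) : Ok depth p := ok_of_dist h.2 h.1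

lemma Long3.rot {p : Conf 3} (h : Long3 p) : Long3 fun i => p (i + 1) :=
  ⟨fun _ => h.1 _, fun _ _ hij => h.2 _ _ ((add_left_injective (1 : Fin 3)).ne hij)⟩

lemma Long3.app {p : Conf 3} (h : Long3 p) (b : Bool) : Long3 fun i => p i ++ [b] :=
  ⟨fun i => by have := h.1 i; simp; omega, fun i j hij => Inc.child (h.2 i j hij) b b⟩

variable {Γ : Type} [Group Γ] {S : SFT Γ} {D : KPres Γ}

variable (S D) in
/-- The translations of three pieces. -/
def Th3 (γ : Fin 3 → Γ) (p : Conf 3) : Cov S D :=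
  Th S D (p 0) (γ 0) * Th S D (p 1) (γ 1) * Th S D (p 2) (γ 2)

lemma Th3_mul {p : Conf 3} (hp : Long3 p) (γ δ : Fin 3 → Γ) :
    Th3 S D γ p * Th3 S D δ p = Th3 S D (fun i => γ i * δ i) p := by
  have c : ∀ (i j : Fin 3), i ≠ j → ∀ a b : Γ, Commute (Th S D (p i) a) (Th S D (p j) b) :=
    fun i j hij a b => Th_commute (hp.1 i) (hp.1 j) (hp.2 i j hij) a b
  simp only [Th3, Th_mul (hp.1 _)]
  calc Th S D (p 0) (γ 0) * Th S D (p 1) (γ 1) * Th S D (p 2) (γ 2) *
        (Th S D (p 0) (δ 0) * Th S D (p 1) (δ 1) * Th S D (p 2) (δ 2))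
      = Th S D (p 0) (γ 0) * (Th S D (p 1) (γ 1) * Th S D (p 2) (γ 2) * Th S D (p 0) (δ 0)) *
          Th S D (p 1) (δ 1) * Th S D (p 2) (δ 2) := by group
    _ = Th S D (p 0) (γ 0) * (Th S D (p 0) (δ 0) * (Th S D (p 1) (γ 1) * Th S D (p 2) (γ 2))) *
          Th S D (p 1) (δ 1) * Th S D (p 2) (δ 2) := by
        rw [((c 1 0 (by decide) _ _).mul_left (c 2 0 (by decide) _ _)).eq]
    _ = Th S D (p 0) (γ 0) * Th S D (p 0) (δ 0) * Th S D (p 1) (γ 1) *
          (Th S D (p 2) (γ 2) * Th S D (p 1) (δ 1)) * Th S D (p 2) (δ 2) := by group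
    _ = Th S D (p 0) (γ 0) * Th S D (p 0) (δ 0) * Th S D (p 1) (γ 1) *
          (Th S D (p 1) (δ 1) * Th S D (p 2) (γ 2)) * Th S D (p 2) (δ 2) := by
        rw [(c 2 1 (by decide) _ _).eq]
    _ = _ := by group

lemma Th3_rot {p : Conf 3} (hp : Long3 p) (γ : Fin 3 → Γ) :
    Th3 S D (fun i => γ (i + 1)) (fun i => p (i + 1)) = Th3 S D γ p := by
  simp only [Th3, Fin.reduceAdd]
  rw [mul_assoc (Th S D (p 0) _)]
  exact (((Th_commute (hp.1 0) (hp.1 1) (hp.2 0 1 (by decide)) _ _).mul_right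
    (Th_commute (hp.1 0) (hp.1 2) (hp.2 0 2 (by decide)) _ _))).eq.symm

lemma Th_commute_Th3 {v : Wd} (hv : depth ≤ v.length) {p : Conf 3} (hp : Long3 p)
    (h : ∀ i, Inc v (p i)) (a : Γ) (γ : Fin 3 → Γ) : Commute (Th S D v a) (Th3 S D γ p) :=
  ((Th_commute hv (hp.1 0) (h 0) _ _).mul_right (Th_commute hv (hp.1 1) (h 1) _ _)).mul_right
    (Th_commute hv (hp.1 2) (h 2) _ _)

variable (hr : S.Rigid)

variable (D) in
/-- The three-cycle of translated pieces. -/
def t3 (U : Set S.X) (γ : Fin 3 → Γ) (p : Conf 3) : Cov S D :=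
  Th3 S D γ p * T D hr U p * (Th3 S D γ p)⁻¹

variable {U V : Set S.X} {γ : Fin 3 → Γ} {p : Conf 3}

lemma T_empty (hp : Long3 p) : T D hr (∅ : Set S.X) p = 1 := by
  have he : IsEv (∅ : Set S.X) := isEv_of_isClopen isClopen_empty
  have := T_union (D := D) hr he he (disjoint_bot_left) hp.ok hp.2
  rwa [Set.union_empty, left_eq_mul] at this

lemma t3_empty (hp : Long3 p) : t3 D hr (∅ : Set S.X) γ p = 1 := by
  rw [t3, T_empty (D := D) hr hp, mul_one, mul_inv_cancel]

lemma t3_union (hU : IsEv U) (hV : IsEv V) (hd : Disjoint U V) (hp : Long3 p) :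
    t3 D hr (U ∪ V) γ p = t3 D hr U γ p * t3 D hr V γ p := by
  simp only [t3, T_union (D := D) hr hU hV hd hp.ok hp.2]
  group

lemma t3_rot (hU : IsEv U) (hp : Long3 p) :
    t3 D hr U (fun i => γ (i + 1)) (fun i => p (i + 1)) = t3 D hr U γ p := by
  simp only [t3, Th3_rot hp, T_rot (D := D) hr hU hp.ok hp.2]

lemma t3_rot_by (hU : IsEv U) (hp : Long3 p) : ∀ j : Fin 3,
    t3 D hr U (fun i => γ (i + j)) (fun i => p (i + j)) = t3 D hr U γ p := by
  intro j
  fin_cases j
  · simp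
  · exact t3_rot (D := D) hr hU hp
  · have h := t3_rot (D := D) hr hU (γ := fun i => γ (i + 1)) hp.rot
    rw [t3_rot (D := D) hr hU hp] at h
    rw [← h]
    congr 1 <;> funext i <;> fin_cases i <;> rfl

lemma t3_repar (hU : IsEv U) (hp : Long3 p) (g : Γ) :
    t3 D hr (shiftSet g U) (fun i => γ i * g⁻¹) p = t3 D hr U γ p := by
  have e : T D hr (shiftSet g U) p =
      Th3 S D (fun _ => g) p * T D hr U p * (Th3 S D (fun _ => g) p)⁻¹ :=
    (T_uniform (D := D) hr hU hp.ok hp.2 g).symm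
  have h : Th3 S D (fun i => γ i * g⁻¹) p * Th3 S D (fun _ => g) p = Th3 S D γ p := by
    rw [Th3_mul hp]
    simp
  rw [t3, t3, e, ← h]
  group

lemma t3_split (hU : IsEv U) (hp : Long3 p) :
    t3 D hr U γ p =
      t3 D hr U γ (fun i => p i ++ [false]) * t3 D hr U γ (fun i => p i ++ [true]) := by
  have h0 := hp.app false
  have h1 := hp.app true
  have hx : ∀ i j, Inc (p i ++ [false]) (p j ++ [true]) := fun i j => by
    rcases eq_or_ne i j with rfl | hij
    · exact inc_snoc _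
    · exact Inc.child (hp.2 i j hij) _ _
  have cT : Commute (Th3 S D γ fun i => p i ++ [false]) (T D hr U fun i => p i ++ [true]) :=
    ((Th_T_commute (D := D) hr hU (h0.1 0) h1.ok h1.2 (hx 0) _).mul_left
      (Th_T_commute (D := D) hr hU (h0.1 1) h1.ok h1.2 (hx 1) _)).mul_left
      (Th_T_commute (D := D) hr hU (h0.1 2) h1.ok h1.2 (hx 2) _)
  have cT' : Commute (Th3 S D γ fun i => p i ++ [true]) (T D hr U fun i => p i ++ [false]) :=
    ((Th_T_commute (D := D) hr hU (h1.1 0) h0.ok h0.2 (fun i => (hx i 0).symm) _).mul_left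
      (Th_T_commute (D := D) hr hU (h1.1 1) h0.ok h0.2 (fun i => (hx i 1).symm) _)).mul_left
      (Th_T_commute (D := D) hr hU (h1.1 2) h0.ok h0.2 (fun i => (hx i 2).symm) _)
  have cA : Commute (Th3 S D γ fun i => p i ++ [false]) (Th3 S D γ fun i => p i ++ [true]) :=
    ((Th_commute_Th3 (h0.1 0) h1 (hx 0) _ _).mul_left
      (Th_commute_Th3 (h0.1 1) h1 (hx 1) _ _)).mul_left
      (Th_commute_Th3 (h0.1 2) h1 (hx 2) _ _)
  have eA : Th3 S D γ p =
      Th3 S D γ (fun i => p i ++ [false]) * Th3 S D γ (fun i => p i ++ [true]) := by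
    have c : ∀ i j, Commute (Th S D (p i ++ [true]) (γ i)) (Th S D (p j ++ [false]) (γ j)) :=
      fun i j => Th_commute (h1.1 i) (h0.1 j) (hx j i).symm _ _
    simp only [Th3]
    rw [Th_split (hp.1 0), Th_split (hp.1 1), Th_split (hp.1 2)]
    generalize Th S D (p 0 ++ [false]) (γ 0) = a0 at c ⊢
    calc _ = a0 * (Th S D (p 0 ++ [true]) (γ 0) * Th S D (p 1 ++ [false]) (γ 1)) *
          (Th S D (p 1 ++ [true]) (γ 1) * Th S D (p 2 ++ [false]) (γ 2)) *
            Th S D (p 2 ++ [true]) (γ 2) := by group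
      _ = a0 * (Th S D (p 1 ++ [false]) (γ 1) * Th S D (p 0 ++ [true]) (γ 0)) *
          (Th S D (p 2 ++ [false]) (γ 2) * Th S D (p 1 ++ [true]) (γ 1)) *
            Th S D (p 2 ++ [true]) (γ 2) := by
          rw [(Th_commute (h1.1 0) (h0.1 1) (hx 1 0).symm _ _).eq,
            (Th_commute (h1.1 1) (h0.1 2) (hx 2 1).symm _ _).eq]
      _ = a0 * Th S D (p 1 ++ [false]) (γ 1) *
          (Th S D (p 0 ++ [true]) (γ 0) * Th S D (p 2 ++ [false]) (γ 2)) *
            Th S D (p 1 ++ [true]) (γ 1) * Th S D (p 2 ++ [true]) (γ 2) := by group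
      _ = a0 * Th S D (p 1 ++ [false]) (γ 1) *
          (Th S D (p 2 ++ [false]) (γ 2) * Th S D (p 0 ++ [true]) (γ 0)) *
            Th S D (p 1 ++ [true]) (γ 1) * Th S D (p 2 ++ [true]) (γ 2) := by
          rw [(Th_commute (h1.1 0) (h0.1 2) (hx 2 0).symm _ _).eq]
      _ = _ := by group
  rw [t3, t3, t3, eA, T_split (D := D) hr hU hp.ok hp.2]
  set A := Th3 S D γ fun i => p i ++ [false]
  set B := Th3 S D γ fun i => p i ++ [true]
  set X := T D hr U fun i => p i ++ [false]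
  set Y := T D hr U fun i => p i ++ [true]
  calc A * B * (X * Y) * (A * B)⁻¹ = A * (B * X) * Y * (B⁻¹ * A⁻¹) := by group
    _ = A * (X * B) * Y * (B⁻¹ * A⁻¹) := by rw [cT'.eq]
    _ = A * X * (B * Y * B⁻¹ * A⁻¹) := by group
    _ = A * X * (A⁻¹ * (B * Y * B⁻¹)) := by
        rw [((cA.inv_left.mul_right cT.inv_left).mul_right cA.inv_left.inv_right).symm.eq]
    _ = _ := by group

/-- Cycles with prefixes apart commute. -/
lemma t3_commute (hU : IsEv U) (hV : IsEv V) (hp : Long3 p) {δ : Fin 3 → Γ} {q : Conf 3}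
    (hq : Long3 q) (h : ∀ i j, Inc (q i) (p j)) :
    Commute (t3 D hr U γ p) (t3 D hr V δ q) := by
  have cA : Commute (Th3 S D γ p) (T D hr V q) :=
    ((Th_T_commute (D := D) hr hV (hp.1 0) hq.ok hq.2 (fun i => (h i 0).symm) _).mul_left
      (Th_T_commute (D := D) hr hV (hp.1 1) hq.ok hq.2 (fun i => (h i 1).symm) _)).mul_left
      (Th_T_commute (D := D) hr hV (hp.1 2) hq.ok hq.2 (fun i => (h i 2).symm) _)
  have cB : Commute (Th3 S D δ q) (T D hr U p) :=
    ((Th_T_commute (D := D) hr hU (hq.1 0) hp.ok hp.2 (h 0) _).mul_left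
      (Th_T_commute (D := D) hr hU (hq.1 1) hp.ok hp.2 (h 1) _)).mul_left
      (Th_T_commute (D := D) hr hU (hq.1 2) hp.ok hp.2 (h 2) _)
  have cAB : Commute (Th3 S D γ p) (Th3 S D δ q) :=
    ((Th_commute_Th3 (hp.1 0) hq (fun i => (h i 0).symm) _ _).mul_left
      (Th_commute_Th3 (hp.1 1) hq (fun i => (h i 1).symm) _ _)).mul_left
      (Th_commute_Th3 (hp.1 2) hq (fun i => (h i 2).symm) _ _)
  have cT : Commute (T D hr U p) (T D hr V q) := by
    have hVU : IsEv (V ∩ U) := isEv_of_isClopen (hV.isClopen.inter hU.isClopen)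
    have hVU' : IsEv (V \ U) := isEv_of_isClopen (hV.isClopen.diff hU.isClopen)
    have hne : ∀ i j, q i ≠ p j := fun i j e => (h i j).1 (e ▸ List.prefix_rfl)
    have := T_conj (D := D) hr hU hV hp.ok hp.2 hq.ok hq.2 fun i j => Or.inr (h i j)
    rw [show (fun i => rotp p (q i)) = q from funext fun i => by simp [rotp, hne],
      ← T_union (D := D) hr hVU hVU' (Set.disjoint_sdiff_inter.symm) hq.ok hq.2,
      Set.inter_union_sdiff] at this
    exact mul_inv_eq_iff_eq_mul.1 this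
  have k1 : Commute (Th3 S D γ p) (t3 D hr V δ q) := (cAB.mul_right cA).mul_right cAB.inv_right
  have k2 : Commute (T D hr U p) (t3 D hr V δ q) :=
    (cB.symm.mul_right cT).mul_right cB.symm.inv_right
  exact (k1.mul_left k2).mul_left k1.inv_left

/-- Conjugation when the first prefixes agree and all others are apart. -/
lemma t3_hit (hU : IsEv U) (hV : IsEv V) (hp : Long3 p) {δ : Fin 3 → Γ} {q : Conf 3}
    (hq : Long3 q) (h0 : q 0 = p 0) (hd0 : δ 0 = γ 0) (h1 : ∀ j, Inc (q 1) (p j))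
    (h2 : ∀ j, Inc (q 2) (p j)) :
    t3 D hr U γ p * t3 D hr V δ q * (t3 D hr U γ p)⁻¹ =
      t3 D hr (V ∩ U) ![γ 1, δ 1, δ 2] ![p 1, q 1, q 2] * t3 D hr (V \ U) δ q := by
  have hVU : IsEv (V ∩ U) := isEv_of_isClopen (hV.isClopen.inter hU.isClopen)
  have hVU' : IsEv (V \ U) := isEv_of_isClopen (hV.isClopen.diff hU.isClopen)
  have hn : Long3 ![p 1, q 1, q 2] := ⟨fun i => by
      fin_cases i
      exacts [hp.1 1, hq.1 1, hq.1 2],
    fun i j hij => by
      fin_cases i <;> fin_cases j <;> first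
        | exact absurd rfl hij
        | exact (h1 1).symm
        | exact (h2 1).symm
        | exact h1 1
        | exact h2 1
        | exact hq.2 _ _ (by decide)⟩
  have i01 : Inc (p 0) (p 1) := hp.2 0 1 (by decide)
  have i02 : Inc (p 0) (p 2) := hp.2 0 2 (by decide)
  have i12 : Inc (p 1) (p 2) := hp.2 1 2 (by decide)
  have cth : ∀ {v w : Wd}, depth ≤ v.length → depth ≤ w.length → Inc v w → ∀ a b : Γ,
      Commute (Th S D v a) (Th S D w b) := fun hv hw hvw a b => Th_commute hv hw hvw a b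
  set a0 := Th S D (p 0) (γ 0) with ha0
  set a1 := Th S D (p 1) (γ 1) with ha1
  set a2 := Th S D (p 2) (γ 2) with ha2
  set b1 := Th S D (q 1) (δ 1) with hb1
  set b2 := Th S D (q 2) (δ 2) with hb2
  -- conjugation by the translation of all five pieces
  set Ψ := a0 * a1 * a2 * b1 * b2 with hΨ
  have c01 : Commute a0 a1 := cth (hp.1 0) (hp.1 1) i01 _ _
  have c02 : Commute a0 a2 := cth (hp.1 0) (hp.1 2) i02 _ _
  have c12 : Commute a1 a2 := cth (hp.1 1) (hp.1 2) i12 _ _
  have ab : ∀ j, Commute (Th S D (p j) (γ j)) b1 ∧ Commute (Th S D (p j) (γ j)) b2 := fun j =>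
    ⟨cth (hp.1 j) (hq.1 1) (h1 j).symm _ _, cth (hp.1 j) (hq.1 2) (h2 j).symm _ _⟩
  have eP : Ψ = Th3 S D γ p * (b1 * b2) := by
    simp only [hΨ, Th3, ← ha0, ← ha1, ← ha2]; group
  have eQ : Ψ = Th3 S D δ q * (a1 * a2) := by
    have : Th3 S D δ q = a0 * b1 * b2 := by
      simp only [Th3, h0, hd0, ← ha0, ← hb1, ← hb2]
    rw [this, hΨ]
    calc a0 * a1 * a2 * b1 * b2 = a0 * (a1 * a2 * (b1 * b2)) := by group
      _ = a0 * (b1 * b2 * (a1 * a2)) := by
          rw [(((ab 1).1.mul_left (ab 2).1).mul_right ((ab 1).2.mul_left (ab 2).2)).eq]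
      _ = _ := by group
  have eN : Ψ = Th3 S D ![γ 1, δ 1, δ 2] ![p 1, q 1, q 2] * (a0 * a2) := by
    have : Th3 S D ![γ 1, δ 1, δ 2] ![p 1, q 1, q 2] = a1 * b1 * b2 := by
      simp only [Th3, Matrix.cons_val_zero, Matrix.cons_val_one, Matrix.cons_val, ← ha1, ← hb1,
        ← hb2]
    rw [this, hΨ]
    calc a0 * a1 * a2 * b1 * b2 = a0 * a1 * (a2 * (b1 * b2)) := by group
      _ = a1 * a0 * (a2 * (b1 * b2)) := by rw [c01.eq]
      _ = a1 * (a0 * a2 * (b1 * b2)) := by group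
      _ = a1 * (b1 * b2 * (a0 * a2)) := by
          rw [(((ab 0).1.mul_left (ab 2).1).mul_right ((ab 0).2.mul_left (ab 2).2)).eq]
      _ = _ := by group
  have lift : ∀ {X : Set S.X}, IsEv X → ∀ {r : Conf 3} {ε : Fin 3 → Γ} {z : Cov S D},
      Ψ = Th3 S D ε r * z → Commute z (T D hr X r) →
        Ψ * T D hr X r * Ψ⁻¹ = t3 D hr X ε r := by
    intro X _ r ε z e hz
    rw [e, t3, mul_assoc (Th3 S D ε r) z, hz.eq]
    group
  have kP := lift hU eP ((Th_T_commute (D := D) hr hU (hq.1 1) hp.ok hp.2 h1 _).mul_left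
    (Th_T_commute (D := D) hr hU (hq.1 2) hp.ok hp.2 h2 _))
  have f1 : ∀ j, j ≠ 0 → ∀ i, Inc (p j) (q i) := fun j hj i => by
    fin_cases i
    · show Inc (p j) (q 0)
      rw [h0]
      exact hp.2 j 0 hj
    · exact (h1 j).symm
    · exact (h2 j).symm
  have hz : ∀ {X : Set S.X}, IsEv X → Commute (a1 * a2) (T D hr X q) := fun hX =>
    (Th_T_commute (D := D) hr hX (hp.1 1) hq.ok hq.2 (f1 1 (by decide)) _).mul_left
      (Th_T_commute (D := D) hr hX (hp.1 2) hq.ok hq.2 (f1 2 (by decide)) _)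
  have kQ := lift hV eQ (hz hV)
  have kQ' := lift hVU' eQ (hz hVU')
  have f2 : ∀ j, j ≠ 1 → ∀ i, Inc (p j) ((![p 1, q 1, q 2] : Conf 3) i) := fun j hj i => by
    fin_cases i
    exacts [hp.2 j 1 hj, (h1 j).symm, (h2 j).symm]
  have kN := lift hVU eN
    ((Th_T_commute (D := D) hr hVU (hp.1 0) hn.ok hn.2 (f2 0 (by decide)) _).mul_left
      (Th_T_commute (D := D) hr hVU (hp.1 2) hn.ok hn.2 (f2 2 (by decide)) _))
  have key := T_conj (D := D) hr hU hV hp.ok hp.2 hq.ok hq.2 (fun i j => by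
    fin_cases i
    · show q 0 = p j ∨ Inc (q 0) (p j)
      rw [h0]
      exact (eq_or_ne 0 j).imp (congrArg p) (hp.2 0 j)
    · exact Or.inr (h1 j)
    · exact Or.inr (h2 j))
  have er : (fun i => rotp p (q i)) = ![p 1, q 1, q 2] := by
    have hne : ∀ i j, i ≠ 0 → q i ≠ p j := fun i j hi e => by
      fin_cases i
      · exact hi rfl
      · exact (h1 j).1 (e ▸ List.prefix_rfl)
      · exact (h2 j).1 (e ▸ List.prefix_rfl)
    funext i
    fin_cases i
    · simp [rotp, h0]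
    · simp [rotp, hne 1 _ (by decide)]
    · simp [rotp, hne 2 _ (by decide)]
  rw [er] at key
  rw [← kP, ← kQ, ← kN, ← kQ', show Ψ * T D hr U p * Ψ⁻¹ * (Ψ * T D hr V q * Ψ⁻¹) *
    (Ψ * T D hr U p * Ψ⁻¹)⁻¹ = Ψ * (T D hr U p * T D hr V q * (T D hr U p)⁻¹) * Ψ⁻¹ by group, key]
  group

/-- A cycle acting on one piece under one of its prefixes, the other two being apart. -/
lemma t3_piece (r : Wd) : ∀ {U : Set S.X} {p : Conf 3}, IsEv U → Long3 p →
    ∀ {γ δ : Fin 3 → Γ} {V : Set S.X} {q : Conf 3}, IsEv V → Long3 q →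
      ∀ j : Fin 3, q 0 = p j ++ r → (∀ i, Inc (q 1) (p i)) → (∀ i, Inc (q 2) (p i)) →
        t3 D hr U γ p * t3 D hr V δ q * (t3 D hr U γ p)⁻¹ =
          t3 D hr (V ∩ shiftSet ((δ 0)⁻¹ * γ j) U)
              ![γ (j + 1) * (γ j)⁻¹ * δ 0, δ 1, δ 2] ![p (j + 1) ++ r, q 1, q 2] *
            t3 D hr (V \ shiftSet ((δ 0)⁻¹ * γ j) U) δ q := by
  induction r with
  | nil =>
    intro U p hU hp γ δ V q hV hq j h0 h1 h2
    rw [List.append_nil] at h0 ⊢
    set g := (δ 0)⁻¹ * γ j with hg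
    rw [← t3_rot_by (D := D) hr hU (γ := γ) hp j]
    have hp' : Long3 fun i => p (i + j) :=
      ⟨fun i => hp.1 _, fun a b hab => hp.2 _ _ ((add_left_injective j).ne hab)⟩
    rw [← t3_repar (D := D) hr hU (γ := fun i => γ (i + j)) hp' g]
    have h := t3_hit (D := D) hr (γ := fun i => γ (i + j) * g⁻¹) (δ := δ) (isEv_shiftSet g hU) hV
      hp' hq (by simpa using h0) (by simp [hg]) (fun i => h1 _) (fun i => h2 _)
    rw [h]
    simp only [hg, mul_inv_rev, inv_inv, add_comm (1 : Fin 3) j, mul_assoc]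
  | cons b r ih =>
    intro U p hU hp γ δ V q hV hq j h0 h1 h2
    have h0' : q 0 = p j ++ [b] ++ r := by rw [h0]; simp
    have hb := hp.app b
    have hpre : ∀ (c : Bool) (i : Fin 3), p i <+: p i ++ [c] := fun c i => List.prefix_append _ _
    have hstep := ih hU hb (γ := γ) (δ := δ) hV hq j h0'
      (fun i => (h1 i).of_prefix (hpre b i)) (fun i => (h2 i).of_prefix (hpre b i))
    have hq0 : ∀ i, Inc (q 0) (p i ++ [!b]) := fun i => by
      rw [h0']
      rcases eq_or_ne i j with rfl | hij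
      · exact ((inc_iff_ne (by simp)).2 (by simp)).symm.of_prefix (List.prefix_append _ r) |>.symm
      · exact ((Inc.child (hp.2 i j hij) (!b) b).of_prefix (List.prefix_append _ r)).symm
    have hqall : ∀ k i, Inc (q k) (p i ++ [!b]) := fun k i => by
      fin_cases k
      exacts [hq0 i, (h1 i).of_prefix (hpre _ i), (h2 i).of_prefix (hpre _ i)]
    have hn : Long3 ![p (j + 1) ++ [b] ++ r, q 1, q 2] := by
      have hi : ∀ k, k ≠ 0 → Inc (p (j + 1) ++ [b] ++ r) (q k) := fun k hk => by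
        have : Inc (q k) (p (j + 1)) := by
          fin_cases k
          exacts [absurd rfl hk, h1 _, h2 _]
        exact (this.of_prefix ((hpre b _).trans (List.prefix_append _ r))).symm
      refine ⟨fun i => ?_, fun i i' hii => ?_⟩
      · fin_cases i
        · have := hp.1 (j + 1); simp; omega
        · exact hq.1 1
        · exact hq.1 2
      · fin_cases i <;> fin_cases i' <;> first
          | exact absurd rfl hii
          | exact hi _ (by decide)
          | exact (hi _ (by decide)).symm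
          | exact hq.2 _ _ (by decide)
    have hall : ∀ k i, Inc ((![p (j + 1) ++ [b] ++ r, q 1, q 2] : Conf 3) k) (p i ++ [!b]) :=
      fun k i => by
      fin_cases k
      · show Inc (p (j + 1) ++ [b] ++ r) (p i ++ [!b])
        rcases eq_or_ne i (j + 1) with rfl | hij
        · exact ((inc_iff_ne (by simp)).2 (by simp)).symm.of_prefix (List.prefix_append _ r) |>.symm
        · exact ((Inc.child (hp.2 i (j + 1) hij) (!b) b).of_prefix (List.prefix_append _ r)).symm
      · exact hqall 1 i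
      · exact hqall 2 i
    have hres : p (j + 1) ++ b :: r = p (j + 1) ++ [b] ++ r := by simp
    rw [hres]
    set W := shiftSet ((δ 0)⁻¹ * γ j) U with hW
    have hWc := (isEv_shiftSet ((δ 0)⁻¹ * γ j) hU).isClopen
    have eA : IsEv (V ∩ W) := isEv_of_isClopen (hV.isClopen.inter hWc)
    have eB : IsEv (V \ W) := isEv_of_isClopen (hV.isClopen.diff hWc)
    have c1 := t3_commute (D := D) hr (γ := γ) (δ := δ) hU hV (hp.app (!b)) hq hqall
    have c2 := (t3_commute (D := D) hr (γ := γ)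
        (δ := ![γ (j + 1) * (γ j)⁻¹ * δ 0, δ 1, δ 2]) hU eA (hp.app (!b)) hn hall).mul_right
      (t3_commute (D := D) hr (γ := γ) (δ := δ) hU eB (hp.app (!b)) hq hqall)
    rw [t3_split (D := D) hr hU hp]
    cases b
    · rw [Bool.not_false] at c1
      set A := t3 D hr U γ fun i => p i ++ [false]
      set B := t3 D hr U γ fun i => p i ++ [true]
      rw [show A * B * t3 D hr V δ q * (A * B)⁻¹ =
        A * (B * t3 D hr V δ q * B⁻¹) * A⁻¹ by group, c1.eq, mul_inv_cancel_right]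
      exact hstep
    · rw [Bool.not_true] at c2
      set A := t3 D hr U γ fun i => p i ++ [false]
      set B := t3 D hr U γ fun i => p i ++ [true]
      rw [show A * B * t3 D hr V δ q * (A * B)⁻¹ =
        A * (B * t3 D hr V δ q * B⁻¹) * A⁻¹ by group, hstep, c2.eq, mul_inv_cancel_right]

end

end Vale.Agent.P193.Pres
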