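import Vale.Agent.P193.Pres.Group
import Vale.Agent.P196.Pres.Join

/-!
P193, W5: colourings on translated windows in the presented group and their algebras.
-/

namespace Vale.Agent.P193.Pres

open Equiv BH Prefix
open scoped Classical
open Vale.Agent.P196.Pres (World Alg pull isThreeCycle_conj)
open Vale.Agent.P196.Simple (cyc cyc_apply exists_cyc)

noncomputable section

variable {Γ : Type} [Group Γ] {S : SFT Γ} {D : KPres Γ}

/-- The cylinder of a colour. -/
def cs (c : Col depth) : SW := ⟨cw c, Or.inl (length_cw c)⟩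

lemma inc_cs {a b : Col depth} (h : a ≠ b) : Inc (cs a).1 (cs b).1 := inc_cw h

/-- Translations colour by colour. -/
def tr : (Col depth → Γ) →* Cov S D :=
  MonoidHom.noncommPiCoprod (fun c => th (S := S) (D := D) (cs c))
    fun _ _ h γ δ => th_commute (inc_cs h) γ δ

lemma tr_single (c : Col depth) (γ : Γ) :
    tr (S := S) (D := D) (Pi.mulSingle c γ) = th (cs c) γ :=
  MonoidHom.noncommPiCoprod_mulSingle _ _ _

variable (S) in
/-- Translations colour by colour on the points. -/
def trC : (Col depth → Γ) →* Perm S.Pt where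
  toFun t :=
    { toFun := fun p => (gA S (t (col depth p.2)) p.1, p.2)
      invFun := fun p => (gA S (t (col depth p.2))⁻¹ p.1, p.2)
      left_inv := fun p => by simp
      right_inv := fun p => by simp }
  map_one' := Equiv.ext fun p => by simp
  map_mul' s t := Equiv.ext fun p => by simp [Perm.mul_apply]

lemma trC_apply (t : Col depth → Γ) (x : S.X) (w : ℕ → Bool) :
    trC S t (x, w) = (gA S (t (col depth w)) x, w) := rfl

lemma proj_tr (t : Col depth → Γ) : proj S D (tr t) = trC S t := by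
  refine DFunLike.congr_fun (MonoidHom.pi_ext (f := (proj S D).comp tr) (g := trC S) fun c γ => ?_) t
  rw [MonoidHom.comp_apply, tr_single, proj_th]
  refine Equiv.ext fun ⟨x, w⟩ => ?_
  rw [trC_apply]
  by_cases h : InCyl (cs c).1 w
  · rw [trP_in h, inCyl_cw.1 h, Pi.mulSingle_eq_same]
  · rw [trP_out h, Pi.mulSingle_eq_of_ne fun e => h (inCyl_cw.2 e), map_one]
    rfl

/-- The translated set. -/
def shiftSet (γ : Γ) (s : Set S.X) : Set S.X := {x | gA S γ⁻¹ x ∈ s}

lemma mem_shiftSet {γ : Γ} {s : Set S.X} {x : S.X} :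
    x ∈ shiftSet γ s ↔ gA S γ⁻¹ x ∈ s := Iff.rfl

@[simp] lemma shiftSet_one (s : Set S.X) : shiftSet (1 : Γ) s = s := by
  ext; simp [mem_shiftSet]

lemma shiftSet_shiftSet (γ δ : Γ) (s : Set S.X) :
    shiftSet γ (shiftSet δ s) = shiftSet (γ * δ) s := by
  ext; simp [mem_shiftSet]

/-- Translations constant on the moved colours carry colourings. -/
lemma trC_conj {t : Col depth → Γ} {γ : Γ} {σ : Perm (Col depth)}
    (ht : ∀ a, σ a ≠ a → t a = γ) (s : Set S.X) :
    trC S t * colP S (ind S s σ) * (trC S t)⁻¹ = colP S (ind S (shiftSet γ s) σ) := by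
  refine mul_inv_eq_iff_eq_mul.2 (Equiv.ext fun ⟨x, w⟩ => ?_)
  rw [← cat_col w (N := depth)]
  simp only [Perm.mul_apply, trC_apply, colP_cat, col_cat]
  by_cases hw : σ (col depth w) = col depth w
  · have : ∀ P : Prop, [Decidable P] → (if P then σ else 1) (col depth w) = col depth w :=
      fun P _ => by split_ifs <;> simp [hw]
    simp [ind, this]
  · have hσ : σ (σ (col depth w)) ≠ σ (col depth w) := fun h => hw (σ.injective h)
    by_cases hx : x ∈ s <;> simp [ind, mem_shiftSet, hx, ht _ hw, ht _ hσ]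

/-! ### Colourings on windows -/

/-- The colouring generator of a window. -/
def eps (w : Bool) (P : Finset (Pat S (wcells S w))) (σ : Perm (Col depth)) :
    Cov S D :=
  PresentedGroup.of (Sum.inr (Sum.inr ⟨w, P, σ⟩))

lemma short_eps (w : Bool) (P : Finset (Pat S (wcells S w))) (σ : Perm (Col depth)) :
    Short 1 (eps (D := D) w P σ) := short_of _

lemma proj_eps {w : Bool} (P : Finset (Pat S (wcells S w))) {σ : Perm (Col depth)}
    (hσ : σ.IsThreeCycle) : proj S D (eps w P σ) = colP S (ind S (evSet P) σ) := by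
  rw [eps, proj_of]
  exact if_pos hσ

lemma eps_eq {w w' : Bool} {P : Finset (Pat S (wcells S w))}
    {P' : Finset (Pat S (wcells S w'))} (h : evSet P = evSet P') {σ : Perm (Col depth)}
    (hσ : σ.IsThreeCycle) : eps (D := D) w P σ = eps w' P' σ :=
  (short_eps _ _ _).eq (short_eps _ _ _) (le_bound (by norm_num)) (by
    rw [proj_eps _ hσ, proj_eps _ hσ, h])

lemma tr_commute_eps {t : Col depth → Γ} {σ : Perm (Col depth)} (hσ : σ.IsThreeCycle)
    (ht : ∀ a ∈ σ.support, t a = 1) (w : Bool) (P : Finset (Pat S (wcells S w))) :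
    Commute (tr t) (eps (D := D) w P σ) := by
  suffices hm : t ∈ (Subgroup.centralizer {eps (D := D) w P σ}).comap tr from
    Subgroup.mem_centralizer_singleton_iff.1 hm
  refine Subgroup.pi_mem_of_mulSingle_mem t fun b => ?_
  by_cases hb : b ∈ σ.support
  · rw [ht b hb, Pi.mulSingle_one]; exact one_mem _
  rw [Subgroup.mem_comap, tr_single]
  exact gam_top (D := D)
    (H := (Subgroup.centralizer {eps (D := D) w P σ}).comap (th (cs b))) (fun j => by
      rw [Subgroup.mem_comap, Subgroup.mem_centralizer_singleton_iff]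
      refine Short.eq ((short_th_tg _ j).mul (short_eps _ _ _))
        ((short_eps _ _ _).mul (short_th_tg _ j)) (le_bound (by norm_num)) ?_
      rw [map_mul, map_mul, ← tr_single, proj_tr, proj_eps P hσ]
      have e := trC_conj (t := Pi.mulSingle b (tg D j)) (γ := 1) (σ := σ) (fun a ha =>
        Pi.mulSingle_eq_of_ne (M := fun _ => Γ)
          (by rintro rfl; exact hb (Perm.mem_support.2 ha)) _) (evSet P)
      rw [shiftSet_one] at e
      exact mul_inv_eq_iff_eq_mul.1 e) (t b)

/-- The global translation. -/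
def glob : Γ →* Cov S D :=
  tr.comp (MonoidHom.pi fun _ : Col depth => MonoidHom.id (Γ))

lemma glob_apply (γ : Γ) : glob (S := S) (D := D) γ = tr fun _ => γ := rfl

/-- The colouring `σ` on the window moved by `γ`. -/
def Xv (w : Bool) (γ : Γ) (P : Finset (Pat S (wcells S w)))
    (σ : Perm (Col depth)) : Cov S D :=
  glob γ * eps w P σ * (glob γ)⁻¹

@[simp] lemma Xv_one (w : Bool) (P : Finset (Pat S (wcells S w)))
    (σ : Perm (Col depth)) : Xv (D := D) w 1 P σ = eps w P σ := by simp [Xv]

lemma Xv_eq {w : Bool} {γ : Γ} {P : Finset (Pat S (wcells S w))}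
    {σ : Perm (Col depth)} (hσ : σ.IsThreeCycle) {t : Col depth → Γ}
    (ht : ∀ a ∈ σ.support, t a = γ) : Xv (D := D) w γ P σ = tr t * eps w P σ * (tr t)⁻¹ := by
  have hc := tr_commute_eps (D := D) hσ (t := (fun _ : Col depth => γ⁻¹) * t)
    (fun a ha => by simp [ht a ha]) w P
  have e : t = (fun _ : Col depth => γ) * ((fun _ : Col depth => γ⁻¹) * t) := by ext a; simp
  rw [e, map_mul tr, mul_assoc (tr fun _ => γ), hc.eq, ← glob_apply, Xv]
  group

lemma proj_Xv (w : Bool) (γ : Γ) (P : Finset (Pat S (wcells S w)))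
    {σ : Perm (Col depth)} (hσ : σ.IsThreeCycle) :
    proj S D (Xv w γ P σ) = colP S (ind S (shiftSet γ (evSet P)) σ) := by
  rw [Xv, map_mul, map_mul, map_inv, glob_apply, proj_tr, proj_eps P hσ,
    trC_conj fun _ _ => rfl]

/-- A translation on three colours. -/
def tri (σ : Perm (Col depth)) (γ : Γ) : Col depth → Γ :=
  fun a => if a ∈ σ.support then γ else 1

lemma short_tr_tri {σ : Perm (Col depth)} (hσ : σ.IsThreeCycle) {γ : Γ} {n : ℕ}
    (h : ∀ a, Short n (th (S := S) (D := D) a γ)) :
    Short (n + n + n) (tr (S := S) (D := D) (tri σ γ)) := by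
  obtain ⟨a, b, c, hab, hac, hbc, hs⟩ := Finset.card_eq_three.1 hσ.card_support
  have e : tri σ γ = Pi.mulSingle a γ * Pi.mulSingle b γ * Pi.mulSingle c γ := by
    funext x
    simp only [tri, hs, Finset.mem_insert, Finset.mem_singleton, Pi.mul_apply, Pi.mulSingle_apply]
    by_cases h1 : x = a <;> by_cases h2 : x = b <;> by_cases h3 : x = c <;> simp_all
  rw [e, map_mul tr, map_mul tr, tr_single, tr_single, tr_single]
  exact ((h _).mul (h _)).mul (h _)

lemma tri_apply {σ : Perm (Col depth)} {γ : Γ} {a : Col depth} (h : a ∈ σ.support) :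
    tri σ γ a = γ := if_pos h

lemma Xv_univ (w : Bool) (γ : Γ) {σ : Perm (Col depth)} (hσ : σ.IsThreeCycle) :
    Xv (S := S) (D := D) w γ Finset.univ σ = eps false Finset.univ σ := by
  rw [← eps_eq (w := w) (P := Finset.univ) (by rw [evSet_univ, evSet_univ]) hσ]
  let H : Subgroup (Γ) :=
    (Subgroup.centralizer {eps (S := S) (D := D) w Finset.univ σ}).comap glob
  have hH : γ ∈ H := gam_top (D := D) (fun j => by
    rw [Subgroup.mem_comap, Subgroup.mem_centralizer_singleton_iff]
    refine mul_inv_eq_iff_eq_mul.1 ?_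
    show Xv w (tg D j) Finset.univ σ = _
    rw [Xv_eq hσ (t := tri σ (tg D j)) fun a ha => tri_apply ha]
    have hs := short_tr_tri (S := S) (D := D) hσ fun a => short_th_tg a j
    refine Short.eq ((hs.mul (short_eps _ _ _)).mul hs.inv) (short_eps _ _ _)
      (le_bound (by norm_num)) ?_
    rw [map_mul, map_mul, map_inv, proj_tr, proj_eps _ hσ,
      trC_conj fun a ha => tri_apply (Perm.mem_support.2 ha), evSet_univ]
    rfl) γ
  rw [Xv, (Subgroup.mem_centralizer_singleton_iff.1 hH : glob γ * _ = _), mul_inv_cancel_right]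

lemma Xv_commute {w w' : Bool} {γ δ : Γ} {P : Finset (Pat S (wcells S w))}
    {Q : Finset (Pat S (wcells S w'))} {σ τ : Perm (Col depth)} (hσ : σ.IsThreeCycle)
    (hτ : τ.IsThreeCycle) (hd : Disjoint σ.support τ.support) :
    Commute (Xv (D := D) w γ P σ) (Xv w' δ Q τ) := by
  let t : Col depth → Γ := fun a => if a ∈ σ.support then γ else δ
  rw [Xv_eq hσ (t := t) fun a ha => if_pos ha,
    Xv_eq hτ (t := t) fun a ha => if_neg (Finset.disjoint_right.1 hd ha)]
  refine Commute.map ?_ (MulAut.conj (tr t)).toMonoidHom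
  refine Short.eq ((short_eps _ _ _).mul (short_eps _ _ _))
    ((short_eps _ _ _).mul (short_eps _ _ _)) (le_bound (by norm_num)) ?_
  rw [map_mul, map_mul, proj_eps P hσ, proj_eps Q hτ, ← map_mul, ← map_mul]
  refine colP_ext fun x => ?_
  have hc : Commute σ τ := (Perm.disjoint_iff_disjoint_support.2 hd).commute
  simp only [Pi.mul_apply, ind]
  split_ifs <;> simp [hc.eq]

lemma eps_empty (w : Bool) {σ : Perm (Col depth)} (hσ : σ.IsThreeCycle) :
    eps (S := S) (D := D) w ∅ σ = 1 :=
  (short_eps _ _ _).eq short_one (le_bound (by norm_num)) (by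
    rw [proj_eps _ hσ, map_one, ← map_one (colP S)]
    refine colP_ext fun x => ?_
    simp [ind])

lemma window_conj (w : Bool) (γ : Γ) (P Q : Finset (Pat S (wcells S w)))
    {σ τ : Perm (Col depth)} (hσ : σ.IsThreeCycle) (hτ : τ.IsThreeCycle) :
    Xv (D := D) w γ P σ * Xv w γ Q τ * (Xv w γ P σ)⁻¹ =
      Xv w γ (Q ∩ P) (σ * τ * σ⁻¹) * Xv w γ (Q \ P) τ := by
  have key : eps (D := D) w P σ * eps w Q τ * (eps w P σ)⁻¹ =
      eps w (Q ∩ P) (σ * τ * σ⁻¹) * eps w (Q \ P) τ := by
    refine Short.eq (((short_eps _ _ _).mul (short_eps _ _ _)).mul (short_eps _ _ _).inv)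
      ((short_eps _ _ _).mul (short_eps _ _ _)) (le_bound (by norm_num)) ?_
    rw [map_mul, map_mul, map_mul, map_inv, proj_eps P hσ, proj_eps Q hτ,
      proj_eps _ (isThreeCycle_conj hτ σ), proj_eps _ hτ, ← map_inv, ← map_mul, ← map_mul,
      ← map_mul]
    refine colP_ext fun x => ?_
    simp only [Pi.mul_apply, Pi.inv_apply, ind, mem_evSet, Finset.mem_inter, Finset.mem_sdiff]
    by_cases h1 : patX (wcells S w) x ∈ P <;> by_cases h2 : patX (wcells S w) x ∈ Q <;>
      simp [h1, h2]
  simp only [Xv]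
  calc glob γ * eps w P σ * (glob γ)⁻¹ * (glob γ * eps w Q τ * (glob γ)⁻¹) *
        (glob γ * eps w P σ * (glob γ)⁻¹)⁻¹
      = glob γ * (eps w P σ * eps w Q τ * (eps w P σ)⁻¹) * (glob γ)⁻¹ := by group
    _ = _ := by rw [key]; group

variable (S D) in
/-- The local subgroups. -/
def locGroup (F : Finset (Col depth)) : Subgroup (Cov S D) :=
  Subgroup.closure {x | ∃ (w : Bool) (γ : Γ)
    (P : Finset (Pat S (wcells S w))) (σ : Perm (Col depth)),
      σ.IsThreeCycle ∧ σ.support ⊆ F ∧ x = Xv w γ P σ}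

variable (S D) in
/-- The world of the presented group. -/
def world : World (Col depth) (Cov S D) where
  K σ := eps false Finset.univ σ
  Loc := locGroup S D
  card := by rw [Fintype.card_fun, Fintype.card_bool, Fintype.card_fin]; norm_num [depth]
  mono h := Subgroup.closure_mono fun _ ⟨w, γ, P, σ, h1, h2, h3⟩ =>
    ⟨w, γ, P, σ, h1, h2.trans h, h3⟩
  comm {F G} hFG x hx y hy := by
    have h1 : locGroup S D G ≤ Subgroup.centralizer (locGroup S D F : Set _) := by
      rw [locGroup, locGroup, Subgroup.closure_le]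
      rintro _ ⟨w, γ, Q, τ, hτ, hτG, rfl⟩
      rw [SetLike.mem_coe, Subgroup.centralizer_closure, Subgroup.mem_centralizer_iff]
      rintro _ ⟨v, δ, P, σ, hσ, hσF, rfl⟩
      exact (Xv_commute hσ hτ (hFG.mono hσF hτG)).eq
    exact Subgroup.mem_centralizer_iff.1 (h1 hy) x hx
  conj {σ F x} hσ hx := by
    have h1 : locGroup S D F ≤ (locGroup S D (F.map σ.toEmbedding)).comap
        (MulAut.conj (eps false Finset.univ σ)).toMonoidHom := by
      rw [locGroup, Subgroup.closure_le]
      rintro _ ⟨w, γ, P, τ, hτ, hτF, rfl⟩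
      show eps false Finset.univ σ * Xv w γ P τ * (eps false Finset.univ σ)⁻¹ ∈
        locGroup S D (F.map σ.toEmbedding)
      rw [← Xv_univ w γ hσ, window_conj w γ _ P hσ hτ, Finset.inter_univ,
        show P \ Finset.univ = ∅ by simp]
      refine mul_mem (Subgroup.subset_closure ⟨w, γ, P, _, isThreeCycle_conj hτ σ, ?_, rfl⟩) ?_
      · rw [Perm.support_conj]; exact Finset.map_subset_map.2 hτF
      · rw [Xv, eps_empty w hτ, mul_one, mul_inv_cancel]
        exact one_mem _
    exact h1 hx

lemma alg_Xv (w : Bool) (γ : Γ) : Alg (world S D) (Xv w γ) where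
  conj P Q _ _ hσ hτ := window_conj w γ P Q hσ hτ
  univ hσ := Xv_univ w γ hσ
  loc P σ F hσ hF _ := Subgroup.subset_closure ⟨w, γ, P, σ, hσ, hF, rfl⟩
  inv P σ hσ := by
    have key : eps (D := D) w P σ⁻¹ = (eps w P σ)⁻¹ := by
      refine Short.eq (short_eps _ _ _) (short_eps _ _ _).inv (le_bound (by norm_num)) ?_
      rw [map_inv, proj_eps _ hσ.inv, proj_eps _ hσ, ← map_inv]
      refine colP_ext fun x => ?_
      simp only [Pi.inv_apply, ind]
      split_ifs <;> simp
    simp only [Xv, key]
    group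
  cube P σ hσ := by
    have h3 : σ ^ 3 = 1 := by rw [← hσ.orderOf]; exact pow_orderOf_eq_one _
    have key : eps (D := D) w P σ ^ 3 = 1 := by
      rw [pow_succ, pow_two]
      refine Short.eq (((short_eps _ _ _).mul (short_eps _ _ _)).mul (short_eps _ _ _)) short_one
        (le_bound (by norm_num)) ?_
      rw [map_mul, map_mul, map_one, proj_eps _ hσ, ← map_mul, ← map_mul, ← map_one (colP S)]
      refine colP_ext fun x => ?_
      simp only [Pi.mul_apply, ind, Pi.one_apply]
      split_ifs
      · rwa [pow_succ, pow_two] at h3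
      · simp
    rw [Xv, conj_pow, key]
    group
  union {P Q σ} hσ hd := by
    have key : eps (D := D) w (P ∪ Q) σ = eps w P σ * eps w Q σ := by
      refine Short.eq (short_eps _ _ _) ((short_eps _ _ _).mul (short_eps _ _ _))
        (le_bound (by norm_num)) ?_
      rw [map_mul, proj_eps _ hσ, proj_eps _ hσ, proj_eps _ hσ, ← map_mul]
      refine colP_ext fun x => ?_
      have : patX (wcells S w) x ∈ P → patX (wcells S w) x ∉ Q := fun h =>
        Finset.disjoint_left.1 hd h
      simp only [Pi.mul_apply, ind, mem_evSet, Finset.mem_union]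
      by_cases h1 : patX (wcells S w) x ∈ P <;> by_cases h2 : patX (wcells S w) x ∈ Q <;> simp_all
    simp only [Xv, key]
    group

/-! ### Windows as sets of cells -/

/-- The algebra of a moved window. -/
def Tw (w : Bool) (γ : Γ) :
    Finset (Pat S (movF γ (wcells S w))) → Perm (Col depth) → Cov S D :=
  pull (movPat γ) (Xv w γ)

lemma alg_Tw (w : Bool) (γ : Γ) : Alg (world S D) (Tw w γ) :=
  (alg_Xv w γ).pull _

/-- The translation carrying the origin to a cell. -/
def cmv (u : Γ) : Γ := u

lemma origin_mem (S : SFT Γ) : (1 : Γ) ∈ wcells S false := Finset.mem_singleton_self 1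

lemma gmov_cmv (u : Γ) : gmov (cmv u) 1 = u := mul_one u

lemma cmv_gmov (γ : Γ) (u : Γ) : cmv (gmov γ u) = γ * cmv u := rfl

/-- The element of a cell. -/
def cell (u : Γ) (l : S.A) (σ : Perm (Col depth)) : Cov S D :=
  Xv false (cmv u) (ev (1 : Γ) (origin_mem S) l) σ

lemma short_th_cmv {w : Bool} {d : Γ} (hd : d ∈ wcells S w) (a : SW) :
    Short (len S D) (th (S := S) (D := D) a (cmv d)) := by
  cases w with
  | false =>
    rw [Finset.mem_singleton.1 hd, cmv, map_one]
    obtain ⟨v, hv, hn⟩ := short_one (S := S) (D := D)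
    exact ⟨v, hv, hn.trans (Nat.zero_le _)⟩
  | true => exact short_th_win a hd

lemma Tw_cell {w : Bool} {γ : Γ} {u : Γ}
    (h : u ∈ movF γ (wcells S w)) (l : S.A) {σ : Perm (Col depth)} (hσ : σ.IsThreeCycle) :
    Tw (D := D) w γ (ev u h l) σ = cell u l σ := by
  obtain ⟨d, hd, rfl⟩ := Finset.mem_map.1 h
  have e1 : Tw (D := D) w γ (ev (gmov γ d) h l) σ = Xv w γ (ev d hd l) σ := by
    unfold Tw pull
    congr 1
    ext p
    rw [Finset.mem_filter, mem_ev, mem_ev]
    refine (and_iff_right (Finset.mem_univ _)).trans (Eq.congr_left ?_)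
    show p.1 _ = p.1 _
    exact congrArg p.1 (Subtype.ext (by simp [gmov_gmov]))
  have key : Xv (D := D) false (cmv d) (ev (1 : Γ) (origin_mem S) l) σ =
      eps w (ev d hd l) σ := by
    rw [Xv_eq hσ (t := tri σ (cmv d)) fun a ha => tri_apply ha]
    have hs := short_tr_tri (S := S) (D := D) hσ fun a => short_th_cmv hd a
    refine Short.eq ((hs.mul (short_eps _ _ _)).mul hs.inv) (short_eps _ _ _)
      (by have := one_le_len (S := S) (D := D); unfold bound; omega) ?_
    rw [map_mul, map_mul, map_inv, proj_tr, proj_eps _ hσ, proj_eps _ hσ,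
      trC_conj fun a ha => tri_apply (Perm.mem_support.2 ha)]
    refine colP_ext fun x => ?_
    unfold ind
    congr 1
    simp only [mem_shiftSet, mem_evSet, mem_ev, eq_iff_iff]
    show (gA S (cmv d)⁻¹ x).1 (1 : Γ) = l ↔ x.1 d = l
    rw [gA_inv_val, gmov_cmv]
  show Tw (D := D) w γ (ev (gmov γ d) h l) σ = cell (gmov γ d) l σ
  rw [e1, cell, cmv_gmov, Xv, ← key, Xv, Xv, map_mul glob]
  group

end

end Vale.Agent.P193.Pres
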